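import Vale.Agent.P322.CKChk

/-!
Verified boxes, part 11.
-/

namespace Vale.Agent.P322

open Tr

theorem ck1_117 : Ok P1 508 254 254 509 510 383 :=
  sound1
    (B 764 (C 1021 (B 1275 (A 1019 (C 1788 (L 0) (L 0)) (A 2042 (L 0) (L 0))) (C 1788 (A 1019 (B
    2554 (L 0) (A 1786 (L 0) (L 0))) (L 0)) (A 1019 (B 2554 (L 0) (A 1786 (L 0) (L 0))) (A 2042 (L
    0) (L 0))))) (B 1275 (C 2044 (A 1019 (L 0) (L 0)) (A 1019 (L 0) (L 0))) (C 2044 (A 1019 (C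
    3835 (A 1786 (L 0) (L 0)) (A 1786 (L 0) (L 0))) (A 2042 (L 0) (L 0))) (A 1019 (C 4091 (L 0) (L
    0)) (A 2042 (L 0) (L 0)))))) (C 1021 (B 1531 (C 1788 (A 1019 (B 2810 (A 1786 (L 0) (L 0)) (C
    3323 (L 0) (A 1786 (L 0) (L 0)))) (B 2810 (L 0) (L 0))) (A 1019 (B 2810 (C 3579 (L 0) (L 0))
    (C 3579 (A 1786 (L 0) (L 0)) (A 1786 (L 0) (L 0)))) (B 2810 (L 0) (A 2042 (L 0) (L 0))))) (C
    1788 (A 1019 (B 3066 (C 3323 (A 1786 (L 0) (L 0)) (A 1786 (L 0) (L 0))) (C 3323 (A 1786 (L 0)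
    (L 0)) (A 1786 (A 3321 (L 0) (L 0)) (L 0)))) (B 3066 (A 2042 (L 0) (L 0)) (C 3323 (L 0) (L
    0)))) (A 1019 (B 3066 (C 3579 (A 1786 (A 3321 (L 0) (L 0)) (L 0)) (A 1786 (A 3321 (L 0) (L 0))
    (L 0))) (C 3579 (A 1786 (B 6137 (L 0) (L 0)) (A 3577 (L 0) (L 0))) (A 1786 (B 6137 (L 0) (A
    3321 (L 0) (L 0))) (A 3577 (L 0) (L 0))))) (B 3066 (C 3579 (L 0) (L 0)) (C 3579 (A 2042 (L 0)
    (L 0)) (A 2042 (L 0) (L 0))))))) (B 1531 (C 2044 (A 1019 (B 2810 (C 3835 (L 0) (L 0)) (C 3835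
    (A 1786 (L 0) (L 0)) (A 1786 (L 0) (L 0)))) (B 2810 (A 2042 (L 0) (L 0)) (C 3835 (L 0) (L
    0)))) (A 1019 (C 4091 (B 2810 (L 0) (A 1786 (L 0) (L 0))) (B 2810 (L 0) (A 1786 (L 0) (L 0))))
    (C 4091 (A 2042 (L 0) (L 0)) (A 2042 (L 0) (L 0))))) (C 2044 (A 1019 (B 3066 (C 3835 (A 1786
    (A 3321 (L 0) (L 0)) (L 0)) (A 1786 (A 3321 (L 0) (L 0)) (L 0))) (C 3835 (A 1786 (B 6137 (L 0)
    (A 3321 (L 0) (L 0))) (B 6137 (L 0) (L 0))) (A 1786 (B 6137 (A 3321 (L 0) (L 0)) (A 3321 (L 0)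
    (L 0))) (C 7674 (L 0) (L 0))))) (B 3066 (C 3835 (A 2042 (L 0) (L 0)) (A 2042 (L 0) (L 0))) (C
    3835 (B 6137 (L 0) (A 2042 (L 0) (L 0))) (A 2042 (A 3833 (L 0) (L 0)) (L 0))))) (C 4091 (A
    1019 (B 3066 (A 1786 (A 3321 (L 0) (L 0)) (L 0)) (B 6137 (A 1786 (A 3321 (L 0) (L 0)) (L 0))
    (L 2))) (B 3066 (A 2042 (L 0) (L 0)) (B 6137 (A 2042 (L 0) (L 0)) (L 2)))) (B 3066 (A 1019 (A
    1786 (A 3321 (L 0) (L 0)) (L 0)) (A 2042 (L 0) (L 0))) (L 2)))))))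
    _ _ _ _ _ _ (by decide +kernel)

theorem ck2_254 : Ok P2 253 508 763 3321 510 383 :=
  sound2
    (C 1021 (A 763 (B 5880 (C 1788 (A 1274 (B 10999 (A 2297 (L 3740) (L 3709)) (A 2297 (L 3769) (L
    3738))) (B 10999 (A 2553 (L 3678) (C 3323 (L 3686) (L 3698))) (A 2553 (C 3323 (L 3748) (L
    3760)) (C 3323 (L 3716) (L 3728))))) (A 1274 (B 10999 (A 2297 (L 3764) (L 3733)) (A 2297 (L
    3795) (C 3579 (L 3804) (L 3815)))) (B 10999 (A 2553 (C 3579 (L 3740) (L 3750)) (C 3579 (L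
    3708) (L 3719))) (A 2553 (C 3579 (L 3772) (L 3783)) (C 3579 (B 22518 (L 3762) (L 3779)) (B
    22518 (L 3774) (L 1))))))) (C 1788 (B 12279 (C 3323 (A 1274 (A 2297 (L 3843) (L 3811)) (B
    23798 (A 2553 (L 3801) (L 3769)) (L 1))) (L 1)) (L 1)) (L 1))) (B 5880 (C 1788 (B 10999 (A
    1530 (A 2809 (C 3323 (L 3655) (L 3666)) (C 3323 (B 21238 (L 0) (L 0)) (B 21238 (L 0) (L 0))))
    (C 3323 (B 21238 (L 0) (A 3065 (L 0) (L 0))) (B 21238 (L 0) (L 0)))) (A 1530 (C 3323 (A 2809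
    (B 22518 (L 3706) (L 3721)) (B 22518 (L 0) (L 0))) (A 2809 (B 22518 (L 3718) (L 3734)) (B
    22518 (L 0) (L 0)))) (C 3323 (B 22518 (A 3065 (L 0) (L 0)) (A 3065 (L 0) (L 0))) (B 22518 (A
    3065 (L 0) (L 0)) (A 3065 (L 0) (L 0)))))) (B 10999 (A 1530 (C 3579 (A 2809 (L 3676) (B 21238
    (L 0) (L 0))) (A 2809 (B 21238 (L 0) (L 0)) (B 21238 (L 0) (L 0)))) (C 3579 (B 21238 (L 0) (L
    0)) (A 3065 (L 0) (L 0)))) (A 1530 (C 3579 (A 2809 (B 22518 (L 3730) (L 3746)) (B 22518 (L 0)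
    (L 0))) (B 22518 (A 2809 (L 0) (L 0)) (L 1))) (C 3579 (B 22518 (L 0) (A 3065 (L 0) (L 0))) (B
    22518 (L 0) (L 1)))))) (C 1788 (B 12279 (C 3323 (B 23798 (A 1530 (A 2809 (L 3737) (L 0)) (A
    3065 (L 0) (L 0))) (L 1)) (L 1)) (L 1)) (L 1)))) (B 5880 (A 763 (C 2044 (A 1274 (B 10999 (A
    2297 (L 3786) (L 3755)) (B 22518 (A 2297 (L 3842) (L 3811)) (L 1))) (B 10999 (A 2553 (C 3835
    (L 3761) (L 3771)) (C 3835 (L 3729) (L 3739))) (C 3835 (B 22518 (A 2553 (L 3818) (L 3786)) (L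
    1)) (L 1)))) (B 10999 (A 1274 (A 2297 (L 3808) (C 4091 (L 3812) (L 3822))) (A 2553 (C 4091 (L
    3781) (L 3790)) (C 4091 (B 21238 (L 0) (L 0)) (B 21238 (L 0) (L 1))))) (L 1))) (C 2044 (A 1530
    (B 10999 (C 3835 (B 21238 (A 2809 (L 0) (L 0)) (A 2809 (L 0) (L 0))) (B 21238 (L 0) (A 2809 (L
    0) (L 0)))) (C 3835 (B 22518 (A 2809 (L 0) (L 0)) (L 1)) (L 1))) (B 10999 (C 3835 (A 3065 (L
    0) (L 0)) (L 0)) (C 3835 (A 3065 (L 0) (L 0)) (L 1)))) (B 10999 (A 1530 (C 4091 (A 2809 (L 0)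
    (L 0)) (A 2809 (L 0) (L 0))) (A 3065 (L 0) (L 0))) (L 1)))) (L 1)))
    _ _ _ _ _ _ (by decide +kernel)

theorem ck2_145 : Ok P2 507 253 2298 4857 0 252 :=
  sound2
    (C 251 (B 9208 (A 1018 (C 250 (B 17911 (C 249 (A 1785 (A 3320 (L 3278) (L 0)) (L 0)) (A 1785
    (L 3303) (A 3576 (L 3300) (L 0)))) (C 249 (A 1785 (A 3320 (L 3286) (L 0)) (L 0)) (A 1785 (L
    3310) (A 3576 (L 3308) (L 0))))) (A 1785 (B 17911 (L 3329) (L 3337)) (B 17911 (A 3576 (L 3327)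
    (L 3311)) (C 505 (L 3323) (L 3362))))) (C 250 (B 17911 (C 249 (L 0) (A 2041 (L 0) (L 0))) (C
    249 (L 0) (A 2041 (L 0) (L 0)))) (B 17911 (A 2041 (C 505 (A 3832 (L 3313) (L 0)) (L 3322)) (C
    505 (L 0) (A 4088 (L 3320) (L 0)))) (A 2041 (C 505 (A 3832 (L 3321) (L 0)) (A 3832 (L 3360) (L
    3345))) (C 505 (L 0) (A 4088 (L 3329) (L 0))))))) (C 250 (A 1018 (B 18679 (C 249 (A 1785 (A
    3320 (L 3293) (L 0)) (L 0)) (A 1785 (L 3318) (A 3576 (L 3316) (L 0)))) (C 249 (A 1785 (A 3320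
    (L 3300) (L 0)) (L 0)) (A 1785 (L 3326) (A 3576 (L 3324) (L 0))))) (B 18679 (C 249 (L 0) (A
    2041 (L 0) (L 0))) (C 249 (L 0) (A 2041 (L 0) (L 0))))) (A 1018 (A 1785 (B 18679 (L 3345) (A
    3320 (L 3383) (L 3367))) (C 505 (B 18679 (L 3331) (L 3340)) (B 18679 (L 3371) (L 3380)))) (B
    18679 (C 505 (A 2041 (A 3832 (L 3330) (L 0)) (L 0)) (A 2041 (A 3832 (L 3369) (L 3354)) (B
    36854 (L 0) (L 0)))) (C 505 (A 2041 (A 3832 (L 3338) (L 0)) (A 4088 (L 0) (L 0))) (A 2041 (A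
    3832 (L 3378) (L 3363)) (B 37622 (L 0) (L 0)))))))) (B 9208 (A 1018 (C 506 (A 1785 (A 3320 (L
    3404) (L 3388)) (B 17911 (L 3368) (L 3377))) (B 17911 (A 1785 (L 3460) (L 3429)) (A 1785 (L
    3469) (L 3438)))) (C 506 (B 17911 (A 2041 (A 3832 (L 3367) (L 3351)) (C 761 (A 4088 (L 3355)
    (L 3340)) (A 4088 (L 3387) (L 3372)))) (A 2041 (C 761 (L 3366) (L 3398)) (C 761 (A 4088 (L
    3365) (L 3349)) (A 4088 (L 3397) (L 3382))))) (A 2041 (B 17911 (L 3397) (L 3407)) (B 17911 (C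
    1017 (L 3387) (L 3415)) (C 1017 (L 3397) (L 3425)))))) (A 1018 (C 506 (A 1785 (A 3320 (L 3421)
    (L 3405)) (B 18679 (L 3386) (A 3576 (L 3425) (L 3409)))) (A 1785 (L 3453) (B 18679 (L 3448) (L
    3457)))) (C 506 (B 18679 (A 2041 (C 761 (L 3375) (L 3408)) (C 761 (B 36854 (L 3357) (L 3362))
    (A 4088 (L 3407) (L 3391)))) (A 2041 (C 761 (L 3384) (L 3418)) (C 761 (B 37622 (A 4088 (L 0)
    (L 0)) (A 4088 (L 0) (L 0))) (A 4088 (L 3417) (L 3401))))) (B 18679 (A 2041 (A 3832 (L 3447)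
    (L 3431)) (C 1017 (L 3407) (L 3435))) (A 2041 (A 3832 (L 3456) (L 3441)) (C 1017 (A 4088 (L
    3447) (L 3432)) (L 3446))))))))
    _ _ _ _ _ _ (by decide +kernel)

theorem ck1_76 : Ok P1 253 508 764 1531 510 1021 :=
  sound1
    (A 763 (C 1788 (A 1274 (A 2297 (B 2810 (C 3323 (L 3623) (A 4344 (L 3381) (L 3371))) (C 3323 (A
    4344 (L 3430) (L 3419)) (A 4344 (L 3247) (L 3237)))) (B 2810 (C 3323 (A 4600 (L 3540) (L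
    3529)) (A 4600 (L 3360) (B 5369 (L 0) (L 0)))) (C 3323 (A 4600 (L 3409) (L 3397)) (A 4600 (L
    3227) (B 5625 (L 0) (L 3092)))))) (B 2810 (C 3323 (A 2553 (A 4856 (L 0) (L 0)) (L 0)) (A 2553
    (B 5369 (L 0) (L 0)) (A 5112 (L 0) (L 0)))) (C 3323 (A 2553 (A 4856 (L 3386) (L 3375)) (B 5625
    (L 0) (L 0))) (A 2553 (B 5625 (A 4856 (L 0) (L 0)) (A 4856 (L 0) (L 0))) (B 5625 (L 0) (L
    0)))))) (A 1274 (B 2810 (C 3579 (A 2297 (A 4344 (B 5369 (L 3144) (L 3076)) (B 5369 (L 0) (L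
    3066))) (B 5369 (A 4600 (L 0) (L 0)) (A 4600 (L 0) (L 0)))) (A 2297 (B 5369 (A 4344 (L 2965)
    (L 0)) (A 4344 (C 7162 (L 0) (L 0)) (C 7162 (L 0) (L 0)))) (B 5369 (L 0) (A 4600 (L 0) (L
    0))))) (A 2297 (C 3579 (A 4344 (B 5625 (L 3008) (L 2941)) (B 5625 (L 2998) (L 2931))) (A 4344
    (C 7162 (L 2883) (B 5625 (L 0) (L 2669))) (C 7162 (B 5625 (L 0) (L 2750)) (B 5625 (L 0) (L
    0))))) (C 3579 (A 4600 (B 5625 (L 2988) (L 2921)) (B 5625 (L 0) (C 6906 (L 0) (L 0)))) (B 5625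
    (C 7162 (L 0) (L 0)) (C 7162 (A 4600 (L 0) (L 0)) (A 4600 (L 0) (L 0))))))) (B 2810 (C 3579 (A
    2553 (B 5369 (L 0) (L 0)) (A 5112 (L 0) (L 0))) (A 2553 (B 5369 (L 0) (L 0)) (A 5112 (L 0) (L
    0)))) (C 3579 (A 2553 (B 5625 (A 4856 (L 0) (L 0)) (C 6906 (L 0) (L 0))) (B 5625 (L 0) (L 0)))
    (A 2553 (B 5625 (A 4856 (L 0) (L 0)) (C 7162 (L 0) (L 0))) (B 5625 (L 0) (A 5112 (L 0) (L
    0)))))))) (C 1788 (B 2810 (A 1530 (C 3323 (A 2809 (L 0) (L 0)) (A 2809 (L 0) (L 0))) (A 3065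
    (L 0) (L 0))) (A 1530 (C 3323 (A 2809 (L 0) (L 0)) (B 5625 (L 0) (A 2809 (L 0) (L 0)))) (C
    3323 (L 0) (L 0)))) (B 2810 (A 1530 (C 3579 (A 2809 (L 0) (L 0)) (A 2809 (L 0) (L 0))) (C 3579
    (L 0) (L 0))) (A 1530 (C 3579 (B 5625 (L 0) (A 2809 (L 0) (L 0))) (B 5625 (L 0) (A 2809 (L 0)
    (L 0)))) (C 3579 (A 3065 (L 0) (L 0)) (A 3065 (L 0) (L 0)))))))
    _ _ _ _ _ _ (by decide +kernel)

theorem ck2_157 : Ok P2 763 508 762 2041 0 254 :=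
  sound2
    (C 253 (B 3320 (C 252 (A 1530 (B 5879 (B 10998 (A 2809 (L 0) (L 0)) (A 2809 (L 0) (L 0))) (C
    251 (L 0) (A 2809 (L 0) (L 0)))) (B 5879 (L 0) (L 0))) (A 1530 (B 5879 (C 507 (B 10998 (A 2809
    (L 0) (L 0)) (A 2809 (L 0) (L 0))) (A 2809 (L 3065) (L 3037))) (C 507 (B 12278 (A 2809 (L 0)
    (L 0)) (A 2809 (L 0) (L 0))) (A 2809 (L 3072) (B 12278 (L 0) (L 0))))) (B 5879 (B 10998 (L 0)
    (A 3065 (L 0) (L 0))) (C 507 (L 0) (A 3065 (L 0) (L 0)))))) (C 252 (B 7159 (A 1530 (C 251 (L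
    0) (A 2809 (L 0) (L 0))) (A 3065 (L 0) (L 0))) (A 1530 (C 251 (L 0) (B 14838 (L 0) (L 0))) (A
    3065 (L 0) (L 0)))) (A 1530 (B 7159 (C 507 (A 2809 (B 13558 (L 0) (L 0)) (B 13558 (L 0) (L
    0))) (A 2809 (L 3080) (B 13558 (L 0) (L 0)))) (C 507 (A 2809 (B 14838 (L 0) (L 0)) (B 14838 (L
    0) (L 0))) (A 2809 (B 14838 (L 3107) (L 3111)) (B 14838 (L 0) (L 0))))) (B 7159 (C 507 (A 3065
    (L 0) (L 0)) (A 3065 (L 0) (L 0))) (C 507 (A 3065 (L 0) (L 0)) (B 14838 (L 0) (L 0))))))) (B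
    3320 (A 1530 (C 508 (B 5879 (C 763 (A 2809 (L 3112) (L 3084)) (L 3100)) (C 763 (A 2809 (L
    3121) (L 3093)) (L 3110))) (B 5879 (L 3102) (A 2809 (L 3164) (L 3136)))) (B 5879 (C 508 (A
    3065 (B 10998 (L 0) (L 0)) (B 10998 (L 0) (L 0))) (C 1019 (B 10998 (L 3094) (L 3099)) (L
    3108))) (C 508 (A 3065 (C 763 (L 3064) (L 3106)) (B 12278 (L 0) (L 0))) (C 1019 (A 3065 (L
    3142) (L 0)) (L 3119))))) (A 1530 (C 508 (B 7159 (C 763 (A 2809 (L 3131) (L 3102)) (A 2809 (L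
    3173) (L 3145))) (C 763 (A 2809 (L 3141) (B 14838 (L 0) (L 3135))) (A 2809 (L 3185) (L
    3156)))) (B 7159 (A 2809 (L 3174) (L 3145)) (C 1019 (L 3168) (L 3201)))) (B 7159 (C 508 (A
    3065 (C 763 (B 13558 (L 0) (L 0)) (L 3116)) (B 13558 (L 0) (L 0))) (C 1019 (A 3065 (L 3153) (L
    3124)) (A 3065 (L 3186) (L 3157)))) (C 508 (C 763 (B 14838 (A 3065 (L 0) (L 0)) (A 3065 (L 0)
    (L 0))) (A 3065 (L 3127) (B 14838 (L 0) (L 0)))) (A 3065 (C 1019 (L 3165) (L 3199)) (C 1019 (L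
    3136) (L 3170))))))))
    _ _ _ _ _ _ (by decide +kernel)

theorem ck2_209 : Ok P2 508 254 7160 2042 254 509 :=
  sound2
    (C 764 (A 1019 (B 14839 (C 1275 (A 1786 (B 28918 (C 2298 (A 3321 (L 0) (L 0)) (A 3321 (L 0) (L
    0))) (C 2298 (A 3321 (L 0) (L 0)) (A 3321 (L 0) (L 0)))) (B 28918 (A 3577 (L 0) (L 0)) (A 3577
    (L 0) (L 0)))) (A 1786 (B 28918 (A 3321 (A 6392 (L 0) (L 0)) (L 0)) (A 3321 (C 2554 (L 0) (L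
    0)) (A 6648 (L 0) (L 0)))) (B 28918 (A 3577 (L 0) (L 0)) (A 3577 (L 0) (L 0))))) (C 1275 (A
    1786 (B 30198 (C 2298 (A 3321 (L 0) (L 0)) (A 3321 (L 0) (L 0))) (C 2298 (A 3321 (L 0) (L 0))
    (A 3321 (L 0) (L 0)))) (B 30198 (A 3577 (L 0) (L 0)) (A 3577 (L 0) (L 0)))) (A 1786 (B 30198
    (C 2554 (A 3321 (L 0) (L 0)) (A 3321 (L 0) (L 0))) (C 2554 (A 3321 (L 0) (L 0)) (A 3321 (L 0)
    (L 0)))) (B 30198 (A 3577 (L 0) (L 0)) (A 3577 (L 0) (L 0)))))) (B 14839 (C 1275 (A 2042 (A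
    3833 (L 0) (L 0)) (L 0)) (A 2042 (A 3833 (L 0) (L 0)) (L 0))) (C 1275 (A 2042 (B 30198 (L 0)
    (L 0)) (L 0)) (A 2042 (B 30198 (L 0) (L 0)) (L 0))))) (A 1019 (B 14839 (A 1786 (C 1531 (B
    28918 (A 3321 (A 6392 (L 0) (L 0)) (L 0)) (A 3321 (C 2810 (L 0) (L 0)) (L 0))) (B 28918 (A
    3321 (A 6392 (L 0) (L 0)) (L 0)) (A 3321 (A 6392 (L 0) (L 0)) (L 0)))) (C 1531 (B 28918 (A
    3577 (L 0) (L 0)) (A 3577 (L 0) (L 0))) (B 28918 (A 3577 (L 0) (L 0)) (A 3577 (L 0) (L 0)))))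
    (C 1531 (A 1786 (B 30198 (A 3321 (C 2810 (L 0) (L 0)) (A 6648 (L 0) (L 0))) (C 2810 (A 3321 (L
    0) (L 0)) (A 3321 (L 0) (L 0)))) (B 30198 (A 3577 (L 0) (L 0)) (A 3577 (L 0) (L 0)))) (A 1786
    (B 30198 (A 3321 (C 3066 (L 0) (L 0)) (A 6648 (L 0) (L 0))) (A 3321 (C 3066 (L 0) (L 0)) (A
    6648 (L 0) (L 0)))) (B 30198 (A 3577 (L 0) (L 0)) (A 3577 (L 0) (L 0)))))) (B 14839 (C 1531 (A
    2042 (A 3833 (L 0) (L 0)) (L 0)) (A 2042 (A 3833 (L 0) (L 0)) (L 0))) (C 1531 (A 2042 (B 30198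
    (L 0) (L 0)) (L 0)) (A 2042 (B 30198 (L 0) (L 0)) (L 0))))))
    _ _ _ _ _ _ (by decide +kernel)

theorem ck2_188 : Ok P2 763 508 7160 2042 253 508 :=
  sound2
    (B 14839 (C 763 (A 1530 (C 1274 (B 28918 (A 2809 (A 5368 (L 3369) (L 3354)) (A 5624 (L 0) (L
    0))) (A 2809 (A 5368 (L 3377) (L 3362)) (A 5624 (L 0) (L 0)))) (B 28918 (A 2809 (A 5368 (L
    3399) (L 3383)) (A 5624 (L 3368) (L 0))) (A 2809 (A 5368 (L 3408) (L 3392)) (B 58357 (L 0) (L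
    0))))) (C 1274 (B 28918 (A 3065 (L 0) (L 0)) (A 3065 (L 0) (L 0))) (B 28918 (A 3065 (L 0) (L
    0)) (A 3065 (L 0) (L 0))))) (A 1530 (B 28918 (C 1530 (A 2809 (L 3396) (A 5624 (L 3396) (L 0)))
    (A 2809 (L 3421) (A 5624 (L 3421) (L 3406)))) (C 1530 (A 2809 (A 5368 (L 3435) (L 3420)) (A
    5624 (L 3405) (L 0))) (A 2809 (L 3431) (A 5624 (L 3431) (L 3415))))) (B 28918 (C 1530 (A 3065
    (A 5880 (L 0) (L 0)) (L 0)) (A 3065 (A 5880 (L 0) (L 0)) (L 0))) (C 1530 (A 3065 (A 5880 (L 0)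
    (L 0)) (L 0)) (A 3065 (A 5880 (L 0) (L 0)) (L 0)))))) (C 763 (A 1530 (C 1274 (B 30198 (A 2809
    (C 2297 (L 3375) (L 3390)) (A 5624 (L 0) (L 0))) (A 2809 (C 2297 (A 5368 (L 0) (L 0)) (L
    3399)) (B 60917 (L 0) (L 0)))) (B 30198 (A 2809 (A 5368 (L 3417) (L 3401)) (B 59637 (L 0) (L
    0))) (A 2809 (C 2553 (L 3414) (L 3429)) (B 60917 (L 0) (L 0))))) (C 1274 (B 30198 (A 3065 (L
    0) (L 0)) (A 3065 (L 0) (L 0))) (B 30198 (A 3065 (A 5880 (L 0) (L 0)) (L 0)) (A 3065 (A 5880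
    (L 0) (L 0)) (L 0))))) (A 1530 (B 30198 (C 1530 (A 2809 (A 5368 (L 3445) (L 3430)) (A 5624 (L
    3414) (A 11255 (L 0) (L 0)))) (A 2809 (A 5368 (L 3471) (L 3456)) (C 3065 (L 3428) (L 3441))))
    (C 1530 (A 2809 (A 5368 (L 3454) (L 3439)) (B 60917 (A 5624 (L 0) (L 0)) (A 5624 (L 0) (L
    0)))) (A 2809 (A 5368 (L 3481) (L 3466)) (C 3065 (A 5624 (L 0) (L 0)) (L 3451))))) (B 30198 (C
    1530 (A 3065 (A 5880 (L 0) (L 0)) (L 0)) (A 3065 (A 5880 (L 0) (L 0)) (L 0))) (C 1530 (A 3065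
    (A 5880 (L 0) (L 0)) (L 0)) (A 3065 (A 5880 (L 0) (L 0)) (L 0)))))))
    _ _ _ _ _ _ (by decide +kernel)

theorem ck1_112 : Ok P1 763 508 1787 1020 510 1788 :=
  sound1
    (B 3578 (C 3323 (A 1530 (B 6905 (A 2809 (C 6394 (L 0) (A 5368 (L 0) (L 0))) (C 6394 (L 0) (L
    0))) (A 2809 (C 6394 (A 5368 (L 0) (L 0)) (A 5368 (L 0) (L 0))) (C 6394 (L 0) (L 0)))) (B 6905
    (C 6394 (L 0) (A 3065 (L 0) (L 0))) (C 6394 (L 0) (A 3065 (L 0) (L 0))))) (A 1530 (B 6905 (A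
    2809 (C 6650 (B 13560 (L 0) (L 0)) (B 13560 (L 0) (A 5368 (L 0) (L 0)))) (C 6650 (A 5624 (L 0)
    (L 0)) (A 5624 (L 0) (L 0)))) (C 6650 (A 2809 (B 13816 (L 0) (L 0)) (A 5624 (L 0) (L 0))) (A
    2809 (B 13816 (A 5368 (L 0) (L 0)) (A 5368 (L 0) (L 0))) (B 13816 (L 0) (L 0))))) (B 6905 (C
    6650 (A 3065 (L 0) (L 0)) (A 3065 (L 0) (L 0))) (C 6650 (A 3065 (L 0) (L 0)) (A 3065 (A 5880
    (L 0) (L 0)) (L 0)))))) (C 3323 (A 1530 (B 7161 (A 2809 (C 6394 (A 5368 (L 0) (L 0)) (B 14072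
    (L 0) (L 0))) (C 6394 (L 0) (A 5624 (L 0) (L 0)))) (C 6394 (A 2809 (A 5368 (L 0) (L 0)) (L 0))
    (A 2809 (B 14328 (L 0) (L 0)) (A 5624 (L 0) (L 0))))) (B 7161 (C 6394 (A 3065 (L 0) (L 0)) (A
    3065 (L 0) (L 0))) (C 6394 (A 3065 (L 0) (L 0)) (A 3065 (L 0) (L 0))))) (A 1530 (B 7161 (C
    6650 (A 2809 (B 14072 (A 5368 (L 0) (L 0)) (A 5368 (L 0) (L 0))) (A 5624 (L 0) (L 0))) (A 2809
    (B 14072 (A 5368 (L 0) (L 0)) (A 5368 (L 0) (L 0))) (B 14072 (L 0) (L 0)))) (C 6650 (A 2809 (B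
    14328 (A 5368 (L 0) (L 0)) (A 5368 (L 0) (L 0))) (B 14328 (L 0) (L 0))) (B 14328 (A 2809 (C
    13305 (L 0) (L 2)) (A 5624 (L 0) (L 0))) (L 2)))) (B 7161 (C 6650 (A 3065 (L 0) (L 0)) (A 3065
    (A 5880 (L 0) (L 0)) (L 0))) (C 6650 (A 3065 (A 5880 (L 0) (L 0)) (L 0)) (B 14328 (A 3065 (L
    0) (L 0)) (L 2)))))))
    _ _ _ _ _ _ (by decide +kernel)

theorem ck1_70 : Ok P1 253 254 254 509 0 255 :=
  sound1
    (B 764 (A 508 (A 763 (B 1275 (C 254 (A 1274 (A 2297 (L 0) (L 0)) (L 0)) (A 1274 (C 509 (C 764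
    (L 7855) (L 7360)) (A 2297 (L 6719) (C 1020 (L 0) (L 6220)))) (C 509 (L 0) (B 2298 (L 0) (L
    0))))) (C 254 (A 1274 (A 2297 (L 0) (L 0)) (L 0)) (A 1274 (C 509 (C 764 (L 7624) (L 7115)) (A
    2297 (L 6464) (C 1020 (L 6403) (L 5959)))) (C 509 (C 764 (L 0) (L 0)) (B 2554 (L 0) (C 1020 (L
    0) (L 0))))))) (B 1275 (C 254 (L 0) (A 1530 (C 509 (L 0) (L 0)) (L 0))) (C 254 (L 0) (C 509 (A
    1530 (L 0) (L 0)) (B 2554 (L 0) (A 1530 (L 0) (L 0))))))) (B 1275 (A 1019 (C 254 (L 0) (L 0))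
    (L 0)) (A 1019 (B 2554 (L 0) (C 254 (L 0) (L 0))) (C 254 (L 0) (L 0))))) (A 508 (A 763 (B 1531
    (C 254 (A 1274 (A 2297 (L 0) (L 0)) (L 0)) (A 1274 (C 509 (A 2297 (L 7258) (C 764 (L 0) (L
    0))) (A 2297 (C 1020 (L 6233) (L 5769)) (C 1020 (L 6176) (L 5722)))) (C 509 (C 764 (L 0) (L
    0)) (B 2810 (C 1020 (L 0) (L 0)) (C 1020 (L 0) (L 0)))))) (C 254 (A 1274 (A 2297 (L 0) (L 0))
    (L 0)) (C 509 (A 1274 (A 2297 (L 7075) (C 764 (L 0) (L 0))) (A 2553 (L 0) (L 0))) (A 1274 (A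
    2297 (C 1020 (L 6021) (L 5547)) (C 1020 (L 5968) (L 5502))) (B 3066 (C 1020 (L 0) (L 0)) (C
    1020 (L 0) (L 0))))))) (B 1531 (C 254 (L 0) (C 509 (A 1530 (L 0) (L 0)) (A 1530 (B 2810 (L 0)
    (L 0)) (L 0)))) (C 254 (L 0) (C 509 (A 1530 (L 0) (L 0)) (A 1530 (B 3066 (L 0) (L 0)) (C 1020
    (L 0) (L 0))))))) (B 1531 (C 254 (L 0) (A 1019 (B 2810 (L 0) (L 0)) (L 0))) (C 254 (L 0) (A
    1019 (C 509 (L 0) (A 1786 (L 0) (L 0))) (C 509 (L 0) (L 0)))))))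
    _ _ _ _ _ _ (by decide +kernel)

theorem ck2_263 : Ok P2 254 255 253 1019 0 254 :=
  sound2
    (B 1530 (A 509 (C 253 (B 2553 (A 764 (C 252 (A 1275 (L 0) (L 0)) (B 4600 (L 0) (L 0))) (L 0))
    (A 764 (C 252 (A 1275 (L 0) (L 0)) (B 5368 (A 1275 (L 0) (L 0)) (A 1275 (L 0) (L 0)))) (B 5368
    (L 0) (L 0)))) (A 764 (B 2553 (A 1275 (B 4600 (C 508 (L 0) (L 0)) (C 508 (L 0) (L 0))) (B 4600
    (L 0) (L 0))) (C 508 (A 1275 (B 5368 (L 0) (L 0)) (L 0)) (A 1275 (B 5368 (L 0) (L 0)) (B 5368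
    (L 0) (L 0))))) (B 2553 (A 1531 (L 0) (L 0)) (C 508 (L 0) (L 0))))) (C 253 (B 2553 (L 0) (L
    0)) (B 2553 (L 0) (L 0)))) (C 253 (A 509 (B 3321 (C 252 (A 764 (B 6136 (L 0) (L 0)) (L 0)) (A
    764 (B 6136 (A 1275 (L 0) (L 0)) (A 1275 (L 0) (L 0))) (L 0))) (C 252 (A 764 (B 6904 (A 1275
    (L 0) (L 0)) (A 1275 (L 0) (L 0))) (L 0)) (A 764 (B 6904 (C 507 (L 0) (L 0)) (C 507 (L 0) (A
    1275 (L 0) (L 0)))) (A 1531 (L 0) (L 0))))) (B 3321 (A 1020 (L 0) (L 0)) (C 252 (L 0) (L 0))))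
    (A 509 (B 3321 (A 764 (C 508 (B 6136 (C 763 (L 0) (A 1275 (L 0) (L 0))) (A 1275 (A 2298 (L 0)
    (L 0)) (L 0))) (A 1275 (B 6136 (A 2298 (L 0) (L 0)) (A 2298 (L 0) (L 0))) (B 6136 (L 0) (L
    0)))) (C 508 (A 1531 (L 0) (L 0)) (A 1531 (L 0) (L 0)))) (A 764 (C 508 (B 6904 (A 1275 (C 763
    (L 0) (L 0)) (L 0)) (A 1275 (C 763 (L 0) (L 0)) (L 0))) (B 6904 (A 1275 (C 1019 (L 0) (L 0))
    (L 0)) (A 1275 (C 1019 (L 0) (L 0)) (L 0)))) (C 508 (B 6904 (L 0) (L 0)) (B 6904 (L 0) (L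
    0))))) (B 3321 (B 6136 (L 0) (L 0)) (C 508 (L 0) (L 0))))))
    _ _ _ _ _ _ (by decide +kernel)

theorem ck1_31 : Ok P1 762 507 254 764 1021 383 :=
  sound1
    (C 2044 (B 1275 (A 1529 (C 3835 (B 2298 (L 3619) (L 3460)) (B 2298 (L 3437) (A 2808 (L 3207)
    (L 3199)))) (C 3835 (B 2298 (L 3598) (L 3439)) (B 2298 (A 3064 (L 0) (L 0)) (A 3064 (L 3191)
    (L 3182))))) (A 1529 (C 3835 (B 2554 (L 3305) (L 3153)) (B 2554 (A 2808 (L 3055) (L 3046)) (A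
    2808 (L 2905) (L 2897)))) (C 3835 (B 2554 (A 3064 (L 3219) (L 3210)) (A 3064 (L 3071) (L
    3063))) (B 2554 (A 3064 (L 3038) (B 4857 (L 2979) (L 2904))) (A 3064 (B 5113 (L 2839) (L
    2765)) (B 5113 (L 2830) (L 2757))))))) (B 1275 (C 4091 (A 1529 (B 2298 (A 2808 (L 0) (L 0)) (A
    2808 (B 4601 (L 0) (L 2900)) (B 4601 (L 0) (L 0)))) (B 2298 (L 0) (A 3064 (L 0) (L 0)))) (A
    1529 (B 2298 (L 0) (A 2808 (L 0) (L 0))) (B 2298 (L 0) (L 0)))) (C 4091 (A 1529 (B 2554 (A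
    2808 (B 4857 (L 2824) (L 2748)) (B 4857 (L 2815) (A 5623 (L 2711) (L 2707)))) (A 2808 (C 7930
    (L 2722) (B 5113 (L 2581) (L 2506))) (C 7930 (L 2714) (B 5113 (L 2573) (L 2498))))) (B 2554 (C
    7930 (A 3064 (L 2856) (L 0)) (A 3064 (L 0) (L 0))) (A 3064 (C 7930 (B 5113 (L 2656) (L 2582))
    (B 5113 (L 0) (A 5879 (L 0) (L 0)))) (C 7930 (B 5113 (L 0) (L 2574)) (B 5113 (L 0) (L 0))))))
    (A 1529 (B 2554 (C 8186 (A 2808 (L 0) (L 0)) (L 0)) (C 8186 (A 2808 (B 5113 (L 0) (A 5367 (L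
    1) (L 0))) (B 5113 (L 0) (A 5623 (L 0) (L 0)))) (A 2808 (B 5113 (L 0) (L 0)) (L 0)))) (B 2554
    (A 3064 (L 0) (L 0)) (C 8186 (A 3064 (B 5113 (L 0) (L 0)) (L 0)) (A 3064 (L 0) (L 0))))))))
    _ _ _ _ _ _ (by decide +kernel)

theorem ck2_233 : Ok P2 763 508 8440 4601 763 508 :=
  sound2
    (B 17399 (A 1530 (C 1530 (B 34038 (A 2809 (C 2809 (A 5368 (L 3525) (L 3509)) (A 5368 (L 3539)
    (L 3524))) (C 2809 (A 5624 (L 0) (L 0)) (A 5624 (L 0) (L 0)))) (A 2809 (C 2809 (A 5368 (L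
    3535) (L 3520)) (A 5368 (L 3550) (L 3534))) (C 2809 (A 5624 (L 0) (L 0)) (A 5624 (L 0) (L
    0))))) (B 34038 (A 2809 (C 3065 (A 5368 (L 3553) (L 3537)) (A 5368 (L 3566) (L 3551))) (C 3065
    (A 5624 (L 0) (L 0)) (A 5624 (L 3535) (L 0)))) (A 2809 (C 3065 (A 5368 (L 3564) (L 3548)) (A
    5368 (L 3577) (L 3562))) (C 3065 (A 5624 (L 3532) (L 0)) (A 5624 (L 3546) (L 0)))))) (C 1530
    (B 34038 (A 3065 (B 67317 (L 0) (L 0)) (A 6136 (L 0) (L 0))) (A 3065 (B 68597 (L 0) (L 0)) (A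
    6136 (L 0) (L 0)))) (B 34038 (A 3065 (C 3065 (L 0) (L 0)) (A 6136 (L 0) (L 0))) (A 3065 (C
    3065 (L 0) (A 5880 (L 0) (L 0))) (A 6136 (L 0) (L 0)))))) (A 1530 (C 1530 (B 35318 (A 2809 (C
    2809 (A 5368 (L 3546) (L 3530)) (A 5368 (L 3561) (L 3545))) (C 2809 (A 5624 (L 0) (L 0)) (B
    69877 (L 0) (L 0)))) (C 2809 (B 71157 (A 2809 (A 5368 (L 0) (L 0)) (L 0)) (L 1)) (L 1))) (B
    35318 (A 2809 (C 3065 (A 5368 (L 3575) (L 3559)) (A 5368 (L 3589) (L 3573))) (C 3065 (B 69877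
    (L 0) (L 0)) (B 69877 (L 0) (L 1)))) (L 1))) (C 1530 (B 35318 (A 3065 (C 2809 (L 0) (L 0)) (A
    6136 (L 0) (L 0))) (C 2809 (A 3065 (L 0) (L 0)) (L 1))) (B 35318 (A 3065 (C 3065 (A 5880 (L 0)
    (L 0)) (A 5880 (L 0) (L 0))) (A 6136 (L 0) (L 0))) (L 1)))))
    _ _ _ _ _ _ (by decide +kernel)

theorem ck2_148 : Ok P2 252 253 2298 764 252 253 :=
  sound2
    (B 4857 (A 507 (A 762 (C 507 (B 9208 (L 3518) (L 3537)) (A 1273 (L 3616) (L 3583))) (C 507 (B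
    9208 (A 1529 (L 3513) (L 3481)) (C 762 (L 3510) (L 3558))) (B 9208 (A 1529 (L 3599) (L 3568))
    (A 1529 (L 3620) (L 3589))))) (C 507 (B 9208 (A 1018 (C 762 (A 1785 (L 3487) (L 3456)) (A 1785
    (L 3534) (L 3503))) (C 762 (A 2041 (B 17911 (L 3450) (L 3460)) (B 17911 (A 4088 (L 3449) (L
    3434)) (A 4088 (L 3459) (L 3444)))) (A 2041 (A 3832 (L 3502) (L 3486)) (B 17911 (L 3466) (L
    3477))))) (A 1018 (C 762 (B 18679 (L 3473) (A 1785 (L 3543) (L 3512))) (A 1785 (L 3555) (L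
    3524))) (C 762 (A 2041 (B 18679 (L 3470) (L 3481)) (B 18679 (A 4088 (L 3470) (L 3454)) (A 4088
    (L 3480) (L 3465)))) (A 2041 (A 3832 (L 3523) (L 3507)) (B 18679 (L 3488) (A 4088 (L 3529) (L
    3514))))))) (B 9208 (A 1018 (C 1018 (A 1785 (L 3576) (L 3545)) (L 3555)) (C 1018 (A 2041 (L
    3514) (B 17911 (L 3509) (L 3520))) (A 2041 (L 3553) (A 4088 (L 3553) (L 3537))))) (A 1018 (C
    1018 (A 1785 (L 3598) (L 3567)) (A 1785 (L 3638) (L 3607))) (C 1018 (A 2041 (A 3832 (L 3567)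
    (L 3551)) (B 18679 (L 3531) (L 3543))) (B 18679 (A 2041 (L 3602) (L 3571)) (L 1))))))) (C 507
    (B 9976 (A 507 (A 762 (L 3555) (C 762 (L 3531) (L 3579))) (B 19447 (A 1018 (C 762 (A 1785 (L
    3554) (L 3523)) (L 3542)) (C 762 (A 2041 (L 3491) (C 1273 (L 3483) (L 3509))) (A 2041 (L 3541)
    (A 4088 (L 3540) (L 3525))))) (L 1))) (L 1)) (L 1)))
    _ _ _ _ _ _ (by decide +kernel)

theorem ck1_106 : Ok P1 1274 763 509 1787 1021 2044 :=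
  sound1
    (B 3322 (C 3835 (B 6393 (A 2553 (C 7418 (B 12536 (A 4856 (A 9463 (L 0) (L 0)) (L 0)) (A 4856
    (C 14585 (L 0) (L 0)) (A 9719 (L 0) (L 0)))) (B 12536 (A 4856 (C 14841 (L 0) (L 0)) (A 9719 (L
    0) (L 0))) (A 4856 (C 14841 (L 0) (L 0)) (A 9719 (L 0) (L 0))))) (C 7418 (B 12536 (A 5112 (L
    0) (L 0)) (A 5112 (L 0) (L 0))) (B 12536 (A 5112 (L 0) (L 0)) (A 5112 (L 0) (L 0))))) (A 2553
    (C 7418 (B 12792 (A 4856 (C 14585 (L 0) (L 0)) (C 14585 (L 0) (L 0))) (A 4856 (C 14585 (A 9463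
    (L 0) (L 0)) (A 9463 (L 0) (L 0))) (C 14585 (L 0) (L 0)))) (B 12792 (C 14841 (A 4856 (A 9463
    (L 0) (L 0)) (L 0)) (L 2)) (L 2))) (C 7418 (B 12792 (C 14585 (L 0) (A 5112 (L 0) (L 0))) (A
    5112 (C 14585 (L 0) (L 0)) (A 10231 (L 0) (L 0)))) (B 12792 (C 14841 (A 5112 (L 0) (L 0)) (L
    2)) (L 2))))) (B 6393 (C 7674 (A 2553 (B 12536 (A 4856 (C 15097 (L 0) (L 0)) (A 9719 (L 0) (L
    0))) (C 15097 (A 4856 (L 0) (L 0)) (L 2))) (B 12536 (A 5112 (L 0) (L 0)) (C 15097 (L 0) (L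
    2)))) (L 2)) (L 2))) (C 3835 (B 6649 (C 7418 (B 13048 (C 14585 (A 2553 (A 4856 (A 9463 (L 0)
    (L 0)) (A 9719 (L 0) (L 0))) (A 5112 (L 0) (L 0))) (L 2)) (L 2)) (L 2)) (L 2)) (L 2)))
    _ _ _ _ _ _ (by decide +kernel)

theorem ck1_86 : Ok P1 253 508 509 1020 255 765 :=
  sound1
    (B 1787 (A 763 (A 1274 (C 1276 (A 2297 (L 4878) (B 3322 (L 4686) (L 4578))) (A 2297 (B 3322 (L
    4292) (L 4178)) (B 3322 (L 4262) (C 2555 (L 4149) (L 3941))))) (C 1276 (B 3322 (A 2553 (L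
    4650) (L 0)) (A 2553 (L 4543) (L 0))) (B 3322 (A 2553 (C 2555 (L 0) (L 4028)) (C 2555 (L 0) (L
    0))) (A 2553 (C 2555 (L 0) (L 3913)) (C 2555 (L 0) (L 0)))))) (C 1276 (B 3322 (A 1530 (L 0) (L
    0)) (A 1530 (L 0) (L 0))) (B 3322 (A 1530 (A 2809 (L 0) (L 0)) (L 0)) (A 1530 (B 6649 (L 0) (L
    0)) (L 0))))) (A 763 (C 1276 (A 1274 (A 2297 (B 3578 (L 4504) (L 4397)) (B 3578 (L 4472) (L
    4366))) (B 3578 (A 2553 (L 4438) (L 0)) (B 7161 (A 2553 (L 0) (L 0)) (A 2553 (L 0) (L 0)))))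
    (A 1274 (A 2297 (B 3578 (L 4064) (C 2555 (L 3951) (L 3735))) (B 3578 (C 2555 (L 4036) (L
    3825)) (C 2555 (L 3924) (L 3710)))) (B 3578 (A 2553 (C 2555 (L 0) (L 3799)) (C 2555 (L 0) (L
    0))) (C 2555 (A 2553 (L 0) (L 0)) (A 2553 (L 3685) (L 0)))))) (C 1276 (B 3578 (A 1530 (L 0) (L
    0)) (A 1530 (A 2809 (L 0) (L 0)) (L 0))) (B 3578 (A 1530 (B 6905 (A 2809 (L 0) (L 0)) (A 2809
    (L 0) (L 0))) (A 3065 (L 0) (L 0))) (A 1530 (C 2555 (L 0) (A 2809 (L 0) (L 0))) (A 3065 (L 0)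
    (L 0)))))))
    _ _ _ _ _ _ (by decide +kernel)

theorem ck1_98 : Ok P1 1274 763 509 1787 510 1788 :=
  sound1
    (B 3322 (C 3323 (A 2553 (A 4856 (B 6393 (L 2944) (L 2881)) (B 6393 (L 2934) (L 2871))) (B 6393
    (C 6394 (L 0) (A 5112 (L 0) (L 0))) (C 6394 (L 0) (A 5112 (L 0) (L 0))))) (A 2553 (A 4856 (C
    6650 (B 6393 (L 2759) (L 2695)) (B 6393 (L 2667) (L 2602))) (B 6393 (C 6650 (L 0) (L 2658)) (C
    6650 (L 2686) (L 2593)))) (B 6393 (C 6650 (A 5112 (L 0) (L 0)) (A 5112 (L 0) (L 0))) (C 6650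
    (A 5112 (L 0) (L 0)) (A 5112 (L 2584) (L 0)))))) (C 3323 (A 2553 (A 4856 (B 6649 (L 2818) (L
    2755)) (B 6649 (C 6394 (L 0) (L 2715)) (C 6394 (L 2746) (L 2652)))) (B 6649 (C 6394 (A 5112 (L
    0) (L 0)) (A 5112 (L 0) (L 0))) (C 6394 (A 5112 (L 0) (L 0)) (A 5112 (L 2643) (L 0))))) (A
    2553 (A 4856 (C 6650 (B 6649 (L 2631) (L 2567)) (B 6649 (L 2538) (L 2474))) (C 6650 (B 6649 (L
    2622) (L 2559)) (B 6649 (L 2529) (A 9719 (L 2445) (L 2441))))) (B 6649 (C 6650 (A 5112 (L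
    2613) (L 0)) (A 5112 (A 9975 (L 2500) (L 0)) (A 10231 (L 0) (L 0)))) (C 6650 (A 5112 (L 2550)
    (A 10231 (L 0) (L 0))) (A 5112 (A 9975 (L 2437) (L 2433)) (A 10231 (L 2429) (L 0))))))))
    _ _ _ _ _ _ (by decide +kernel)

theorem ck1_90 : Ok P1 253 508 1020 2043 765 1532 :=
  sound1
    (A 763 (B 3834 (A 1274 (A 2297 (C 2811 (L 3404) (A 4344 (L 3139) (L 3130))) (C 2811 (A 4600 (L
    3327) (L 3317)) (A 4600 (L 3120) (L 3111)))) (C 2811 (A 2553 (A 4856 (L 3306) (L 3296)) (A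
    5112 (L 3285) (L 3274))) (B 7417 (A 2553 (A 4856 (L 3034) (L 0)) (A 5112 (L 0) (L 0))) (A 2553
    (A 4856 (L 2974) (L 0)) (A 5112 (L 0) (L 0)))))) (A 1274 (A 2297 (C 2811 (A 4344 (L 3229) (L
    3220)) (A 4344 (L 3018) (L 3009))) (C 2811 (A 4600 (L 3210) (L 3201)) (A 4600 (B 7673 (L 2933)
    (L 2872)) (B 7673 (L 2923) (L 2863))))) (C 2811 (B 7673 (A 2553 (L 0) (L 0)) (A 2553 (L 0) (L
    0))) (B 7673 (A 2553 (A 4856 (L 2914) (L 0)) (A 5112 (L 0) (L 0))) (A 2553 (A 4856 (L 2854) (L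
    0)) (A 5112 (L 0) (L 0))))))) (B 3834 (A 1530 (C 2811 (B 7417 (L 0) (L 0)) (B 7417 (A 2809 (L
    0) (L 0)) (A 2809 (L 0) (L 0)))) (C 2811 (A 3065 (L 0) (L 0)) (B 7417 (L 0) (L 0)))) (C 2811
    (A 1530 (B 7673 (L 0) (L 0)) (A 3065 (L 0) (L 0))) (A 1530 (B 7673 (A 2809 (L 0) (L 0)) (A
    2809 (L 0) (L 0))) (B 7673 (L 0) (L 0))))))
    _ _ _ _ _ _ (by decide +kernel)

theorem ck1_84 : Ok P1 763 508 1531 509 1021 2044 :=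
  sound1
    (B 3066 (C 3835 (A 1530 (B 5881 (A 2809 (L 0) (L 0)) (A 2809 (A 5368 (L 0) (L 0)) (L 0))) (B
    5881 (L 0) (A 3065 (L 0) (L 0)))) (A 1530 (B 5881 (A 2809 (L 0) (L 0)) (C 7674 (A 2809 (L 0)
    (L 0)) (A 2809 (L 0) (L 0)))) (B 5881 (L 0) (A 3065 (L 0) (L 0))))) (C 3835 (A 1530 (B 6137 (C
    7418 (A 2809 (L 0) (L 0)) (A 2809 (L 0) (L 0))) (C 7418 (A 2809 (A 5368 (L 0) (L 0)) (L 0)) (A
    2809 (A 5368 (L 0) (L 0)) (L 0)))) (B 6137 (C 7418 (L 0) (L 0)) (C 7418 (A 3065 (L 0) (L 0))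
    (A 3065 (L 0) (L 0))))) (A 1530 (B 6137 (C 7674 (A 2809 (L 0) (L 0)) (A 2809 (L 0) (L 0))) (C
    7674 (A 2809 (A 5368 (L 0) (L 0)) (L 0)) (A 2809 (A 5368 (L 0) (L 0)) (L 0)))) (B 6137 (C 7674
    (L 0) (L 0)) (C 7674 (A 3065 (L 0) (L 0)) (A 3065 (L 0) (L 0)))))))
    _ _ _ _ _ _ (by decide +kernel)

theorem ck1_13 : Ok P1 251 252 253 254 255 383 :=
  sound1
    (C 510 (A 506 (B 508 (L 8546) (L 7588)) (B 508 (B 763 (L 8158) (L 7633)) (C 765 (L 7501) (L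
    6575)))) (A 506 (B 508 (C 1021 (L 6767) (A 761 (L 5602) (B 763 (L 5381) (L 4913)))) (C 1021 (B
    1019 (L 5594) (L 5219)) (A 761 (B 1019 (L 4530) (A 1272 (L 4022) (L 4021))) (C 2044 (L 4726)
    (B 1019 (L 4166) (B 2042 (L 3706) (L 3534))))))) (B 508 (C 1021 (B 763 (L 6439) (L 5931)) (C
    2044 (B 763 (L 5690) (L 5185)) (A 1017 (B 763 (L 1) (L 1)) (L 1)))) (C 1021 (A 1017 (L 5441)
    (B 1019 (L 5194) (L 4835))) (A 1017 (C 2044 (B 1019 (L 4497) (L 4134)) (B 1019 (B 1786 (L 1)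
    (L 3860)) (A 1784 (L 3672) (B 2042 (L 3570) (L 3403))))) (C 2044 (B 1019 (L 4483) (L 4118)) (B
    1019 (A 2040 (L 1) (L 1)) (C 4091 (L 3759) (A 2040 (L 1) (L 1))))))))))
    _ _ _ _ _ _ (by decide +kernel)

theorem ck2_222 : Ok P2 508 254 4601 764 0 252 :=
  sound2
    (B 9720 (C 251 (A 1019 (B 18679 (A 1786 (L 0) (L 0)) (B 37878 (L 0) (L 0))) (B 18679 (L 0) (L
    0))) (A 1019 (B 18679 (C 506 (A 1786 (L 0) (L 0)) (A 1786 (L 0) (L 0))) (C 506 (A 1786 (L 0)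
    (L 0)) (A 1786 (L 0) (L 0)))) (B 18679 (A 2042 (L 0) (L 0)) (A 2042 (L 0) (L 0))))) (C 251 (A
    1019 (C 250 (A 1786 (L 0) (L 0)) (B 19959 (L 0) (L 0))) (B 19959 (L 0) (L 0))) (A 1019 (B
    19959 (C 506 (A 1786 (L 0) (L 0)) (B 39158 (L 0) (A 1786 (L 0) (L 0)))) (C 506 (A 1786 (L 0)
    (L 0)) (L 1))) (B 19959 (B 39158 (L 0) (L 0)) (B 40438 (L 0) (L 1))))))
    _ _ _ _ _ _ (by decide +kernel)

theorem ck1_68 : Ok P1 253 254 252 253 0 383 :=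
  sound1
    (C 255 (A 508 (A 763 (B 507 (L 0) (C 254 (L 0) (L 0))) (L 0)) (L 0)) (C 510 (A 508 (A 763 (B
    507 (L 0) (L 0)) (L 0)) (L 0)) (A 508 (B 507 (L 0) (L 0)) (L 0))))
    _ _ _ _ _ _ (by decide +kernel)

theorem ck2_258 : Ok P2 254 255 0 755 0 383 :=
  sound2
    (L 0)
    _ _ _ _ _ _ (by decide +kernel)

end Vale.Agent.P322
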