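import Vale.Agent.P322.CKChk

/-!
Verified boxes, part 5.
-/

namespace Vale.Agent.P322

open Tr

theorem ck1_120 : Ok P1 508 1019 509 255 510 383 :=
  sound1
    (C 1021 (B 1020 (B 1787 (C 1788 (B 3322 (C 3323 (A 1786 (A 3321 (L 0) (L 0)) (L 0)) (A 1786 (B
    6393 (L 0) (L 0)) (A 3577 (L 0) (L 0)))) (C 3323 (A 1786 (B 6649 (L 0) (L 0)) (A 3577 (L 0) (L
    0))) (A 1786 (B 6649 (A 3321 (L 0) (L 0)) (A 3321 (L 0) (L 0))) (B 6649 (L 0) (L 0))))) (B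
    3322 (C 3579 (A 1786 (B 6393 (A 3321 (L 0) (L 0)) (A 3321 (L 0) (L 0))) (B 6393 (L 0) (L 0)))
    (A 1786 (B 6393 (A 3321 (L 0) (L 0)) (C 7162 (L 0) (L 0))) (B 6393 (L 0) (A 3577 (L 0) (L
    0))))) (C 3579 (A 1786 (B 6649 (C 6906 (L 0) (L 0)) (C 6906 (L 0) (A 3321 (L 0) (L 0)))) (B
    6649 (L 0) (A 3577 (L 0) (L 0)))) (A 1786 (B 6649 (C 7162 (A 3321 (L 0) (L 0)) (A 3321 (L 0)
    (L 0))) (C 7162 (A 3321 (L 0) (L 0)) (A 3321 (L 0) (L 0)))) (B 6649 (A 3577 (L 0) (L 0)) (C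
    7162 (L 0) (L 0))))))) (C 1788 (B 3578 (C 3323 (A 1786 (B 6905 (A 3321 (L 0) (L 0)) (A 3321 (L
    0) (L 0))) (B 6905 (L 0) (L 0))) (A 1786 (B 6905 (C 6650 (L 0) (L 0)) (C 6650 (L 0) (A 3321 (L
    0) (L 0)))) (B 6905 (L 0) (A 3577 (L 0) (L 0))))) (C 3323 (A 1786 (B 7161 (A 3321 (L 0) (L 0))
    (C 6394 (L 0) (L 0))) (B 7161 (L 0) (L 0))) (A 1786 (B 7161 (C 6650 (L 0) (A 3321 (L 0) (L
    0))) (C 6650 (A 3321 (L 0) (L 0)) (A 3321 (L 0) (L 0)))) (B 7161 (A 3577 (L 0) (L 0)) (C 6650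
    (L 0) (L 0)))))) (B 3578 (C 3579 (A 1786 (B 6905 (C 6906 (A 3321 (L 0) (L 0)) (A 3321 (L 0) (L
    0))) (C 6906 (A 3321 (L 0) (L 0)) (A 3321 (L 0) (L 0)))) (B 6905 (C 6906 (L 0) (L 0)) (C 6906
    (L 0) (L 0)))) (B 6905 (C 7162 (A 1786 (A 3321 (L 0) (L 0)) (L 0)) (L 2)) (L 2))) (C 3579 (B
    7161 (C 6906 (A 1786 (A 3321 (L 0) (L 0)) (L 0)) (L 2)) (L 2)) (L 2))))) (B 2043 (C 1788 (B
    3834 (C 3323 (A 1786 (B 7417 (C 6394 (L 0) (L 0)) (C 6394 (L 0) (A 3321 (L 0) (L 0)))) (B 7417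
    (A 3577 (L 0) (L 0)) (A 3577 (L 0) (L 0)))) (B 7417 (C 6650 (A 1786 (A 3321 (L 0) (L 0)) (L
    0)) (L 2)) (L 2))) (C 3323 (B 7673 (C 6394 (A 1786 (L 0) (L 0)) (L 2)) (L 2)) (L 2))) (L 2))
    (L 2))) (B 1020 (B 1787 (C 2044 (B 3322 (C 3835 (A 1786 (B 6393 (C 7418 (L 0) (L 0)) (C 7418
    (A 3321 (L 0) (L 0)) (A 3321 (L 0) (L 0)))) (B 6393 (A 3577 (L 0) (L 0)) (C 7418 (L 0) (L
    0)))) (B 6393 (C 7674 (A 1786 (L 0) (L 0)) (L 2)) (L 2))) (C 3835 (B 6649 (C 7418 (A 1786 (A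
    3321 (L 0) (L 0)) (L 0)) (L 2)) (L 2)) (L 2))) (L 2)) (L 2)) (L 2)))
    _ _ _ _ _ _ (by decide +kernel)

theorem ck2_147 : Ok P2 507 253 4857 764 0 252 :=
  sound2
    (C 251 (B 9976 (C 250 (A 1018 (B 19447 (C 249 (A 1785 (A 3320 (L 3308) (L 0)) (L 0)) (A 1785
    (L 3334) (A 3576 (L 3332) (L 0)))) (C 249 (A 1785 (A 3320 (L 3316) (L 0)) (L 0)) (A 1785 (L
    3343) (A 3576 (L 3340) (L 0))))) (B 19447 (C 249 (L 0) (A 2041 (A 3832 (L 0) (L 0)) (L 0))) (C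
    249 (A 2041 (L 0) (L 0)) (A 2041 (A 3832 (L 0) (L 0)) (L 0))))) (A 1018 (B 19447 (A 1785 (A
    3320 (L 3392) (L 3376)) (C 505 (A 3576 (L 3379) (L 3363)) (L 3389))) (A 1785 (A 3320 (L 3400)
    (L 3384)) (C 505 (A 3576 (L 3387) (L 3372)) (L 3398)))) (B 19447 (C 505 (A 2041 (A 3832 (L
    3347) (L 0)) (A 4088 (L 0) (L 0))) (A 2041 (A 3832 (L 3388) (L 3372)) (B 38390 (L 0) (L 0))))
    (C 505 (A 2041 (B 39158 (L 0) (L 0)) (A 4088 (L 0) (L 0))) (A 2041 (B 39158 (L 3381) (L 3385))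
    (B 39158 (L 0) (L 0))))))) (C 250 (A 1018 (B 20215 (C 249 (A 1785 (A 3320 (L 3323) (L 0)) (L
    0)) (A 1785 (A 3320 (L 3381) (L 3365)) (A 3576 (L 3349) (L 0)))) (C 249 (A 1785 (A 3320 (L
    3331) (L 0)) (L 0)) (A 1785 (A 3320 (L 3390) (L 3374)) (B 40694 (L 0) (L 0))))) (B 20215 (C
    249 (A 2041 (L 0) (L 0)) (A 2041 (A 3832 (L 0) (L 0)) (L 0))) (C 249 (A 2041 (L 0) (L 0)) (A
    2041 (A 3832 (L 0) (L 0)) (L 0))))) (A 1018 (B 20215 (A 1785 (A 3320 (L 3409) (L 3393)) (C 505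
    (A 3576 (L 3396) (L 3381)) (L 3408))) (C 505 (A 1785 (L 3407) (A 3576 (L 3406) (L 3390))) (L
    1))) (B 20215 (C 505 (A 2041 (B 39926 (L 0) (L 0)) (A 4088 (L 0) (L 0))) (A 2041 (B 39926 (L
    3390) (A 3832 (L 3425) (L 0))) (B 39926 (L 0) (L 0)))) (C 505 (C 760 (A 2041 (L 0) (L 0)) (L
    1)) (L 1)))))) (B 9976 (A 1018 (C 506 (A 1785 (B 19447 (L 3436) (L 3445)) (B 19447 (A 3576 (L
    3434) (L 3419)) (A 3576 (L 3444) (L 3428)))) (A 1785 (A 3320 (L 3502) (L 3486)) (B 19447 (L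
    3467) (L 3477)))) (C 506 (B 19447 (A 2041 (C 761 (A 3832 (L 3424) (L 3409)) (L 3427)) (C 761
    (A 4088 (L 3393) (A 8183 (L 3392) (L 0))) (A 4088 (L 3427) (L 3411)))) (A 2041 (C 761 (A 3832
    (L 3434) (L 3418)) (L 3438)) (C 761 (A 4088 (L 3403) (B 39158 (L 0) (L 0))) (B 39158 (L 3420)
    (L 3425))))) (B 19447 (A 2041 (A 3832 (L 3466) (L 3451)) (C 1017 (A 4088 (L 3458) (L 3442)) (L
    3456))) (A 2041 (A 3832 (L 3476) (L 3461)) (C 1017 (A 4088 (L 3468) (L 3453)) (A 4088 (L 3498)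
    (L 3482))))))) (C 506 (B 20215 (B 39926 (A 1018 (A 1785 (L 3469) (L 3437)) (C 761 (A 2041 (L
    3428) (A 4088 (L 0) (L 0))) (L 1))) (L 1)) (L 1)) (L 1))))
    _ _ _ _ _ _ (by decide +kernel)

theorem ck1_40 : Ok P1 252 507 509 255 255 510 :=
  sound1
    (A 762 (B 1020 (C 765 (A 1273 (B 1787 (L 5083) (L 4854)) (B 1787 (L 5066) (L 4839))) (A 1273
    (C 1532 (B 1787 (L 4180) (L 3931)) (B 1787 (L 3760) (A 2296 (L 3417) (L 3413)))) (C 1532 (B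
    1787 (L 4165) (L 3917)) (B 1787 (L 3746) (A 2552 (L 3409) (L 3404)))))) (C 765 (A 1273 (B 2043
    (C 1276 (L 4630) (L 4144)) (C 1276 (L 4407) (L 3907))) (C 1276 (B 2043 (L 4615) (L 4394)) (B
    2043 (L 4130) (L 3895)))) (A 1273 (C 1532 (B 2043 (A 2296 (L 3594) (L 3591)) (A 2296 (L 3350)
    (L 3347))) (B 2043 (A 2296 (B 3834 (L 3041) (L 2911)) (B 3834 (L 3036) (L 2906))) (A 2296 (B
    4090 (L 2779) (C 3067 (L 2645) (L 2))) (B 4090 (C 3067 (L 2775) (L 2560)) (C 3067 (L 2641) (L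
    2)))))) (C 1532 (B 2043 (A 2552 (L 3587) (L 3583)) (A 2552 (B 4090 (L 3209) (L 3083)) (B 4090
    (L 3203) (L 3078)))) (B 2043 (C 3067 (A 2552 (L 3155) (L 3151)) (A 2552 (L 2944) (L 2940))) (C
    3067 (A 2552 (B 4090 (L 2770) (L 2637)) (B 4090 (L 2765) (L 2632))) (B 4090 (A 2552 (L 2555)
    (L 2551)) (L 2)))))))) (B 1020 (C 765 (A 1529 (B 1787 (L 5047) (C 1276 (L 4820) (L 4349))) (B
    1787 (C 1276 (L 5024) (L 4566)) (C 1276 (L 4800) (L 4331)))) (A 1529 (C 1532 (B 1787 (L 4149)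
    (L 3902)) (B 1787 (B 3322 (L 3605) (L 3475)) (A 2808 (L 3399) (B 3578 (L 3268) (L 3142))))) (B
    1787 (C 1532 (L 4132) (B 3322 (L 3587) (L 3457))) (C 1532 (B 3578 (L 3749) (L 3625)) (C 3067
    (B 3578 (L 3328) (L 3199)) (B 3578 (L 3123) (L 2990))))))) (C 765 (A 1529 (C 1276 (B 2043 (L
    4599) (L 4379)) (B 2043 (L 4115) (A 2808 (L 3799) (L 3794)))) (C 1276 (B 2043 (L 4580) (L
    4361)) (B 2043 (L 4099) (A 3064 (L 3788) (L 3783))))) (B 2043 (C 1532 (A 1529 (A 2808 (L 3579)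
    (L 3574)) (A 3064 (L 3568) (B 3834 (L 3424) (L 3302)))) (A 1529 (C 3067 (A 2808 (L 3147) (L
    3142)) (B 3834 (L 2872) (A 2808 (L 2680) (L 2675)))) (C 3067 (A 3064 (L 3137) (L 3131)) (B
    3834 (A 3064 (L 2801) (L 2795)) (A 3064 (L 2669) (L 2664)))))) (C 1532 (A 1529 (C 2811 (A 2808
    (L 3336) (L 3331)) (A 2808 (L 3111) (L 3107))) (B 4090 (A 3064 (L 3186) (L 3180)) (A 3064 (L
    3061) (C 2811 (L 3055) (L 2832))))) (A 1529 (B 4090 (C 3067 (A 2808 (L 2760) (L 2755)) (A 2808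
    (L 2546) (L 2541))) (C 3067 (A 2808 (L 2628) (L 2623)) (L 2))) (B 4090 (C 3067 (A 3064 (L
    2750) (L 2744)) (A 3064 (L 2536) (A 6135 (L 2506) (L 2504)))) (C 3067 (A 3064 (L 2618) (L
    2612)) (L 2)))))))))
    _ _ _ _ _ _ (by decide +kernel)

theorem ck2_135 : Ok P2 252 253 253 1530 0 254 :=
  sound2
    (C 253 (A 507 (B 2553 (C 252 (A 762 (A 1273 (L 3156) (L 3122)) (B 4600 (A 1529 (L 3131) (L
    3099)) (C 251 (L 3097) (L 3206)))) (A 762 (L 3265) (L 3201))) (C 252 (A 762 (B 5368 (L 3154)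
    (L 3160)) (C 251 (B 5368 (A 1529 (L 3159) (L 3127)) (A 1529 (L 3167) (L 3135))) (A 1529 (L
    3229) (L 3197)))) (A 762 (L 3285) (B 5368 (L 3261) (L 3272))))) (B 2553 (C 252 (A 1018 (C 251
    (B 4600 (B 8695 (A 1785 (L 3104) (L 3073)) (A 1785 (L 3107) (L 3076))) (A 1785 (L 3088) (B
    9463 (L 3080) (L 3083)))) (B 4600 (L 3136) (L 3145))) (C 251 (B 4600 (C 250 (A 2041 (B 8695 (L
    3051) (L 3054)) (B 8695 (L 0) (L 0))) (B 8695 (L 3064) (A 2041 (L 3121) (L 3091)))) (C 250 (A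
    2041 (B 9463 (L 3058) (L 3061)) (B 9463 (L 0) (L 0))) (A 2041 (L 3103) (B 9463 (L 3096) (L
    3101))))) (B 4600 (B 8695 (L 3098) (A 2041 (L 3155) (L 3126))) (A 2041 (L 3138) (B 9463 (L
    3130) (L 3135)))))) (A 1018 (B 4600 (L 3181) (L 3190)) (B 4600 (C 507 (L 3156) (L 3220)) (C
    507 (A 2041 (L 3221) (L 3191)) (L 3233))))) (C 252 (A 1018 (C 251 (B 5368 (A 1785 (B 10231 (L
    3118) (L 3122)) (B 10231 (L 3087) (L 3091))) (C 250 (A 1785 (L 3113) (B 10999 (L 3105) (L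
    3109))) (A 1785 (L 3185) (L 3154)))) (B 5368 (A 1785 (L 3209) (L 3178)) (A 1785 (L 3220) (L
    3189)))) (C 251 (B 5368 (C 250 (B 10231 (A 2041 (L 3065) (L 0)) (A 2041 (A 3832 (L 3097) (L
    0)) (L 0))) (A 2041 (L 3113) (B 10231 (L 3106) (L 3111)))) (C 250 (B 10999 (A 2041 (A 3832 (L
    3101) (L 0)) (L 0)) (A 2041 (A 3832 (L 3106) (L 0)) (L 0))) (A 2041 (B 10999 (L 3146) (L
    3151)) (B 10999 (L 3116) (L 3121))))) (B 5368 (A 2041 (L 3148) (B 10231 (L 3141) (L 3146))) (A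
    2041 (B 10999 (L 3181) (L 3187)) (B 10999 (L 3151) (A 4088 (L 3184) (L 3169))))))) (A 1018 (C
    507 (B 5368 (L 3239) (L 3251)) (B 5368 (L 3306) (L 3321))) (C 507 (B 5368 (A 2041 (L 3233) (L
    3203)) (A 2041 (L 3246) (L 3216))) (B 5368 (L 3246) (L 3261))))))) (A 507 (B 2553 (C 508 (L
    3267) (L 3350)) (C 508 (A 762 (L 3402) (L 3339)) (A 762 (L 3490) (L 3429)))) (B 2553 (C 508 (A
    1018 (B 4600 (L 3293) (L 3305)) (B 4600 (L 3234) (L 3246))) (A 1018 (L 3338) (B 4600 (L 3318)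
    (L 3333)))) (C 508 (A 1018 (B 5368 (L 3319) (L 3332)) (C 763 (B 5368 (L 3303) (L 3319)) (B
    5368 (L 3352) (L 3369)))) (A 1018 (B 5368 (L 3408) (L 3424)) (B 5368 (L 3348) (L 3364)))))))
    _ _ _ _ _ _ (by decide +kernel)

theorem ck1_80 : Ok P1 253 508 764 1531 1021 383 :=
  sound1
    (C 2044 (A 763 (A 1274 (B 2810 (C 3835 (A 2297 (B 5369 (A 4344 (L 0) (L 0)) (C 7418 (L 0) (L
    0))) (B 5369 (L 0) (A 4600 (L 0) (L 0)))) (A 2297 (B 5369 (L 0) (A 4344 (L 0) (L 0))) (B 5369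
    (L 0) (L 0)))) (C 3835 (A 2297 (B 5625 (C 7418 (A 4344 (L 0) (L 0)) (A 4344 (L 0) (L 0))) (C
    7418 (A 4344 (A 8439 (L 0) (L 0)) (L 0)) (A 4344 (A 8439 (L 0) (L 0)) (L 0)))) (B 5625 (C 7418
    (L 0) (L 0)) (C 7418 (A 4600 (L 0) (L 0)) (A 4600 (L 0) (L 0))))) (A 2297 (B 5625 (C 7674 (A
    4344 (L 0) (L 0)) (L 0)) (C 7674 (A 4344 (L 0) (L 0)) (A 4344 (L 0) (L 0)))) (B 5625 (A 4600
    (L 0) (L 0)) (C 7674 (L 0) (L 0)))))) (B 2810 (C 3835 (A 2553 (A 4856 (L 0) (L 0)) (L 0)) (A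
    2553 (A 4856 (L 0) (L 0)) (L 0))) (C 3835 (A 2553 (B 5625 (A 4856 (L 0) (L 0)) (C 7418 (L 0)
    (L 0))) (C 7418 (L 0) (L 0))) (A 2553 (C 7674 (A 4856 (L 0) (L 0)) (A 4856 (L 0) (L 0))) (B
    5625 (L 0) (L 0)))))) (B 2810 (A 1530 (C 3835 (A 2809 (L 0) (L 0)) (A 2809 (L 0) (L 0))) (C
    3835 (L 0) (L 0))) (C 3835 (A 1530 (B 5625 (L 0) (A 2809 (L 0) (L 0))) (A 3065 (L 0) (L 0)))
    (A 1530 (C 7674 (A 2809 (L 0) (L 0)) (A 2809 (L 0) (L 0))) (A 3065 (L 0) (L 0)))))) (A 763 (C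
    4091 (A 1274 (B 2810 (A 2297 (B 5369 (L 0) (L 0)) (A 4600 (L 0) (L 0))) (A 2297 (C 7930 (B
    5625 (L 0) (A 4344 (L 0) (L 0))) (A 4344 (L 0) (L 0))) (C 7930 (A 4600 (L 0) (L 0)) (A 4600 (L
    0) (L 0))))) (B 2810 (A 2553 (L 0) (L 0)) (A 2553 (C 7930 (L 0) (L 0)) (A 5112 (L 0) (L 0)))))
    (A 1274 (B 2810 (A 2297 (L 0) (L 0)) (A 2297 (C 8186 (A 4344 (L 0) (L 0)) (L 0)) (C 8186 (L 0)
    (L 0)))) (B 2810 (A 2553 (L 0) (L 0)) (C 8186 (A 2553 (L 0) (L 0)) (L 0))))) (C 4091 (B 2810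
    (A 1530 (L 0) (L 0)) (A 1530 (C 7930 (L 0) (L 0)) (A 3065 (L 0) (L 0)))) (B 2810 (A 1530 (L 0)
    (L 0)) (A 1530 (A 2809 (L 0) (L 0)) (L 0))))))
    _ _ _ _ _ _ (by decide +kernel)

theorem ck1_127 : Ok P1 254 255 509 255 255 510 :=
  sound1
    (B 1020 (C 765 (B 1787 (A 509 (A 764 (B 3322 (L 0) (A 1275 (L 0) (L 0))) (L 0)) (L 0)) (A 509
    (A 764 (C 1276 (L 0) (A 1275 (L 0) (L 0))) (A 1531 (L 0) (L 0))) (L 0))) (B 1787 (A 509 (C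
    1532 (A 764 (B 3322 (L 0) (L 0)) (L 0)) (A 764 (B 3322 (A 1275 (L 0) (L 0)) (A 1275 (L 0) (L
    0))) (B 3322 (L 0) (L 0)))) (C 1532 (L 0) (L 0))) (A 509 (C 1532 (A 764 (B 3578 (A 1275 (L 0)
    (L 0)) (A 1275 (L 0) (L 0))) (A 1531 (L 0) (L 0))) (A 764 (B 3578 (C 3067 (L 0) (A 1275 (L 0)
    (L 0))) (C 3067 (A 1275 (L 0) (L 0)) (A 1275 (L 0) (L 0)))) (B 3578 (L 0) (A 1531 (L 0) (L
    0))))) (C 1532 (L 0) (B 3578 (L 0) (L 0)))))) (C 765 (B 2043 (A 509 (C 1276 (B 3834 (L 0) (L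
    0)) (A 764 (B 3834 (L 0) (L 0)) (L 0))) (C 1276 (L 0) (L 0))) (A 509 (C 1276 (B 4090 (L 0) (A
    764 (L 0) (L 0))) (A 764 (B 4090 (L 0) (A 1275 (L 0) (L 0))) (A 1531 (L 0) (L 0)))) (C 1276 (L
    0) (L 0)))) (B 2043 (C 1532 (A 509 (A 764 (B 3834 (A 1275 (L 0) (L 0)) (C 2811 (L 0) (A 1275
    (L 0) (L 0)))) (B 3834 (L 0) (L 0))) (B 3834 (L 0) (L 0))) (A 509 (B 3834 (A 764 (C 3067 (A
    1275 (L 0) (L 0)) (A 1275 (A 2298 (L 0) (L 0)) (L 0))) (C 3067 (L 0) (L 0))) (A 764 (C 3067 (A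
    1275 (L 0) (L 0)) (A 1275 (A 2298 (L 0) (L 0)) (L 0))) (C 3067 (L 0) (L 0)))) (B 3834 (L 0) (C
    3067 (L 0) (L 0))))) (C 1532 (A 509 (B 4090 (A 764 (C 2811 (L 0) (A 1275 (L 0) (L 0))) (L 0))
    (A 764 (C 2811 (L 0) (A 1275 (L 0) (L 0))) (A 1531 (L 0) (L 0)))) (B 4090 (L 0) (L 0))) (A 509
    (B 4090 (A 764 (C 3067 (B 7929 (L 0) (A 1275 (L 0) (L 0))) (C 6138 (A 1275 (L 0) (L 0)) (L
    2))) (C 3067 (L 0) (A 1531 (L 0) (L 0)))) (C 3067 (A 764 (A 1275 (A 2298 (L 0) (L 0)) (L 0))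
    (A 1531 (L 0) (L 0))) (L 2))) (B 4090 (C 3067 (L 0) (L 0)) (C 3067 (L 0) (L 2))))))))
    _ _ _ _ _ _ (by decide +kernel)

theorem ck1_53 : Ok P1 1018 2041 1531 509 1021 2044 :=
  sound1
    (C 3835 (B 3066 (A 3832 (C 7418 (B 5881 (L 2543) (L 2474)) (B 5881 (L 2451) (A 7415 (L 2359)
    (L 2356)))) (C 7418 (B 5881 (L 2535) (L 2466)) (B 5881 (A 7671 (L 2421) (L 2417)) (A 7671 (L
    2352) (L 2348))))) (A 3832 (C 7418 (B 6137 (L 2405) (L 2336)) (B 6137 (A 7415 (L 2291) (L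
    2287)) (A 7415 (L 2222) (L 2219)))) (C 7418 (B 6137 (L 2397) (A 7671 (L 2307) (L 2304))) (B
    6137 (A 7671 (L 2283) (L 2280)) (A 7671 (L 2215) (L 2212)))))) (B 3066 (A 3832 (C 7674 (B 5881
    (A 7415 (L 2337) (L 2333)) (A 7415 (L 2267) (L 2264))) (B 5881 (A 7415 (B 11512 (L 2220) (L
    2185)) (C 15353 (L 2241) (B 11512 (L 0) (L 0)))) (A 7415 (C 15353 (L 2175) (B 11768 (L 2104)
    (L 2070))) (C 15353 (L 2172) (B 11768 (L 0) (L 2066)))))) (C 7674 (B 5881 (A 7671 (L 2329) (B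
    11512 (L 2300) (L 2266))) (A 7671 (B 11768 (L 2235) (L 2201)) (B 11768 (L 2231) (L 2197)))) (B
    5881 (C 15353 (A 7671 (L 2237) (L 2234)) (B 11512 (L 0) (L 0))) (A 7671 (C 15353 (L 2168) (B
    11768 (L 0) (L 2063))) (C 15353 (B 11768 (L 0) (L 2105)) (B 11768 (L 0) (L 0))))))) (A 3832 (C
    7674 (B 6137 (A 7415 (B 12024 (L 2173) (L 2139)) (B 12024 (L 2170) (L 2135))) (A 7415 (B 12280
    (L 2104) (L 2070)) (B 12280 (L 2101) (L 2067)))) (B 6137 (A 7415 (C 15353 (L 2106) (B 12024 (L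
    2035) (L 2000))) (C 15353 (B 12024 (L 2078) (L 2043)) (B 12024 (L 2031) (L 1997)))) (A 7415 (C
    15353 (B 12280 (L 2012) (L 1977)) (B 12280 (L 1965) (L 2))) (C 15353 (B 12280 (L 2008) (L
    1974)) (B 12280 (L 1962) (L 2)))))) (C 7674 (B 6137 (A 7671 (B 12024 (L 2166) (L 2132)) (B
    12024 (L 2163) (L 2128))) (A 7671 (C 15097 (L 2123) (B 12280 (L 2051) (L 2017))) (C 15097 (L
    2119) (B 12280 (L 2048) (L 2013))))) (B 6137 (A 7671 (C 15353 (B 12024 (L 2074) (L 2040)) (B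
    12024 (L 2028) (L 1993))) (C 15353 (B 12024 (L 2071) (L 2036)) (B 12024 (A 15350 (L 0) (L 0))
    (A 15350 (L 1981) (L 1979))))) (A 7671 (C 15353 (B 12280 (L 2005) (L 1970)) (B 12280 (A 15094
    (L 1950) (L 1948)) (L 2))) (C 15353 (B 12280 (L 2002) (L 1967)) (B 12280 (A 15350 (L 1946) (L
    1945)) (L 2)))))))))
    _ _ _ _ _ _ (by decide +kernel)

theorem ck1_91 : Ok P1 253 763 1020 2043 1532 510 :=
  sound1
    (A 1274 (A 2297 (B 3834 (C 3067 (A 4344 (L 2934) (B 7417 (L 2861) (L 2799))) (A 4344 (B 7417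
    (L 2669) (L 2605)) (B 7417 (L 2661) (L 2597)))) (C 3067 (A 4344 (B 7673 (L 2745) (L 2682)) (B
    7673 (L 2736) (L 2674))) (A 4344 (B 7673 (C 6138 (L 2541) (L 2441)) (C 6138 (L 2477) (L
    2376))) (B 7673 (C 6138 (L 2534) (L 2433)) (C 6138 (L 2470) (L 2368)))))) (B 3834 (C 3067 (A
    4600 (B 7417 (L 2852) (L 2790)) (B 7417 (L 2843) (L 2781))) (A 4600 (B 7417 (L 2652) (C 6138
    (L 2589) (L 2490))) (B 7417 (C 6138 (L 2644) (L 2546)) (C 6138 (L 2581) (L 2482))))) (C 3067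
    (A 4600 (B 7673 (L 2728) (L 2666)) (B 7673 (L 2719) (C 5882 (L 0) (L 2556)))) (A 4600 (B 7673
    (C 6138 (L 2526) (L 2426)) (C 6138 (L 2462) (L 2361))) (B 7673 (C 6138 (L 2518) (L 2418)) (C
    6138 (L 2455) (A 9207 (L 2335) (L 2331)))))))) (B 3834 (C 3067 (B 7417 (A 2553 (A 4856 (L
    2833) (L 2824)) (C 5882 (L 0) (L 0))) (A 2553 (A 4856 (L 2772) (L 2763)) (C 5882 (L 0) (L
    0)))) (A 2553 (A 4856 (B 7417 (C 6138 (L 2636) (L 2537)) (C 6138 (L 2573) (L 2474))) (B 7417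
    (C 6138 (L 0) (L 2529)) (C 6138 (L 2565) (L 2466)))) (B 7417 (C 6138 (A 5112 (L 0) (L 0)) (A
    5112 (L 2521) (L 0))) (C 6138 (A 5112 (L 0) (L 0)) (B 14840 (L 0) (L 0)))))) (C 3067 (B 7673
    (A 2553 (A 4856 (C 5882 (L 0) (L 0)) (C 5882 (L 0) (L 0))) (C 5882 (L 0) (L 0))) (A 2553 (C
    5882 (A 4856 (L 0) (L 0)) (A 4856 (L 0) (L 0))) (C 5882 (L 0) (L 0)))) (B 7673 (A 2553 (A 4856
    (C 6138 (L 2510) (L 2411)) (C 6138 (L 2502) (A 9719 (L 2383) (L 2380)))) (C 6138 (A 5112 (L 0)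
    (L 0)) (B 15096 (L 0) (L 0)))) (C 6138 (A 2553 (A 4856 (L 2447) (L 2439)) (A 5112 (L 0) (L
    0))) (A 2553 (A 4856 (A 9463 (L 2327) (L 2324)) (A 9719 (L 2320) (L 2317))) (B 15352 (L 0) (L
    0))))))))
    _ _ _ _ _ _ (by decide +kernel)

theorem ck1_60 : Ok P1 507 1018 509 1020 510 1021 :=
  sound1
    (C 1788 (B 1787 (A 1785 (C 3323 (B 3322 (L 3171) (L 3037)) (B 3322 (A 3320 (L 2918) (L 2910))
    (A 3320 (L 2785) (L 2778)))) (C 3323 (B 3322 (L 3152) (A 3576 (L 2964) (L 2956))) (B 3322 (A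
    3576 (L 2903) (L 2895)) (A 3576 (L 2771) (L 2763))))) (A 1785 (C 3323 (B 3578 (A 3320 (L 2848)
    (L 2841)) (A 3320 (L 2717) (L 2710))) (B 3578 (A 3320 (L 2651) (L 2645)) (A 3320 (B 7161 (L
    2461) (L 2394)) (B 7161 (L 2455) (L 2387))))) (C 3323 (B 3578 (A 3576 (L 2834) (L 2827)) (A
    3576 (L 2704) (L 2697))) (B 3578 (A 3576 (L 2638) (B 6905 (L 2574) (L 2508))) (A 3576 (B 7161
    (L 2448) (L 2381)) (B 7161 (L 2441) (L 2374))))))) (B 1787 (A 1785 (C 3579 (B 3322 (A 3320 (L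
    2727) (L 2720)) (A 3320 (L 2592) (B 6649 (L 2530) (L 2463)))) (B 3322 (A 3320 (B 6393 (L 2484)
    (L 2415)) (B 6393 (L 2477) (L 2408))) (A 3320 (B 6649 (L 2346) (A 6391 (L 2255) (L 2252))) (C
    7162 (L 2393) (B 6649 (L 2244) (L 2175)))))) (C 3579 (B 3322 (A 3576 (L 2713) (B 6393 (L 2650)
    (L 2583))) (A 3576 (B 6649 (L 2523) (L 2456)) (B 6649 (L 2516) (L 2449)))) (B 3322 (A 3576 (B
    6393 (L 2469) (A 6903 (L 2379) (L 2375))) (C 7162 (L 2516) (B 6393 (L 2368) (L 2300)))) (A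
    3576 (C 7162 (B 6649 (L 2333) (L 2264)) (B 6649 (L 2238) (L 2169))) (C 7162 (B 6649 (L 2326)
    (L 2258)) (B 6649 (L 2231) (L 2162))))))) (A 1785 (C 3579 (B 3578 (A 3320 (B 6905 (L 2401) (L
    2333)) (B 6905 (L 2395) (L 2327))) (C 6906 (A 3320 (L 2319) (B 7161 (L 2259) (L 2))) (L 2)))
    (B 3578 (C 7162 (B 6905 (A 3320 (L 2208) (L 2202)) (L 2)) (L 2)) (L 2))) (C 3579 (B 3578 (A
    3576 (B 6905 (L 2388) (A 6903 (L 2299) (L 2296))) (C 6906 (L 2437) (B 6905 (L 2285) (L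
    2217)))) (C 6906 (B 7161 (A 3576 (L 2252) (L 2246)) (L 2)) (L 2))) (B 3578 (C 7162 (B 6905 (A
    3576 (L 2196) (L 2189)) (L 2)) (L 2)) (L 2))))))
    _ _ _ _ _ _ (by decide +kernel)

theorem ck2_251 : Ok P2 508 254 763 3321 255 765 :=
  sound2
    (B 5880 (A 1019 (C 1276 (B 10999 (A 1786 (C 2299 (B 21238 (L 0) (L 0)) (A 3321 (L 0) (L 0)))
    (C 2299 (L 0) (L 0))) (A 1786 (C 2299 (B 22518 (L 0) (L 0)) (B 22518 (L 0) (L 0))) (C 2299 (A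
    3577 (L 0) (L 0)) (L 0)))) (B 10999 (A 1786 (C 2555 (A 3321 (L 0) (L 0)) (A 3321 (L 0) (L 0)))
    (C 2555 (L 0) (L 0))) (A 1786 (C 2555 (B 22518 (L 0) (L 0)) (A 3321 (L 0) (L 0))) (C 2555 (L
    0) (L 0))))) (C 1276 (B 10999 (A 2042 (L 0) (L 0)) (A 2042 (A 3833 (L 0) (L 0)) (L 0))) (B
    10999 (A 2042 (L 0) (L 0)) (A 2042 (A 3833 (L 0) (L 0)) (L 0))))) (A 1019 (C 1276 (B 12279 (A
    1786 (C 2299 (B 23798 (A 3321 (L 0) (L 0)) (A 3321 (L 0) (L 0))) (B 23798 (L 0) (A 3321 (L 0)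
    (L 0)))) (C 2299 (A 3577 (L 0) (L 0)) (A 3577 (L 0) (L 0)))) (A 1786 (C 2299 (B 25078 (A 3321
    (L 0) (L 0)) (A 3321 (L 0) (L 0))) (B 25078 (A 3321 (L 0) (L 0)) (A 3321 (L 0) (L 0)))) (C
    2299 (A 3577 (L 0) (L 0)) (A 3577 (L 0) (L 0))))) (B 12279 (A 1786 (C 2555 (B 23798 (L 0) (L
    0)) (B 23798 (L 0) (L 0))) (C 2555 (A 3577 (L 0) (L 0)) (A 3577 (L 0) (L 0)))) (A 1786 (C 2555
    (B 25078 (A 3321 (L 0) (L 0)) (A 3321 (L 0) (L 0))) (B 25078 (A 3321 (L 0) (L 0)) (A 3321 (L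
    0) (L 0)))) (C 2555 (A 3577 (L 0) (L 0)) (A 3577 (L 0) (L 0)))))) (C 1276 (B 12279 (A 2042 (C
    2299 (L 0) (L 0)) (L 0)) (A 2042 (C 2299 (L 0) (L 0)) (A 4089 (L 0) (L 0)))) (B 12279 (A 2042
    (A 3833 (L 0) (L 0)) (L 0)) (A 2042 (C 2555 (L 0) (L 0)) (A 4089 (L 0) (L 0)))))))
    _ _ _ _ _ _ (by decide +kernel)

theorem ck2_177 : Ok P2 763 508 763 5880 253 254 :=
  sound2
    (C 508 (B 10999 (A 1530 (C 763 (A 2809 (C 1274 (L 3226) (L 3252)) (C 1274 (B 21238 (L 0) (L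
    0)) (B 21238 (L 0) (L 0)))) (A 2809 (B 21238 (L 3267) (L 3275)) (C 1530 (L 3247) (L 3269))))
    (C 763 (B 21238 (C 1274 (L 0) (A 3065 (L 0) (L 0))) (C 1274 (L 0) (A 3065 (L 0) (L 0)))) (B
    21238 (A 3065 (A 5880 (L 0) (L 0)) (L 0)) (A 3065 (A 5880 (L 0) (L 0)) (L 0))))) (A 1530 (C
    763 (B 22518 (A 2809 (A 5368 (L 3260) (L 3245)) (C 1274 (L 0) (L 0))) (A 2809 (A 5368 (L 3267)
    (L 3252)) (C 1274 (L 0) (L 3264)))) (A 2809 (B 22518 (L 3282) (L 3289)) (C 1530 (B 22518 (L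
    3280) (L 3288)) (B 22518 (L 3303) (L 3312))))) (C 763 (B 22518 (C 1274 (L 0) (A 3065 (L 0) (L
    0))) (C 1274 (A 3065 (L 0) (L 0)) (A 3065 (L 0) (L 0)))) (B 22518 (A 3065 (A 5880 (L 3252) (L
    0)) (L 0)) (A 3065 (C 1530 (L 0) (L 0)) (L 0)))))) (B 10999 (A 1530 (C 1019 (A 2809 (L 3293)
    (B 21238 (L 3281) (L 3289))) (A 2809 (L 3331) (B 21238 (L 3319) (L 3327)))) (C 1019 (B 21238
    (A 3065 (A 5880 (L 3280) (L 0)) (L 0)) (A 3065 (A 5880 (L 3288) (L 0)) (L 0))) (A 3065 (B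
    21238 (L 3289) (L 3297)) (B 21238 (L 0) (L 0))))) (A 1530 (C 1019 (A 2809 (B 22518 (L 3326) (L
    3334)) (C 1786 (L 3307) (L 3327))) (A 2809 (L 3347) (B 22518 (L 3335) (L 3344)))) (C 1019 (B
    22518 (A 3065 (A 5880 (L 3296) (L 0)) (A 6136 (L 0) (L 0))) (A 3065 (A 5880 (L 3304) (L 0)) (A
    6136 (L 0) (L 0)))) (B 22518 (A 3065 (A 5880 (L 3335) (L 0)) (A 6136 (L 0) (L 0))) (A 3065 (A
    5880 (L 3343) (L 3328)) (A 6136 (L 0) (L 0))))))))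
    _ _ _ _ _ _ (by decide +kernel)

theorem ck1_24 : Ok P1 252 507 253 254 255 383 :=
  sound1
    (C 510 (A 762 (B 508 (C 765 (L 8393) (B 763 (L 7179) (L 6660))) (C 765 (L 7421) (B 1019 (L
    6228) (L 5854)))) (B 508 (C 765 (B 763 (L 7966) (L 7443)) (B 763 (L 7106) (L 6587))) (C 765 (B
    1019 (L 7013) (L 6646)) (A 1529 (B 1019 (L 5912) (L 5551)) (B 1019 (L 5890) (L 5529)))))) (A
    762 (B 508 (C 1021 (B 763 (B 1274 (L 6249) (L 5983)) (B 1530 (L 5741) (L 5518))) (C 2044 (B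
    763 (L 1) (A 1273 (L 4882) (L 1))) (B 763 (L 1) (L 1)))) (C 1021 (A 1273 (B 1019 (L 5184) (L
    4822)) (B 1019 (L 5171) (B 2042 (L 4689) (L 4523)))) (C 2044 (A 1273 (B 1019 (L 4468) (B 2042
    (L 3994) (L 3823))) (B 1019 (B 1786 (L 1) (L 4152)) (B 2042 (L 3974) (L 3803)))) (B 1019 (A
    1273 (B 1786 (L 1) (L 1)) (L 1)) (A 1273 (C 4091 (B 2042 (L 1) (L 3464)) (B 2042 (L 1) (L 1)))
    (C 4091 (A 2552 (L 3636) (L 1)) (L 1))))))) (B 508 (C 1021 (B 763 (A 1529 (L 0) (L 0)) (A 1529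
    (L 5572) (B 1530 (L 0) (L 5210)))) (C 2044 (B 763 (L 0) (L 0)) (L 0))) (C 1021 (A 1529 (B 1019
    (B 1786 (L 5032) (L 4846)) (B 2042 (L 4670) (L 4503))) (B 1019 (C 1788 (L 5136) (L 4774)) (C
    1788 (L 4772) (B 2042 (L 4290) (L 4121))))) (C 2044 (B 1019 (A 1529 (B 1786 (L 0) (L 0)) (L
    0)) (A 1529 (B 2042 (A 2808 (L 3868) (L 0)) (A 2808 (L 3702) (L 3694))) (C 3835 (B 2042 (L 0)
    (L 3762)) (B 2042 (L 0) (L 0))))) (B 1019 (L 0) (A 1529 (C 4091 (B 2042 (L 0) (L 0)) (L 0)) (B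
    2042 (L 0) (L 0)))))))))
    _ _ _ _ _ _ (by decide +kernel)

theorem ck1_4 : Ok P1 231 237 0 255 0 383 :=
  sound1
    (A 234 (A 232 (B 211 (L 1) (B 233 (L 143825) (C 255 (L 148925) (B 244 (L 1) (B 249 (L 6434) (B
    252 (L 5554) (B 253 (L 4934) (B 254 (L 4757) (C 510 (L 4625) (B 509 (L 3779) (C 1021 (L 3078)
    (B 1020 (L 2408) (L 2))))))))))))) (A 233 (B 213 (L 1) (B 234 (L 137561) (C 255 (L 142661) (B
    244 (L 1) (B 249 (L 6549) (B 252 (L 5626) (B 253 (L 4977) (B 254 (L 4795) (C 510 (L 4666) (B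
    509 (L 3799) (C 1021 (L 3094) (B 1020 (L 2417) (L 2))))))))))))) (B 215 (L 1) (B 235 (L
    131298) (C 255 (L 136398) (B 245 (L 1) (B 250 (L 6483) (B 252 (L 5467) (B 253 (L 5025) (B 254
    (L 4838) (B 509 (L 4448) (C 510 (L 4075) (C 1021 (L 3111) (B 1020 (L 2426) (L 2)))))))))))))))
    (A 235 (B 217 (L 1) (B 236 (L 125034) (C 255 (L 130134) (B 245 (L 1) (B 250 (L 6614) (B 252 (L
    5542) (B 253 (L 5078) (B 254 (L 4885) (B 509 (L 4484) (C 510 (L 4105) (C 1021 (L 3131) (B 1020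
    (L 2436) (L 2))))))))))))) (A 236 (B 219 (L 1) (B 237 (L 118771) (C 255 (L 123871) (B 246 (L
    1) (B 250 (L 6518) (B 252 (L 5625) (B 253 (L 5137) (B 254 (L 4937) (B 509 (L 4524) (C 510 (L
    4138) (C 1021 (L 3152) (B 1020 (L 2446) (L 2))))))))))))) (B 221 (L 1) (B 238 (L 112507) (C
    255 (L 117607) (B 246 (L 1) (B 250 (L 6666) (B 252 (L 5719) (B 253 (L 5203) (B 254 (L 4995) (B
    509 (L 4568) (C 510 (L 4175) (C 1021 (L 3175) (B 1020 (L 2459) (L 2))))))))))))))))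
    _ _ _ _ _ _ (by decide +kernel)

theorem ck1_105 : Ok P1 2297 1274 509 1787 1021 2044 :=
  sound1
    (C 3835 (B 3322 (A 4600 (C 7418 (B 6393 (A 8951 (B 12536 (L 2178) (C 14585 (L 2144) (L 2099)))
    (C 14585 (L 2200) (B 12536 (L 0) (L 0)))) (A 8951 (C 14585 (L 2137) (B 12792 (L 2065) (L
    2032))) (C 14585 (B 12792 (L 2107) (L 2074)) (B 12792 (L 2062) (L 2028))))) (B 6393 (B 12536
    (C 14841 (A 8951 (L 0) (L 0)) (A 8951 (L 0) (L 0))) (C 14841 (A 8951 (L 2053) (L 0)) (B 25079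
    (L 0) (A 8951 (L 0) (L 0))))) (C 14841 (B 12792 (A 8951 (L 2019) (A 17910 (L 0) (L 0))) (L 2))
    (L 2)))) (C 7418 (B 6393 (B 12536 (C 14585 (L 0) (L 0)) (C 14585 (A 9207 (L 0) (L 0)) (A 9207
    (L 0) (L 0)))) (A 9207 (C 14585 (B 12792 (L 0) (L 2071)) (B 12792 (L 0) (L 2025))) (C 14585 (B
    12792 (L 0) (L 0)) (B 12792 (L 0) (A 18422 (L 0) (L 0)))))) (B 6393 (B 12536 (C 14841 (L 0) (L
    0)) (C 14841 (A 9207 (L 0) (L 0)) (A 9207 (L 0) (L 0)))) (B 12792 (C 14841 (A 9207 (L 0) (L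
    0)) (L 2)) (L 2))))) (C 7418 (B 6649 (C 14585 (B 13048 (A 4600 (A 8951 (L 2044) (L 2041)) (A
    9207 (L 2037) (L 2034))) (L 2)) (L 2)) (L 2)) (L 2))) (B 3322 (B 6393 (C 7674 (A 4600 (B 12536
    (C 15097 (A 8951 (L 0) (L 0)) (A 8951 (L 0) (L 0))) (C 15097 (B 25079 (L 0) (L 2)) (L 2))) (B
    12536 (C 15097 (L 0) (L 0)) (C 15097 (A 9207 (L 0) (L 0)) (L 2)))) (L 2)) (L 2)) (L 2)))
    _ _ _ _ _ _ (by decide +kernel)

theorem ck1_118 : Ok P1 508 254 509 1020 255 510 :=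
  sound1
    (C 765 (B 1787 (A 1019 (C 1276 (A 1786 (L 0) (L 0)) (B 3322 (L 0) (A 1786 (L 0) (L 0)))) (B
    3322 (L 0) (A 2042 (L 0) (L 0)))) (C 1276 (A 1019 (B 3578 (L 0) (L 0)) (L 0)) (A 1019 (B 3578
    (A 1786 (L 0) (L 0)) (A 1786 (L 0) (L 0))) (B 3578 (L 0) (L 0))))) (B 1787 (C 1532 (A 1019 (B
    3322 (A 1786 (L 0) (L 0)) (A 1786 (A 3321 (L 0) (L 0)) (L 0))) (B 3322 (L 0) (L 0))) (A 1019
    (B 3322 (A 1786 (C 3067 (L 0) (L 0)) (A 3577 (L 0) (L 0))) (C 3067 (A 1786 (L 0) (L 0)) (A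
    1786 (A 3321 (L 0) (L 0)) (L 0)))) (B 3322 (A 2042 (L 0) (L 0)) (C 3067 (L 0) (L 0))))) (C
    1532 (A 1019 (B 3578 (C 2811 (A 1786 (L 0) (L 0)) (A 1786 (L 0) (L 0))) (C 2811 (A 1786 (L 0)
    (L 0)) (A 1786 (L 0) (L 0)))) (B 3578 (A 2042 (L 0) (L 0)) (A 2042 (L 0) (L 0)))) (B 3578 (A
    1019 (C 3067 (B 6905 (L 0) (A 1786 (L 0) (L 0))) (A 1786 (B 6905 (L 0) (L 0)) (A 3577 (L 0) (L
    0)))) (C 3067 (L 0) (A 2042 (L 0) (L 0)))) (A 1019 (C 3067 (A 1786 (A 3321 (L 0) (L 0)) (L 0))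
    (A 1786 (B 7161 (L 0) (L 0)) (A 3577 (L 0) (L 0)))) (C 3067 (A 2042 (L 0) (L 0)) (A 2042 (L 0)
    (L 0))))))))
    _ _ _ _ _ _ (by decide +kernel)

theorem ck2_172 : Ok P2 508 254 762 763 510 383 :=
  sound2
    (B 2041 (A 1019 (B 3320 (C 1021 (A 1786 (B 5879 (L 0) (L 0)) (L 0)) (B 5879 (L 0) (L 0))) (C
    1021 (A 1786 (B 7159 (C 1788 (L 0) (L 0)) (C 1788 (L 0) (L 0))) (B 7159 (L 0) (L 0))) (B 7159
    (A 1786 (L 0) (L 0)) (A 1786 (L 0) (L 0))))) (B 3320 (C 1021 (L 0) (L 0)) (C 1021 (B 7159 (L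
    0) (L 0)) (L 0)))) (C 1021 (B 4600 (A 1019 (C 1788 (B 8439 (A 1786 (L 0) (L 0)) (A 1786 (A
    3321 (L 0) (L 0)) (L 0))) (B 8439 (A 1786 (L 0) (L 0)) (A 1786 (L 0) (L 0)))) (C 1788 (B 8439
    (L 0) (L 0)) (L 0))) (A 1019 (C 1788 (B 9719 (A 1786 (A 3321 (L 0) (L 0)) (L 0)) (A 1786 (B
    19958 (L 0) (L 0)) (L 0))) (B 9719 (A 1786 (L 0) (L 0)) (A 1786 (A 3321 (L 0) (L 0)) (L 0))))
    (C 1788 (B 9719 (L 0) (L 0)) (A 2042 (L 0) (L 0))))) (A 1019 (B 4600 (C 2044 (B 8439 (L 0) (A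
    1786 (L 0) (L 0))) (A 1786 (L 0) (L 0))) (C 2044 (B 9719 (A 1786 (L 0) (L 0)) (A 1786 (L 0) (L
    0))) (B 9719 (L 0) (A 1786 (L 0) (L 0))))) (B 4600 (B 8439 (L 0) (L 0)) (C 2044 (A 2042 (L 0)
    (L 0)) (L 0))))))
    _ _ _ _ _ _ (by decide +kernel)

theorem ck2_161 : Ok P2 253 508 762 2041 254 255 :=
  sound2
    (A 763 (C 509 (B 3320 (A 1274 (B 5879 (L 3218) (L 3226)) (C 764 (L 3184) (L 3230))) (A 1274 (C
    764 (L 3264) (L 3313)) (C 764 (B 7159 (L 3238) (L 3250)) (L 3254)))) (B 3320 (A 1274 (L 3268)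
    (B 5879 (L 3243) (L 3254))) (A 1274 (B 7159 (L 3323) (L 3335)) (C 1020 (L 3294) (L 3327)))))
    (C 509 (B 3320 (A 1530 (C 764 (B 5879 (L 3159) (L 3169)) (B 5879 (L 3204) (L 3216))) (C 764 (B
    5879 (B 10998 (L 3118) (L 3123)) (A 3065 (L 3166) (L 3137))) (B 5879 (L 3146) (A 3065 (L 3213)
    (L 3184))))) (A 1530 (C 764 (B 7159 (L 3180) (A 2809 (L 3247) (L 3218))) (B 7159 (L 3229) (L
    3242))) (C 764 (B 7159 (C 1275 (L 3159) (L 3184)) (C 1275 (A 3065 (L 3228) (L 3199)) (L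
    3198))) (B 7159 (A 3065 (L 3226) (L 3197)) (A 3065 (L 3240) (L 3210)))))) (B 3320 (A 1530 (C
    1020 (L 3209) (L 3239)) (C 1020 (B 5879 (L 3183) (L 3196)) (B 5879 (L 3213) (L 3227)))) (A
    1530 (C 1020 (B 7159 (L 3268) (L 3283)) (B 7159 (L 3301) (L 3317))) (C 1020 (B 7159 (A 3065 (L
    3266) (L 3237)) (A 3065 (L 3281) (L 3251))) (B 7159 (L 3242) (A 3065 (L 3315) (L 3286))))))))
    _ _ _ _ _ _ (by decide +kernel)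

theorem ck1_92 : Ok P1 763 508 1020 2043 1532 510 :=
  sound1
    (B 3834 (C 3067 (A 1530 (B 7417 (A 2809 (A 5368 (L 0) (L 0)) (L 0)) (C 5882 (L 0) (A 2809 (L
    0) (L 0)))) (B 7417 (A 3065 (L 0) (L 0)) (A 3065 (L 0) (L 0)))) (A 1530 (B 7417 (C 6138 (A
    2809 (L 0) (L 0)) (A 2809 (A 5368 (L 0) (L 0)) (L 0))) (C 6138 (A 2809 (L 0) (L 0)) (A 2809 (A
    5368 (L 0) (L 0)) (L 0)))) (B 7417 (C 6138 (L 0) (A 3065 (L 0) (L 0))) (C 6138 (L 0) (A 3065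
    (L 0) (L 0)))))) (C 3067 (A 1530 (B 7673 (C 5882 (L 0) (A 2809 (L 0) (L 0))) (C 5882 (L 0) (A
    2809 (L 0) (L 0)))) (B 7673 (A 3065 (L 0) (L 0)) (A 3065 (L 0) (L 0)))) (A 1530 (B 7673 (C
    6138 (A 2809 (L 0) (L 0)) (A 2809 (A 5368 (L 0) (L 0)) (L 0))) (C 6138 (A 2809 (L 0) (L 0)) (A
    2809 (A 5368 (L 0) (L 0)) (L 0)))) (B 7673 (C 6138 (L 0) (A 3065 (L 0) (L 0))) (C 6138 (L 0)
    (A 3065 (L 0) (L 0)))))))
    _ _ _ _ _ _ (by decide +kernel)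

theorem ck1_17 : Ok P1 506 252 254 764 1021 383 :=
  sound1
    (C 2044 (A 1017 (B 1275 (L 3800) (A 1784 (L 3386) (L 3382))) (B 1275 (B 2298 (L 3679) (L
    3520)) (A 2040 (L 3377) (L 3372)))) (A 1017 (B 1275 (C 4091 (B 2298 (L 3342) (L 3179)) (A 1784
    (L 3164) (B 2298 (L 3064) (L 2904)))) (C 4091 (A 1784 (L 3028) (L 3022)) (A 1784 (B 2554 (L
    2756) (A 3319 (L 2565) (L 2562))) (B 2554 (L 2747) (B 5113 (L 2549) (L 2473)))))) (B 1275 (C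
    4091 (B 2298 (L 3319) (L 3156)) (A 2040 (B 2298 (L 3055) (L 2896)) (B 2298 (L 3047) (B 4601 (L
    2841) (L 2763))))) (C 4091 (A 2040 (B 2554 (L 2921) (L 2768)) (B 2554 (L 2913) (L 2761))) (A
    2040 (B 2554 (B 4857 (L 2694) (L 2617)) (A 3831 (L 2551) (B 5113 (L 2504) (L 2429)))) (B 2554
    (B 4857 (L 2685) (L 2608)) (C 8186 (L 2577) (B 5113 (L 2439) (L 2362)))))))))
    _ _ _ _ _ _ (by decide +kernel)

theorem ck1_125 : Ok P1 254 255 254 255 0 255 :=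
  sound1
    (B 509 (B 764 (B 1275 (B 2298 (L 0) (A 509 (L 0) (L 0))) (A 509 (A 764 (L 0) (L 0)) (L 0))) (A
    509 (B 1531 (A 764 (C 254 (L 0) (L 0)) (L 0)) (A 764 (B 3066 (L 0) (L 0)) (L 0))) (C 254 (L 0)
    (L 0)))) (B 1020 (C 254 (B 1787 (L 0) (L 0)) (B 1787 (C 509 (L 0) (B 3322 (A 509 (L 0) (L 0))
    (A 509 (L 0) (L 0)))) (C 509 (L 0) (B 3578 (A 509 (L 0) (L 0)) (A 509 (L 0) (L 0)))))) (C 254
    (B 2043 (L 0) (L 0)) (B 2043 (C 509 (L 0) (C 1020 (A 509 (L 0) (L 0)) (B 3834 (L 0) (L 0))))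
    (C 509 (A 509 (L 0) (L 0)) (C 1020 (A 509 (L 0) (L 0)) (B 4090 (L 0) (L 0))))))))
    _ _ _ _ _ _ (by decide +kernel)

theorem ck1_10 : Ok P1 251 252 248 251 0 383 :=
  sound1
    (C 255 (A 506 (L 25154) (C 254 (L 23721) (L 1))) (A 506 (L 1) (L 1)))
    _ _ _ _ _ _ (by decide +kernel)

theorem ck2_259 : Ok P2 254 255 755 504 0 383 :=
  sound2
    (C 255 (A 509 (L 0) (L 0)) (L 0))
    _ _ _ _ _ _ (by decide +kernel)

theorem ck1_108 : Ok P1 253 763 509 1020 2044 383 :=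
  sound1
    (L 2)
    _ _ _ _ _ _ (by decide +kernel)

theorem ck2_246 : Ok P2 253 254 2042 764 509 255 :=
  sound2
    (L 1)
    _ _ _ _ _ _ (by decide +kernel)

end Vale.Agent.P322
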