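import Vale.Agent.P322.CKChk

/-!
Verified boxes, part 7.
-/

namespace Vale.Agent.P322

open Tr

theorem ck2_160 : Ok P2 253 508 2041 763 253 254 :=
  sound2
    (A 763 (B 4600 (C 508 (A 1274 (C 763 (B 8439 (L 3213) (L 3224)) (B 8439 (L 3258) (L 3270))) (C
    763 (B 8439 (A 2553 (L 3209) (L 3180)) (A 2553 (L 3221) (L 3192))) (B 8439 (L 3200) (L
    3212)))) (A 1274 (B 8439 (L 3257) (L 3268)) (C 1019 (B 8439 (L 3239) (L 3252)) (B 8439 (L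
    3273) (L 3287))))) (C 508 (A 1274 (C 763 (B 9719 (L 3236) (L 3248)) (B 9719 (L 3283) (L
    3297))) (C 763 (B 9719 (A 2553 (L 3233) (L 3204)) (A 2553 (L 3246) (B 19958 (L 3234) (L
    3241)))) (B 9719 (A 2553 (L 3281) (L 3251)) (A 2553 (L 3294) (L 3265))))) (A 1274 (C 1019 (B
    9719 (L 3324) (L 3339)) (L 3327)) (C 1019 (B 9719 (L 3266) (A 2553 (L 3337) (L 3307))) (B 9719
    (L 3302) (L 3317)))))) (B 4600 (C 508 (A 1530 (B 8439 (C 763 (A 2809 (L 3152) (B 16118 (L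
    3140) (L 3146))) (A 2809 (L 3197) (L 3168))) (C 763 (A 2809 (B 17398 (L 3180) (L 3186)) (B
    17398 (L 3151) (L 3157))) (A 2809 (L 3209) (B 17398 (L 3197) (L 3204))))) (B 8439 (C 763 (B
    16118 (A 3065 (L 0) (L 0)) (A 3065 (L 0) (L 0))) (A 3065 (B 16118 (L 0) (L 0)) (B 16118 (L 0)
    (L 0)))) (C 763 (B 17398 (A 3065 (L 0) (L 0)) (A 3065 (L 0) (L 0))) (B 17398 (A 3065 (L 0) (L
    0)) (A 3065 (L 0) (L 0)))))) (A 1530 (B 8439 (C 1019 (A 2809 (L 3236) (L 3207)) (L 3214)) (C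
    1019 (A 2809 (L 3249) (L 3220)) (A 2809 (L 3285) (L 3256)))) (B 8439 (C 1019 (A 3065 (L 3178)
    (B 16118 (L 0) (L 0))) (A 3065 (L 3212) (L 3183))) (C 1019 (A 3065 (B 17398 (L 0) (L 3215)) (B
    17398 (L 0) (L 0))) (A 3065 (L 3226) (B 17398 (L 0) (L 0))))))) (C 508 (B 9719 (A 1530 (C 763
    (A 2809 (B 18678 (L 3192) (L 3199)) (C 1274 (B 18678 (L 0) (L 0)) (L 3195))) (A 2809 (L 3222)
    (B 18678 (L 3210) (L 3217)))) (C 763 (B 18678 (A 3065 (L 0) (L 0)) (A 3065 (L 0) (L 0))) (B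
    18678 (A 3065 (L 3181) (L 0)) (A 3065 (A 5880 (L 0) (L 0)) (L 0))))) (A 1530 (C 763 (A 2809 (B
    19958 (L 3205) (L 3211)) (C 1274 (B 19958 (L 0) (L 0)) (L 3209))) (A 2809 (B 19958 (L 3253) (L
    3260)) (B 19958 (L 3224) (L 3231)))) (C 763 (B 19958 (A 3065 (L 0) (L 0)) (A 3065 (A 5880 (L
    0) (L 0)) (L 0))) (B 19958 (A 3065 (A 5880 (L 0) (L 0)) (L 0)) (A 3065 (A 5880 (L 0) (L 0)) (L
    0)))))) (A 1530 (B 9719 (C 1019 (A 2809 (L 3263) (L 3234)) (A 2809 (L 3300) (L 3270))) (C 1019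
    (A 2809 (L 3278) (B 19958 (L 3266) (L 3273))) (A 2809 (L 3315) (L 3286)))) (B 9719 (C 1019 (A
    3065 (B 18678 (L 3222) (L 3229)) (B 18678 (L 0) (L 0))) (A 3065 (L 3241) (B 18678 (L 0) (L
    0)))) (C 1019 (B 19958 (A 3065 (L 3236) (L 0)) (A 3065 (L 3244) (L 0))) (A 3065 (B 19958 (L
    3273) (L 3281)) (B 19958 (L 0) (L 0)))))))))
    _ _ _ _ _ _ (by decide +kernel)

theorem ck1_56 : Ok P1 1018 253 1531 509 2044 383 :=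
  sound1
    (C 4091 (B 3066 (A 2041 (C 7930 (B 5881 (A 3832 (C 15609 (B 11512 (L 0) (A 7415 (L 0) (L 0)))
    (B 11512 (L 0) (L 0))) (C 15609 (A 7671 (L 0) (L 0)) (A 7671 (L 0) (L 0)))) (A 3832 (C 15609
    (A 7415 (B 11768 (L 2058) (L 2023)) (B 11768 (L 0) (A 14838 (L 0) (L 0)))) (B 11768 (A 7415 (L
    0) (L 0)) (A 7415 (A 14582 (L 0) (L 0)) (L 0)))) (C 15609 (B 11768 (A 7671 (L 0) (L 0)) (A
    7671 (L 0) (L 0))) (B 11768 (L 0) (A 7671 (L 0) (L 0)))))) (B 5881 (A 3832 (C 15865 (A 7415 (L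
    0) (L 0)) (A 7415 (L 0) (L 0))) (C 15865 (L 0) (L 0))) (A 3832 (C 15865 (B 11768 (A 7415 (L 0)
    (L 0)) (A 7415 (L 0) (L 0))) (B 11768 (L 0) (A 7415 (L 0) (L 0)))) (C 15865 (B 11768 (L 0) (L
    0)) (A 7671 (L 0) (L 0)))))) (C 7930 (B 5881 (A 4088 (C 15609 (L 0) (L 0)) (A 8183 (L 0) (L
    0))) (A 4088 (C 15609 (B 11768 (L 0) (L 0)) (A 7927 (L 0) (L 0))) (C 15609 (A 8183 (L 0) (L
    0)) (A 8183 (L 0) (L 0))))) (B 5881 (A 4088 (A 7927 (L 0) (L 0)) (L 0)) (A 4088 (C 15865 (A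
    7927 (L 0) (L 0)) (L 0)) (B 11768 (L 0) (L 0)))))) (B 6137 (A 2041 (C 7930 (A 3832 (A 7415 (C
    15609 (B 12024 (A 14582 (L 1979) (L 1977)) (A 14582 (L 1944) (L 1943))) (B 12024 (C 31224 (L
    1942) (L 0)) (C 31224 (A 14582 (L 1898) (L 0)) (L 2)))) (C 15609 (B 12024 (A 14838 (L 1976) (L
    1974)) (A 14838 (L 1941) (L 1939))) (B 12024 (A 14838 (L 0) (L 0)) (B 24055 (A 14838 (L 0) (L
    0)) (L 2))))) (C 15609 (B 12024 (A 7671 (A 15094 (L 0) (L 0)) (L 0)) (A 7671 (C 30968 (L 1947)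
    (L 0)) (B 24055 (L 0) (L 0)))) (B 12024 (A 7671 (L 0) (L 0)) (B 24055 (A 7671 (L 0) (L 0)) (L
    2))))) (B 12024 (C 15865 (A 3832 (A 7415 (A 14582 (L 0) (L 0)) (L 0)) (A 7671 (L 0) (L 0))) (L
    2)) (L 2))) (C 7930 (A 4088 (C 15609 (B 12024 (A 7927 (L 0) (L 0)) (A 7927 (A 15606 (L 0) (L
    0)) (L 0))) (B 12024 (A 7927 (L 0) (L 0)) (A 7927 (L 0) (L 0)))) (C 15609 (B 12024 (L 0) (A
    8183 (L 0) (L 0))) (B 12024 (L 0) (L 0)))) (B 12024 (C 15865 (A 4088 (L 0) (L 0)) (L 2)) (L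
    2)))) (L 2))) (B 3066 (A 2041 (C 8186 (B 5881 (A 3832 (A 7415 (L 0) (L 0)) (A 7671 (L 0) (L
    0))) (B 11768 (A 3832 (A 7415 (L 0) (L 0)) (L 0)) (L 2))) (B 5881 (A 3832 (L 0) (L 0)) (L 2)))
    (C 8186 (B 5881 (A 4088 (L 0) (L 0)) (B 11768 (A 4088 (L 0) (L 0)) (L 2))) (B 5881 (A 4088 (L
    0) (L 0)) (L 2)))) (L 2)))
    _ _ _ _ _ _ (by decide +kernel)

theorem ck2_181 : Ok P2 253 508 3321 7160 252 253 :=
  sound2
    (A 763 (C 507 (B 13559 (A 1274 (A 2297 (C 762 (L 3264) (L 3305)) (C 762 (B 26358 (L 3254) (L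
    3261)) (A 4600 (L 3304) (L 3289)))) (C 762 (B 26358 (A 2553 (A 4856 (L 3253) (L 0)) (A 5112 (L
    0) (L 0))) (A 2553 (A 4856 (L 3260) (L 0)) (A 5112 (L 0) (L 0)))) (A 2553 (B 26358 (L 3265) (L
    3272)) (B 26358 (A 5112 (L 3264) (L 0)) (A 5112 (L 3271) (L 0)))))) (A 1274 (C 762 (A 2297 (A
    4344 (L 3307) (L 3292)) (B 27638 (L 3268) (L 3275))) (A 2297 (L 3320) (A 4600 (L 3319) (L
    3304)))) (C 762 (B 27638 (A 2553 (A 4856 (L 3267) (L 3252)) (A 5112 (L 0) (L 0))) (A 2553 (C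
    1273 (L 0) (L 3284)) (A 5112 (L 0) (L 0)))) (B 27638 (A 2553 (A 4856 (L 3308) (L 3293)) (A
    5112 (L 3278) (L 0))) (A 2553 (A 4856 (L 3316) (L 3301)) (A 5112 (L 3286) (L 0))))))) (B 13559
    (A 1274 (A 2297 (A 4344 (L 3340) (L 3325)) (C 1018 (L 3312) (L 3346))) (B 26358 (A 2553 (C
    1018 (L 3301) (L 3335)) (C 1018 (A 5112 (L 3301) (L 3286)) (L 3305))) (A 2553 (C 1018 (L 3309)
    (L 3343)) (C 1018 (A 5112 (L 3308) (L 3293)) (L 3313))))) (A 1274 (C 1018 (A 2297 (L 3357) (A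
    4600 (L 3356) (L 3341))) (A 2297 (L 3392) (L 3361))) (C 1018 (A 2553 (B 27638 (L 3317) (L
    3324)) (B 27638 (A 5112 (L 3316) (L 3301)) (A 5112 (L 3324) (L 3309)))) (A 2553 (A 4856 (L
    3361) (L 3346)) (B 27638 (L 3321) (A 5112 (L 3359) (L 3344)))))))) (C 507 (B 13559 (A 1530 (C
    762 (B 26358 (A 2809 (L 0) (L 0)) (A 2809 (L 0) (L 0))) (B 26358 (A 2809 (L 0) (L 0)) (A 2809
    (L 0) (L 0)))) (C 762 (A 3065 (L 0) (L 0)) (A 3065 (L 0) (L 0)))) (A 1530 (C 762 (B 27638 (A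
    2809 (L 0) (L 0)) (A 2809 (L 0) (L 0))) (B 27638 (A 2809 (L 0) (L 0)) (A 2809 (L 0) (L 0))))
    (C 762 (A 3065 (L 0) (L 0)) (B 27638 (L 0) (L 0))))) (B 13559 (A 1530 (B 26358 (C 1018 (A 2809
    (A 5368 (L 0) (L 0)) (L 0)) (A 2809 (A 5368 (L 3304) (L 0)) (L 0))) (C 1018 (A 2809 (A 5368 (L
    0) (L 0)) (L 0)) (A 2809 (A 5368 (L 3312) (L 0)) (L 0)))) (B 26358 (C 1018 (L 0) (A 3065 (L 0)
    (L 0))) (C 1018 (L 0) (A 3065 (L 0) (L 0))))) (A 1530 (C 1018 (B 27638 (A 2809 (A 5368 (L 0)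
    (L 0)) (L 0)) (A 2809 (A 5368 (L 0) (L 0)) (L 0))) (B 27638 (A 2809 (A 5368 (L 3320) (L 0)) (L
    0)) (A 2809 (A 5368 (L 3328) (L 0)) (A 5624 (L 0) (L 0))))) (C 1018 (B 27638 (L 0) (L 0)) (B
    27638 (A 3065 (L 0) (L 0)) (A 3065 (L 0) (L 0))))))))
    _ _ _ _ _ _ (by decide +kernel)

theorem ck2_204 : Ok P2 763 508 3321 7160 509 255 :=
  sound2
    (C 1020 (B 13559 (A 1530 (C 1787 (A 2809 (A 5368 (L 3588) (L 3572)) (C 3322 (B 26358 (L 3574)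
    (L 3585)) (B 26358 (L 3586) (L 3598)))) (A 2809 (A 5368 (L 3612) (L 3596)) (B 26358 (L 3568)
    (A 5624 (L 3612) (L 3596))))) (C 1787 (B 26358 (A 3065 (A 5880 (L 3544) (L 3529)) (A 6136 (L
    0) (L 0))) (A 3065 (C 3322 (L 3554) (L 3566)) (A 6136 (L 0) (L 0)))) (B 26358 (A 3065 (A 5880
    (L 3569) (L 3553)) (A 6136 (L 0) (L 0))) (A 3065 (C 3578 (L 3578) (L 0)) (A 6136 (L 0) (L
    0)))))) (A 1530 (C 1787 (A 2809 (C 3322 (L 3609) (L 3622)) (C 3322 (A 5624 (L 3610) (L 3594))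
    (A 5624 (L 3623) (L 3607)))) (A 2809 (C 3578 (L 3634) (A 5368 (L 3679) (L 3663))) (B 27638 (A
    5624 (L 3624) (L 3608)) (C 3578 (L 3635) (L 3647))))) (C 1787 (B 27638 (A 3065 (C 3322 (L
    3565) (L 3578)) (C 3322 (L 0) (L 0))) (A 3065 (C 3322 (A 5880 (L 0) (L 0)) (A 5880 (L 0) (L
    0))) (C 3322 (L 0) (L 0)))) (B 27638 (A 3065 (C 3578 (L 3590) (L 3602)) (C 3578 (L 0) (L 0)))
    (A 3065 (C 3578 (A 5880 (L 0) (L 0)) (A 5880 (L 0) (L 0))) (C 3578 (L 0) (L 0))))))) (B 13559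
    (A 1530 (C 2043 (A 2809 (A 5368 (L 3635) (L 3619)) (B 26358 (A 5624 (L 3623) (L 3608)) (A 5624
    (L 3636) (L 3620)))) (A 2809 (B 26358 (L 3644) (L 3657)) (B 26358 (A 5624 (L 3645) (L 3629))
    (A 5624 (L 3658) (L 3642))))) (C 2043 (B 26358 (A 3065 (A 5880 (L 3592) (L 3576)) (A 6136 (L
    0) (L 0))) (A 3065 (C 3834 (L 0) (L 0)) (A 6136 (L 0) (L 0)))) (B 26358 (A 3065 (A 5880 (L
    3613) (L 0)) (A 6136 (L 0) (L 0))) (A 3065 (C 4090 (L 0) (L 0)) (A 6136 (L 0) (L 0)))))) (A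
    1530 (C 2043 (A 2809 (B 27638 (L 3647) (A 5368 (L 3693) (L 3677))) (B 27638 (A 5624 (L 3648)
    (L 3632)) (C 3834 (L 3658) (L 3670)))) (B 27638 (A 2809 (A 5368 (L 3703) (L 3687)) (A 5624 (L
    3671) (L 3654))) (A 2809 (A 5368 (L 3716) (L 3700)) (C 4090 (L 3680) (L 3691))))) (C 2043 (B
    27638 (A 3065 (C 3834 (L 0) (L 0)) (A 6136 (L 0) (L 0))) (A 3065 (C 3834 (A 5880 (L 0) (L 0))
    (A 5880 (L 0) (L 0))) (C 3834 (L 0) (L 0)))) (B 27638 (A 3065 (C 4090 (L 0) (L 0)) (A 6136 (L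
    0) (L 0))) (A 3065 (C 4090 (L 0) (L 0)) (C 4090 (L 0) (L 0))))))))
    _ _ _ _ _ _ (by decide +kernel)

theorem ck1_19 : Ok P1 251 252 509 255 510 383 :=
  sound1
    (A 506 (C 1021 (B 1020 (A 761 (C 1788 (A 1272 (B 1787 (L 3297) (L 3032)) (B 1787 (L 3294) (L
    3029))) (B 1787 (A 1272 (L 2915) (L 2911)) (A 1272 (A 2295 (L 2589) (L 2589)) (C 3579 (L 2631)
    (B 3578 (L 2340) (L 2)))))) (C 1788 (B 1787 (L 3396) (A 1528 (L 3027) (L 3024))) (B 1787 (A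
    1528 (L 2907) (B 3322 (L 2805) (L 2666))) (A 1528 (C 3579 (L 2628) (B 3578 (L 2334) (L 2))) (C
    3579 (L 2625) (B 3578 (L 2329) (L 2))))))) (C 1788 (B 2043 (A 761 (A 1272 (A 2295 (L 2713) (L
    2713)) (B 3834 (L 2657) (L 2518))) (A 1528 (B 3834 (L 2653) (L 2514)) (C 3323 (L 2754) (B 3834
    (L 2444) (L 2))))) (L 2)) (L 2))) (B 1020 (C 2044 (B 1787 (A 761 (A 1272 (C 3835 (L 2532) (B
    3322 (L 2254) (L 2))) (C 3835 (L 2527) (B 3322 (L 2247) (L 2)))) (A 1528 (C 3835 (B 3322 (L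
    2431) (L 2285)) (B 3322 (L 2240) (L 2))) (C 3835 (B 3322 (L 2425) (L 2279)) (B 3322 (L 2234)
    (L 2))))) (L 2)) (L 2)) (L 2))) (C 1021 (B 1020 (A 1017 (C 1788 (B 1787 (A 1784 (L 3287) (L
    3284)) (A 1784 (L 3022) (L 3019))) (B 1787 (A 1784 (B 3322 (L 2800) (L 2661)) (B 3322 (L 2795)
    (L 2656))) (A 1784 (C 3579 (L 2622) (B 3578 (L 2324) (L 2))) (C 3579 (B 3578 (L 2516) (L
    2375)) (B 3578 (L 2319) (L 2)))))) (C 1788 (B 1787 (A 2040 (L 3281) (L 3277)) (A 2040 (B 3578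
    (L 2906) (L 2772)) (B 3578 (L 2901) (L 2767)))) (B 1787 (A 2040 (B 3322 (L 2789) (L 2651)) (B
    3322 (L 2784) (C 3579 (L 2645) (L 2452)))) (C 3579 (A 2040 (B 3578 (L 2511) (L 2370)) (B 3578
    (L 2506) (L 2366))) (B 3578 (A 2040 (L 2315) (L 2310)) (L 2)))))) (C 1788 (B 2043 (A 1017 (A
    1784 (C 3323 (L 2752) (B 3834 (L 2440) (L 2))) (C 3323 (L 2750) (B 3834 (L 2436) (L 2)))) (C
    3323 (A 2040 (L 2747) (L 2744)) (B 3834 (A 2040 (L 2431) (L 2427)) (L 2)))) (L 2)) (L 2))) (B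
    1020 (C 2044 (B 1787 (A 1017 (C 3835 (A 1784 (B 3322 (L 2419) (L 2274)) (B 3322 (L 2413) (L
    2269))) (B 3322 (A 1784 (A 3319 (L 2197) (L 2195)) (A 3575 (L 2193) (L 2190))) (L 2))) (C 3835
    (A 2040 (B 3322 (L 2407) (L 2263)) (B 3322 (L 2402) (A 4087 (L 2231) (L 2228)))) (B 3322 (C
    7674 (A 2040 (L 2216) (L 2210)) (L 2)) (L 2)))) (L 2)) (L 2)) (L 2))))
    _ _ _ _ _ _ (by decide +kernel)

theorem ck2_191 : Ok P2 508 254 763 3321 253 254 :=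
  sound2
    (B 5880 (A 1019 (C 508 (B 10999 (A 1786 (C 763 (B 21238 (L 0) (L 0)) (B 21238 (L 0) (L 0))) (C
    763 (L 0) (L 0))) (A 1786 (C 763 (B 22518 (L 0) (L 0)) (B 22518 (A 3321 (L 0) (L 0)) (A 3321
    (L 0) (L 0)))) (C 763 (L 0) (A 3577 (L 0) (L 0))))) (B 10999 (A 1786 (C 1019 (B 21238 (A 3321
    (L 0) (L 0)) (A 3321 (L 0) (L 0))) (B 21238 (A 3321 (L 0) (L 0)) (A 3321 (L 0) (L 0)))) (C
    1019 (A 3577 (L 0) (L 0)) (A 3577 (L 0) (L 0)))) (A 1786 (C 1019 (B 22518 (A 3321 (L 0) (L 0))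
    (A 3321 (L 0) (L 0))) (B 22518 (A 3321 (L 0) (L 0)) (A 3321 (L 0) (L 0)))) (C 1019 (A 3577 (L
    0) (L 0)) (A 3577 (L 0) (L 0)))))) (C 508 (B 10999 (C 763 (L 0) (L 0)) (C 763 (L 0) (A 2042 (L
    0) (L 0)))) (B 10999 (C 1019 (A 2042 (L 0) (L 0)) (A 2042 (L 0) (L 0))) (A 2042 (C 1019 (L 0)
    (L 0)) (L 0))))) (A 1019 (C 508 (B 12279 (C 763 (A 1786 (B 23798 (L 0) (A 3321 (L 0) (L 0)))
    (A 3577 (L 0) (L 0))) (A 1786 (B 23798 (A 3321 (L 0) (L 0)) (A 3321 (L 0) (L 0))) (A 3577 (L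
    0) (L 0)))) (C 763 (A 1786 (B 25078 (A 3321 (L 0) (L 0)) (A 3321 (L 0) (L 0))) (A 3577 (L 0)
    (L 0))) (A 1786 (B 25078 (A 3321 (L 0) (L 0)) (A 3321 (L 0) (L 0))) (A 3577 (L 0) (L 0))))) (B
    12279 (A 1786 (C 1019 (B 23798 (A 3321 (L 0) (L 0)) (A 3321 (L 0) (L 0))) (B 23798 (A 3321 (L
    0) (L 0)) (A 3321 (L 0) (L 0)))) (C 1019 (A 3577 (L 0) (L 0)) (A 3577 (L 0) (L 0)))) (A 1786
    (C 1019 (B 25078 (A 3321 (L 0) (L 0)) (A 3321 (L 0) (L 0))) (B 25078 (A 3321 (L 0) (L 0)) (A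
    3321 (L 0) (L 0)))) (C 1019 (B 25078 (L 0) (L 0)) (B 25078 (L 0) (L 0)))))) (C 508 (B 12279 (C
    763 (A 2042 (L 0) (L 0)) (A 2042 (L 0) (L 0))) (C 763 (A 2042 (L 0) (L 0)) (A 2042 (L 0) (L
    0)))) (B 12279 (A 2042 (C 1019 (L 0) (L 0)) (A 4089 (L 0) (L 0))) (C 1019 (A 2042 (L 0) (L 0))
    (A 2042 (L 0) (L 0)))))))
    _ _ _ _ _ _ (by decide +kernel)

theorem ck2_211 : Ok P2 253 508 2042 8440 0 252 :=
  sound2
    (A 763 (C 251 (B 16119 (A 1274 (C 250 (B 31478 (L 0) (L 0)) (B 31478 (A 2297 (A 4344 (L 0) (L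
    0)) (L 0)) (A 2297 (A 4344 (L 0) (L 0)) (L 0)))) (C 250 (L 0) (B 31478 (L 0) (L 0)))) (C 250
    (A 1274 (B 32758 (L 0) (L 0)) (L 0)) (A 1274 (B 32758 (A 2297 (A 4344 (L 0) (L 0)) (L 0)) (A
    2297 (A 4344 (L 0) (L 0)) (L 0))) (B 32758 (L 0) (L 0))))) (B 16119 (A 1274 (C 506 (B 31478 (A
    2297 (C 761 (L 0) (L 3283)) (B 62197 (L 0) (L 0))) (A 2297 (C 761 (L 0) (A 4344 (L 0) (L 0)))
    (B 63477 (L 0) (L 0)))) (B 31478 (A 2297 (A 4344 (L 3322) (L 3306)) (C 1017 (A 4600 (L 0) (L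
    0)) (A 4600 (L 0) (L 0)))) (A 2297 (A 4344 (L 3329) (L 3314)) (C 1017 (A 4600 (L 0) (L 0)) (A
    4600 (L 0) (L 0)))))) (C 506 (B 31478 (A 2553 (L 0) (L 0)) (A 2553 (L 0) (L 0))) (B 31478 (A
    2553 (B 62197 (L 0) (L 0)) (L 0)) (A 2553 (B 63477 (L 0) (L 0)) (L 0))))) (A 1274 (C 506 (B
    32758 (A 2297 (C 761 (L 0) (A 4344 (L 0) (L 0))) (B 64757 (L 0) (L 0))) (A 2297 (C 761 (L 0)
    (A 4344 (L 0) (L 0))) (B 66037 (L 0) (L 0)))) (B 32758 (A 2297 (C 1017 (L 3326) (L 3352)) (C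
    1017 (A 4600 (L 0) (L 0)) (A 4600 (L 0) (L 0)))) (A 2297 (C 1017 (L 3333) (L 3360)) (C 1017 (A
    4600 (L 0) (L 0)) (A 4600 (L 0) (L 0)))))) (C 506 (B 32758 (A 2553 (L 0) (L 0)) (A 2553 (L 0)
    (L 0))) (B 32758 (A 2553 (B 64757 (L 0) (L 0)) (L 0)) (A 2553 (B 66037 (L 0) (L 0)) (A 5112 (L
    0) (L 0)))))))) (C 251 (B 16119 (C 250 (L 0) (A 1530 (L 0) (L 0))) (C 250 (L 0) (A 1530 (L 0)
    (L 0)))) (B 16119 (A 1530 (C 506 (A 2809 (L 0) (L 0)) (B 31478 (A 2809 (L 0) (L 0)) (A 2809 (L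
    0) (L 0)))) (C 506 (L 0) (A 3065 (L 0) (L 0)))) (A 1530 (C 506 (B 32758 (L 0) (L 0)) (B 32758
    (A 2809 (L 0) (L 0)) (A 2809 (L 0) (L 0)))) (C 506 (L 0) (A 3065 (L 0) (L 0)))))))
    _ _ _ _ _ _ (by decide +kernel)

theorem ck2_141 : Ok P2 252 253 1019 4089 0 252 :=
  sound2
    (A 507 (C 251 (A 762 (B 7672 (A 1273 (L 3284) (L 3250)) (A 1273 (L 3295) (L 3261))) (B 7672 (C
    250 (B 14839 (L 3196) (L 3202)) (L 3252)) (C 250 (B 15607 (A 1529 (L 3266) (L 3233)) (A 1529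
    (L 3272) (L 3239))) (A 1529 (L 3324) (L 3292))))) (A 762 (A 1273 (L 3368) (L 3334)) (B 7672 (A
    1529 (L 3347) (L 3314)) (A 1529 (L 3361) (L 3328))))) (C 251 (B 7672 (A 1018 (C 250 (A 1785 (B
    14839 (L 3188) (L 3194)) (B 14839 (C 249 (L 0) (L 3213)) (C 249 (L 0) (L 3220)))) (A 1785 (L
    3246) (B 14839 (L 3239) (L 3245)))) (C 250 (B 14839 (A 2041 (B 29174 (L 0) (L 0)) (L 0)) (A
    2041 (B 29942 (L 0) (L 0)) (L 0))) (B 14839 (A 2041 (A 3832 (L 3236) (L 3221)) (C 505 (L 0) (L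
    3226))) (A 2041 (A 3832 (L 3243) (L 3228)) (C 505 (L 0) (A 4088 (L 0) (L 0))))))) (A 1018 (C
    250 (B 15607 (A 1785 (A 3320 (L 3229) (L 3213)) (C 249 (L 0) (L 3227))) (A 1785 (A 3320 (L
    3236) (L 3220)) (C 249 (L 0) (L 3234)))) (A 1785 (A 3320 (L 3289) (L 3273)) (B 15607 (L 3253)
    (L 3260)))) (C 250 (B 15607 (A 2041 (B 30710 (L 0) (L 0)) (L 0)) (A 2041 (B 31478 (L 0) (L 0))
    (L 0))) (B 15607 (A 2041 (B 30710 (L 3234) (L 3237)) (C 505 (L 0) (A 4088 (L 0) (L 0)))) (A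
    2041 (C 505 (L 3244) (L 3280)) (C 505 (L 0) (A 4088 (L 0) (L 0)))))))) (B 7672 (A 1018 (C 506
    (A 1785 (L 3310) (L 3279)) (A 1785 (L 3365) (L 3334))) (C 506 (A 2041 (B 14839 (L 3272) (L
    3280)) (B 14839 (A 4088 (L 3270) (L 3255)) (A 4088 (L 3278) (L 3263)))) (A 2041 (L 3303) (B
    14839 (L 3296) (L 3304))))) (A 1018 (C 506 (B 15607 (L 3292) (A 1785 (L 3358) (L 3327))) (A
    1785 (L 3381) (L 3350))) (C 506 (A 2041 (B 15607 (L 3288) (L 3296)) (B 15607 (A 4088 (L 3286)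
    (L 3271)) (C 761 (L 3282) (L 3312)))) (A 2041 (A 3832 (L 3348) (L 3333)) (B 15607 (L 3313) (L
    3321))))))))
    _ _ _ _ _ _ (by decide +kernel)

theorem ck1_103 : Ok P1 253 763 1020 255 510 1021 :=
  sound1
    (C 1788 (B 2043 (A 1274 (A 2297 (B 3834 (C 3323 (A 4344 (C 6394 (B 7417 (L 2471) (L 2406)) (B
    7417 (L 2372) (L 2307))) (B 7417 (C 6394 (L 2463) (L 2365)) (C 6394 (L 2398) (L 2300)))) (C
    6650 (B 7417 (A 4344 (L 2274) (A 8695 (L 2248) (L 2245))) (L 2)) (L 2))) (C 3323 (C 6394 (B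
    7673 (A 4344 (L 2340) (L 2333)) (L 2)) (L 2)) (L 2))) (B 3834 (C 3323 (A 4600 (B 7417 (C 6394
    (L 2455) (L 2358)) (C 6394 (L 2391) (A 8951 (L 2273) (L 2270)))) (B 7417 (C 6394 (L 2448) (L
    2350)) (C 6394 (L 2384) (A 9207 (L 2266) (L 2263))))) (C 6650 (B 7417 (A 4600 (A 8951 (L 2241)
    (L 2238)) (A 9207 (L 2234) (L 2231))) (L 2)) (L 2))) (C 3323 (C 6394 (B 7673 (A 4600 (L 2326)
    (A 9207 (L 2300) (L 2296))) (L 2)) (L 2)) (L 2)))) (A 2553 (B 3834 (C 3323 (A 4856 (B 7417 (C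
    6394 (L 2440) (A 9463 (L 2323) (L 2320))) (C 6394 (A 9463 (L 2356) (L 2353)) (A 9463 (L 2259)
    (L 2256)))) (B 7417 (C 6394 (L 2432) (A 9719 (L 2316) (L 2312))) (C 6394 (A 9719 (L 2349) (L
    2345)) (A 9719 (L 2252) (L 2249))))) (C 6650 (B 7417 (A 4856 (A 9463 (L 2227) (L 2224)) (C
    13049 (A 9719 (L 2220) (L 2217)) (L 2))) (L 2)) (L 2))) (C 3323 (C 6394 (B 7673 (A 4856 (A
    9463 (L 2293) (L 2289)) (A 9719 (L 2286) (L 2282))) (L 2)) (L 2)) (L 2))) (B 3834 (C 3323 (B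
    7417 (C 6394 (B 14584 (A 5112 (L 0) (L 0)) (A 5112 (L 0) (L 0))) (B 14584 (A 5112 (L 0) (L 0))
    (A 5112 (L 0) (L 0)))) (C 6394 (B 14840 (A 5112 (L 0) (L 0)) (A 5112 (L 0) (L 0))) (B 14840 (C
    12793 (L 0) (L 2)) (L 2)))) (B 7417 (C 6650 (B 14584 (C 13049 (A 5112 (L 0) (L 0)) (L 2)) (L
    2)) (L 2)) (L 2))) (C 3323 (B 7673 (C 6394 (B 15096 (A 5112 (L 0) (L 0)) (A 5112 (L 0) (L 0)))
    (L 2)) (L 2)) (L 2))))) (L 2)) (L 2))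
    _ _ _ _ _ _ (by decide +kernel)

theorem ck2_202 : Ok P2 763 508 7160 2042 764 509 :=
  sound2
    (B 14839 (A 1530 (C 1531 (B 28918 (A 2809 (A 5368 (L 3595) (L 3579)) (C 2810 (L 3565) (L
    3580))) (A 2809 (A 5368 (L 3606) (L 3590)) (C 2810 (L 3576) (L 3591)))) (B 28918 (A 2809 (A
    5368 (L 3625) (L 3610)) (C 3066 (L 3594) (L 3608))) (A 2809 (A 5368 (L 3637) (L 3621)) (C 3066
    (L 3606) (L 3620))))) (C 1531 (B 28918 (A 3065 (C 2810 (A 5880 (L 0) (L 0)) (A 5880 (L 0) (L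
    0))) (C 2810 (L 0) (L 0))) (A 3065 (C 2810 (A 5880 (L 0) (L 0)) (A 5880 (L 0) (L 0))) (C 2810
    (L 0) (L 0)))) (B 28918 (A 3065 (C 3066 (A 5880 (L 0) (L 0)) (A 5880 (L 0) (L 0))) (C 3066 (L
    0) (L 0))) (A 3065 (C 3066 (A 5880 (L 0) (L 0)) (A 5880 (L 0) (L 0))) (C 3066 (L 0) (L 0))))))
    (A 1530 (C 1531 (B 30198 (A 2809 (C 2810 (L 3620) (L 3635)) (C 2810 (A 5624 (L 3620) (L 3605))
    (A 5624 (L 3636) (L 3620)))) (A 2809 (C 2810 (L 3631) (L 3647)) (C 2810 (A 5624 (L 3632) (L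
    3616)) (A 5624 (L 3648) (L 3632))))) (B 30198 (A 2809 (C 3066 (L 3650) (L 3665)) (C 3066 (A
    5624 (L 3651) (L 3635)) (A 5624 (L 3666) (L 3650)))) (A 2809 (C 3066 (L 3663) (L 3677)) (C
    3066 (A 5624 (L 3664) (L 3647)) (A 5624 (L 3678) (L 3662)))))) (C 1531 (B 30198 (A 3065 (C
    2810 (A 5880 (L 3589) (L 0)) (A 5880 (L 0) (L 0))) (C 2810 (L 0) (L 0))) (A 3065 (C 2810 (A
    5880 (L 3600) (L 0)) (A 5880 (L 3616) (L 0))) (C 2810 (A 6136 (L 0) (L 0)) (A 6136 (L 0) (L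
    0))))) (B 30198 (A 3065 (C 3066 (A 5880 (L 0) (L 0)) (A 5880 (L 0) (L 0))) (C 3066 (L 0) (L
    0))) (A 3065 (C 3066 (A 5880 (L 3631) (L 0)) (A 5880 (L 0) (L 0))) (C 3066 (A 6136 (L 0) (L
    0)) (L 0)))))))
    _ _ _ _ _ _ (by decide +kernel)

theorem ck2_159 : Ok P2 763 508 2041 763 0 253 :=
  sound2
    (B 4600 (C 252 (B 8439 (A 1530 (C 251 (L 0) (B 16118 (L 0) (L 0))) (B 16118 (L 0) (L 0))) (C
    251 (A 1530 (L 0) (L 0)) (A 1530 (B 17398 (L 0) (L 0)) (L 0)))) (B 8439 (A 1530 (C 507 (B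
    16118 (A 2809 (L 0) (L 0)) (A 2809 (L 0) (L 0))) (A 2809 (B 16118 (L 3116) (L 3121)) (B 16118
    (L 0) (L 0)))) (C 507 (A 3065 (L 0) (L 0)) (B 16118 (L 0) (L 0)))) (A 1530 (C 507 (B 17398 (A
    2809 (L 0) (L 0)) (A 2809 (A 5368 (L 0) (L 0)) (L 0))) (A 2809 (C 1018 (L 3131) (L 3160)) (B
    17398 (L 0) (L 0)))) (C 507 (A 3065 (L 0) (L 0)) (B 17398 (L 0) (A 3065 (L 0) (L 0))))))) (C
    252 (C 251 (B 9719 (A 1530 (L 0) (L 0)) (A 1530 (L 0) (L 0))) (B 9719 (A 1530 (B 18678 (L 0)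
    (A 2809 (L 0) (L 0))) (L 0)) (A 1530 (B 19958 (A 2809 (L 0) (L 0)) (A 2809 (L 0) (L 0))) (L
    0)))) (B 9719 (A 1530 (C 507 (B 18678 (A 2809 (A 5368 (L 0) (L 0)) (L 0)) (A 2809 (A 5368 (L
    0) (L 0)) (L 0))) (B 18678 (A 2809 (A 5368 (L 3165) (L 0)) (A 5624 (L 0) (L 0))) (A 2809 (A
    5368 (L 3170) (L 3156)) (A 5624 (L 0) (L 0))))) (C 507 (A 3065 (L 0) (L 0)) (B 18678 (A 3065
    (L 0) (L 0)) (A 3065 (L 0) (L 0))))) (A 1530 (C 507 (B 19958 (C 762 (L 0) (A 2809 (L 0) (L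
    0))) (C 762 (L 0) (A 2809 (L 0) (L 0)))) (B 19958 (A 2809 (A 5368 (L 3176) (L 3162)) (A 5624
    (L 0) (L 0))) (A 2809 (C 1018 (L 0) (L 3210)) (A 5624 (L 0) (L 0))))) (C 507 (B 19958 (L 0) (L
    0)) (B 19958 (A 3065 (L 0) (L 0)) (A 3065 (L 0) (L 0))))))))
    _ _ _ _ _ _ (by decide +kernel)

theorem ck1_2 : Ok P1 219 225 0 255 0 383 :=
  sound1
    (A 222 (A 220 (B 187 (L 1) (B 221 (L 218989) (B 238 (L 148001) (C 255 (L 153101) (B 246 (L 1)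
    (B 250 (L 5360) (B 252 (L 4891) (B 253 (L 4613) (B 254 (L 4472) (C 510 (L 4321) (B 509 (L
    3625) (C 1021 (L 2956) (B 1020 (L 2344) (L 2)))))))))))))) (A 221 (B 189 (L 1) (B 222 (L
    212725) (B 238 (L 143825) (C 255 (L 151013) (B 246 (L 1) (B 250 (L 5399) (B 252 (L 4916) (B
    253 (L 4631) (B 254 (L 4488) (C 510 (L 4338) (B 509 (L 3634) (C 1021 (L 2963) (B 1020 (L 2348)
    (L 2)))))))))))))) (B 191 (L 1) (B 223 (L 206462) (B 239 (L 139650) (C 255 (L 144749) (B 247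
    (L 6333) (B 251 (L 5329) (B 253 (L 4845) (B 254 (L 4505) (C 510 (L 4356) (B 509 (L 3643) (C
    1021 (L 2970) (B 1020 (L 2352) (L 2))))))))))))))) (A 223 (B 193 (L 1) (B 224 (L 200198) (B
    239 (L 135474) (C 255 (L 142661) (B 247 (L 6407) (B 251 (L 5369) (B 253 (L 4870) (B 254 (L
    4523) (C 510 (L 4375) (B 509 (L 3653) (C 1021 (L 2978) (B 1020 (L 2356) (L 2))))))))))))) (A
    224 (B 195 (L 1) (B 225 (L 193934) (B 240 (L 131299) (C 255 (L 136398) (B 247 (L 6346) (B 251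
    (L 5412) (B 253 (L 4897) (B 254 (L 4542) (C 510 (L 4395) (B 509 (L 3663) (C 1021 (L 2986) (B
    1020 (L 2360) (L 2))))))))))))) (B 197 (L 1) (B 226 (L 187671) (B 240 (L 127123) (C 255 (L
    134310) (B 247 (L 6425) (B 251 (L 5458) (B 253 (L 4926) (B 254 (L 4562) (C 510 (L 4417) (B 509
    (L 3674) (C 1021 (L 2995) (B 1020 (L 2365) (L 2))))))))))))))))
    _ _ _ _ _ _ (by decide +kernel)

theorem ck2_216 : Ok P2 253 763 8440 4601 507 253 :=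
  sound2
    (B 17399 (A 1274 (C 1018 (A 2297 (B 34038 (L 3461) (L 3470)) (B 34038 (A 4600 (L 3460) (L
    3445)) (A 4600 (L 3469) (L 3454)))) (A 2297 (A 4344 (L 3508) (L 3493)) (B 34038 (L 3468) (A
    4600 (L 3508) (L 3493))))) (C 1018 (B 34038 (A 2553 (C 1785 (L 3420) (L 3440)) (C 1785 (A 5112
    (L 0) (L 0)) (A 5112 (L 3440) (L 0)))) (A 2553 (C 1785 (A 4856 (L 3460) (L 3445)) (L 3449)) (C
    1785 (A 5112 (L 3429) (L 0)) (A 5112 (L 3449) (L 0))))) (B 34038 (A 2553 (A 4856 (L 3468) (L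
    3452)) (C 2041 (A 5112 (L 3458) (L 3443)) (A 5112 (L 3476) (L 3461)))) (A 2553 (C 2041 (L
    3468) (L 3486)) (C 2041 (A 5112 (L 3468) (L 3453)) (A 5112 (L 3486) (L 3471))))))) (A 1274 (C
    1018 (A 2297 (B 35318 (L 3479) (L 3488)) (B 35318 (A 4600 (L 3478) (L 3463)) (A 4600 (L 3488)
    (L 3472)))) (A 2297 (B 35318 (L 3518) (L 3527)) (B 35318 (A 4600 (L 3517) (L 3502)) (A 4600 (L
    3527) (L 3512))))) (C 1018 (B 35318 (A 2553 (C 1785 (A 4856 (L 3470) (L 3454)) (A 4856 (L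
    3490) (L 3474))) (C 1785 (A 5112 (L 3439) (L 0)) (A 5112 (L 3459) (L 0)))) (A 2553 (C 1785 (A
    4856 (L 3479) (L 3464)) (A 4856 (L 3499) (L 3484))) (C 1785 (B 71157 (L 0) (L 0)) (A 5112 (L
    3468) (A 10231 (L 0) (L 0)))))) (B 35318 (A 2553 (C 2041 (L 3478) (L 3496)) (C 2041 (A 5112 (L
    3478) (L 3462)) (A 5112 (L 3496) (L 3480)))) (A 2553 (C 2041 (A 4856 (L 3519) (L 3503)) (L
    3506)) (C 2041 (A 5112 (L 3488) (A 10231 (L 0) (L 0))) (A 5112 (L 3506) (L 3490))))))))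
    _ _ _ _ _ _ (by decide +kernel)

theorem ck2_183 : Ok P2 763 508 7160 2042 252 253 :=
  sound2
    (C 507 (B 14839 (A 1530 (C 762 (B 28918 (A 2809 (L 0) (L 0)) (A 2809 (L 0) (L 0))) (B 28918 (A
    2809 (A 5368 (L 0) (L 0)) (L 0)) (A 2809 (A 5368 (L 0) (L 0)) (L 0)))) (C 762 (A 3065 (L 0) (L
    0)) (B 28918 (L 0) (L 0)))) (A 1530 (C 762 (B 30198 (A 2809 (L 0) (L 0)) (A 2809 (L 0) (L 0)))
    (B 30198 (A 2809 (A 5368 (L 0) (L 0)) (L 0)) (A 2809 (A 5368 (L 0) (L 0)) (L 0)))) (C 762 (A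
    3065 (L 0) (L 0)) (B 30198 (L 0) (L 0))))) (B 14839 (A 1530 (C 1018 (B 28918 (A 2809 (A 5368
    (L 0) (L 0)) (L 0)) (A 2809 (B 58357 (L 0) (L 0)) (L 0))) (B 28918 (A 2809 (A 5368 (L 3337) (L
    0)) (A 5624 (L 0) (L 0))) (A 2809 (C 2041 (L 0) (L 3350)) (A 5624 (L 0) (L 0))))) (C 1018 (B
    28918 (A 3065 (L 0) (L 0)) (A 3065 (L 0) (L 0))) (B 28918 (A 3065 (L 0) (L 0)) (A 3065 (L 0)
    (L 0))))) (A 1530 (C 1018 (B 30198 (A 2809 (B 59637 (L 0) (L 0)) (L 0)) (A 2809 (B 60917 (L 0)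
    (L 0)) (L 0))) (B 30198 (A 2809 (C 2041 (L 0) (A 5368 (L 0) (L 0))) (A 5624 (L 0) (L 0))) (A
    2809 (C 2041 (A 5368 (L 0) (L 0)) (A 5368 (L 0) (L 0))) (A 5624 (L 0) (L 0))))) (C 1018 (B
    30198 (A 3065 (L 0) (L 0)) (A 3065 (L 0) (L 0))) (B 30198 (A 3065 (L 0) (L 0)) (A 3065 (L 0)
    (L 0)))))))
    _ _ _ _ _ _ (by decide +kernel)

theorem ck2_176 : Ok P2 253 763 763 3321 253 254 :=
  sound2
    (B 5880 (C 508 (A 1274 (C 763 (B 10999 (A 2297 (L 3317) (L 3288)) (A 2297 (L 3331) (L 3302)))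
    (B 10999 (L 3311) (L 3325))) (C 763 (B 10999 (A 2553 (L 3259) (B 21238 (L 3247) (L 3254))) (A
    2553 (B 22518 (L 3290) (L 3297)) (B 22518 (L 3261) (L 3268)))) (B 10999 (A 2553 (L 3309) (L
    3279)) (A 2553 (L 3323) (B 22518 (L 3312) (L 3319)))))) (A 1274 (C 1019 (A 2297 (L 3376) (L
    3347)) (A 2297 (L 3415) (L 3385))) (C 1019 (B 10999 (A 2553 (L 3352) (L 3322)) (A 2553 (L
    3368) (L 3338))) (B 10999 (A 2553 (L 3390) (L 3361)) (A 2553 (L 3407) (L 3377)))))) (C 508 (A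
    1274 (C 763 (B 12279 (A 2297 (L 3345) (L 3316)) (A 2297 (L 3360) (L 3330))) (B 12279 (A 2297
    (L 3398) (L 3368)) (A 2297 (L 3414) (L 3384)))) (B 12279 (C 763 (A 2553 (A 4856 (L 3315) (L
    3300)) (C 1274 (L 3285) (L 3313))) (A 2553 (L 3338) (B 23798 (L 3327) (L 3334)))) (C 763 (A
    2553 (B 25078 (L 3319) (L 3326)) (C 1274 (A 5112 (L 3330) (L 3315)) (L 3328))) (A 2553 (A 4856
    (L 3383) (L 3368)) (B 25078 (L 3342) (L 3350)))))) (A 1274 (C 1019 (B 12279 (L 3385) (A 2297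
    (L 3460) (L 3430))) (B 12279 (L 3425) (L 3443))) (C 1019 (B 12279 (A 2553 (L 3384) (L 3354))
    (A 2553 (L 3400) (A 5112 (L 3400) (L 3385)))) (B 12279 (A 2553 (L 3424) (L 3394)) (A 2553 (L
    3442) (A 5112 (L 3441) (L 3426))))))))
    _ _ _ _ _ _ (by decide +kernel)

theorem ck1_79 : Ok P1 763 508 1531 509 510 1021 :=
  sound1
    (C 1788 (B 3066 (A 1530 (C 3323 (B 5881 (A 2809 (L 0) (L 0)) (A 2809 (L 0) (L 0))) (B 5881 (A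
    2809 (L 0) (L 0)) (A 2809 (L 0) (L 0)))) (C 3323 (A 3065 (L 0) (L 0)) (A 3065 (L 0) (L 0))))
    (A 1530 (C 3323 (B 6137 (A 2809 (L 0) (L 0)) (A 2809 (A 5368 (L 0) (L 0)) (L 0))) (B 6137 (A
    2809 (A 5368 (L 0) (L 0)) (L 0)) (A 2809 (A 5368 (L 0) (L 0)) (L 0)))) (C 3323 (B 6137 (L 0)
    (L 0)) (B 6137 (L 0) (A 3065 (L 0) (L 0)))))) (B 3066 (A 1530 (C 3579 (B 5881 (A 2809 (L 0) (L
    0)) (C 6906 (A 2809 (L 0) (L 0)) (A 2809 (L 0) (L 0)))) (B 5881 (A 2809 (L 0) (L 0)) (A 2809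
    (A 5368 (L 0) (L 0)) (L 0)))) (C 3579 (B 5881 (L 0) (L 0)) (B 5881 (L 0) (A 3065 (L 0) (L
    0))))) (C 3579 (A 1530 (B 6137 (A 2809 (A 5368 (L 0) (L 0)) (L 0)) (A 2809 (C 6906 (L 0) (L
    0)) (A 5624 (L 0) (L 0)))) (B 6137 (A 3065 (L 0) (L 0)) (A 3065 (L 0) (L 0)))) (A 1530 (B 6137
    (A 2809 (C 7162 (L 0) (L 0)) (A 5624 (L 0) (L 0))) (A 2809 (C 7162 (L 0) (A 5368 (L 0) (L 0)))
    (C 7162 (L 0) (L 0)))) (B 6137 (A 3065 (L 0) (L 0)) (C 7162 (L 0) (L 0)))))))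
    _ _ _ _ _ _ (by decide +kernel)

theorem ck1_110 : Ok P1 763 508 509 1787 510 1788 :=
  sound1
    (B 3322 (A 1530 (C 3323 (B 6393 (A 2809 (A 5368 (L 0) (L 0)) (L 0)) (A 2809 (C 6394 (L 0) (L
    0)) (L 0))) (B 6393 (A 2809 (C 6650 (L 0) (L 0)) (A 5624 (L 0) (L 0))) (A 2809 (C 6650 (L 0)
    (A 5368 (L 0) (L 0))) (C 6650 (L 0) (L 0))))) (C 3323 (B 6393 (A 3065 (L 0) (L 0)) (A 3065 (L
    0) (L 0))) (B 6393 (A 3065 (L 0) (L 0)) (C 6650 (L 0) (L 0))))) (C 3323 (A 1530 (B 6649 (A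
    2809 (C 6394 (L 0) (L 0)) (A 5624 (L 0) (L 0))) (A 2809 (C 6394 (L 0) (A 5368 (L 0) (L 0))) (A
    5624 (L 0) (L 0)))) (B 6649 (A 3065 (L 0) (L 0)) (A 3065 (L 0) (L 0)))) (A 1530 (B 6649 (A
    2809 (C 6650 (A 5368 (L 0) (L 0)) (A 5368 (L 0) (L 0))) (C 6650 (L 0) (L 0))) (A 2809 (C 6650
    (A 5368 (L 0) (L 0)) (B 13304 (L 0) (L 0))) (C 6650 (L 0) (A 5624 (L 0) (L 0))))) (B 6649 (C
    6650 (L 0) (A 3065 (L 0) (L 0))) (C 6650 (A 3065 (L 0) (L 0)) (A 3065 (L 0) (L 0)))))))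
    _ _ _ _ _ _ (by decide +kernel)

theorem ck2_240 : Ok P2 253 254 4601 764 253 254 :=
  sound2
    (C 508 (B 9720 (C 763 (B 18679 (A 508 (B 36598 (A 763 (A 1274 (C 1274 (A 2297 (L 3573) (A 4600
    (L 3573) (L 3558))) (A 2297 (L 3607) (A 4600 (L 3607) (L 3592)))) (C 1274 (A 2553 (C 2297 (L
    3534) (L 3551)) (C 2297 (A 5112 (L 3534) (L 3518)) (A 5112 (L 3551) (L 3536)))) (C 2553 (A
    2553 (L 3567) (A 5112 (L 3568) (L 3552))) (L 1)))) (A 1530 (C 1274 (A 2809 (C 2297 (B 72437 (L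
    0) (L 0)) (B 72437 (L 0) (L 1))) (C 2297 (A 5624 (L 0) (L 0)) (A 5624 (L 0) (L 0)))) (C 2553
    (B 72437 (A 2809 (A 5368 (L 0) (L 0)) (L 0)) (L 1)) (L 1))) (C 1274 (A 3065 (B 72437 (L 0) (L
    0)) (A 6136 (L 0) (L 0))) (C 2553 (A 3065 (L 0) (L 0)) (L 1))))) (L 1)) (B 36598 (A 1019 (A
    1786 (C 1274 (A 3321 (L 0) (L 0)) (A 3321 (L 0) (L 0))) (C 1274 (L 0) (L 0))) (C 1274 (L 0) (L
    0))) (L 1))) (L 1)) (L 1)) (L 1)) (L 1))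
    _ _ _ _ _ _ (by decide +kernel)

theorem ck2_219 : Ok P2 253 508 4601 9720 0 251 :=
  sound2
    (A 763 (B 18679 (C 250 (A 1274 (B 36598 (A 2297 (L 0) (L 0)) (A 2297 (L 0) (L 0))) (A 2553 (L
    0) (L 0))) (A 1274 (B 36598 (C 505 (L 0) (A 2297 (L 0) (L 0))) (C 505 (L 0) (A 2297 (L 0) (L
    0)))) (B 36598 (A 2553 (L 0) (L 0)) (A 2553 (L 0) (L 0))))) (C 250 (A 1274 (B 37878 (A 2297 (L
    0) (L 0)) (A 2297 (L 0) (L 0))) (A 2553 (L 0) (L 0))) (A 1274 (B 37878 (C 505 (L 0) (A 2297 (L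
    0) (L 0))) (C 505 (L 0) (A 2297 (L 0) (L 0)))) (B 37878 (A 2553 (L 0) (L 0)) (A 2553 (L 0) (L
    0)))))) (B 18679 (C 250 (A 1530 (L 0) (L 0)) (A 1530 (A 2809 (L 0) (L 0)) (L 0))) (C 250 (A
    1530 (L 0) (L 0)) (A 1530 (A 2809 (L 0) (L 0)) (L 0)))))
    _ _ _ _ _ _ (by decide +kernel)

theorem ck2_253 : Ok P2 508 254 3321 2042 255 510 :=
  sound2
    (C 765 (B 7160 (A 1019 (C 1276 (B 13559 (A 1786 (C 2299 (B 26358 (A 3321 (L 0) (L 0)) (A 3321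
    (L 0) (L 0))) (B 26358 (A 3321 (L 0) (L 0)) (A 3321 (L 0) (L 0)))) (C 2299 (B 26358 (L 0) (L
    0)) (A 3577 (L 0) (L 0)))) (C 2299 (B 27638 (A 1786 (A 3321 (L 0) (L 0)) (L 0)) (L 1)) (L 1)))
    (B 13559 (B 26358 (A 1786 (C 2555 (A 3321 (L 0) (L 0)) (A 3321 (L 0) (L 0))) (C 2555 (L 0) (L
    0))) (L 1)) (L 1))) (C 1276 (B 13559 (A 2042 (C 2299 (L 0) (L 0)) (C 2299 (L 0) (L 0))) (C
    2299 (A 2042 (A 3833 (L 0) (L 0)) (L 0)) (L 1))) (B 13559 (B 26358 (C 2555 (L 0) (L 0)) (L 1))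
    (L 1)))) (L 1)) (L 1))
    _ _ _ _ _ _ (by decide +kernel)

theorem ck1_67 : Ok P1 253 254 250 252 0 383 :=
  sound1
    (C 255 (A 508 (L 0) (L 0)) (A 508 (L 0) (L 0)))
    _ _ _ _ _ _ (by decide +kernel)

theorem ck1_123 : Ok P1 254 255 252 253 0 383 :=
  sound1
    (C 255 (L 0) (C 510 (L 0) (L 0)))
    _ _ _ _ _ _ (by decide +kernel)

theorem ck1_20 : Ok P1 252 253 0 249 0 383 :=
  sound1
    (L 0)
    _ _ _ _ _ _ (by decide +kernel)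

theorem ck1_109 : Ok P1 253 763 1020 255 1021 383 :=
  sound1
    (L 2)
    _ _ _ _ _ _ (by decide +kernel)

theorem ck2_256 : Ok P2 253 254 3321 2042 510 383 :=
  sound2
    (L 1)
    _ _ _ _ _ _ (by decide +kernel)

end Vale.Agent.P322
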