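import Vale.Agent.P322.CKChk

/-!
Verified boxes, part 8.
-/

namespace Vale.Agent.P322

open Tr

theorem ck1_41 : Ok P1 252 507 509 255 510 1021 :=
  sound1
    (B 1020 (A 762 (C 1788 (A 1273 (B 1787 (A 2296 (L 3274) (L 3269)) (C 3323 (A 2296 (L 3009) (L
    3005)) (A 2296 (L 2808) (L 2804)))) (B 1787 (A 2552 (L 3265) (B 3322 (L 3144) (L 3012))) (C
    3323 (A 2552 (L 3001) (L 2996)) (B 3578 (L 2747) (A 2552 (L 2551) (L 2546)))))) (B 1787 (A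
    1273 (C 3579 (A 2296 (L 2884) (L 2879)) (B 3322 (A 2296 (L 2587) (L 2581)) (A 2296 (L 2446) (L
    2441)))) (C 3579 (A 2552 (L 2875) (B 3322 (L 2760) (L 2623))) (B 3322 (A 2552 (L 2575) (L
    2569)) (A 2552 (L 2435) (L 2429))))) (A 1273 (C 3579 (B 3578 (A 2296 (L 2501) (L 2496)) (A
    2296 (L 2361) (L 2356))) (B 3578 (A 2296 (L 2305) (A 4599 (L 2273) (L 2271))) (L 2))) (C 3579
    (B 3578 (A 2552 (L 2491) (L 2485)) (A 2552 (L 2351) (A 5111 (L 2321) (L 2319)))) (B 3578 (C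
    7162 (A 2552 (L 2294) (L 2289)) (L 2)) (L 2)))))) (C 1788 (B 1787 (A 1529 (C 3323 (B 3322 (L
    3205) (L 3070)) (B 3322 (L 3008) (L 2871))) (C 3323 (B 3322 (L 3188) (L 3054)) (B 3322 (L
    2992) (A 3064 (L 2798) (L 2792))))) (A 1529 (C 3323 (A 2808 (L 2991) (L 2986)) (B 3578 (A 2808
    (L 2676) (L 2670)) (A 2808 (L 2541) (L 2535)))) (C 3323 (B 3578 (L 2919) (A 3064 (L 2729) (L
    2723))) (B 3578 (A 3064 (L 2664) (L 2658)) (A 3064 (L 2529) (L 2523)))))) (B 1787 (A 1529 (C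
    3579 (B 3322 (A 2808 (L 2754) (L 2747)) (A 2808 (L 2617) (L 2611))) (B 3322 (A 2808 (L 2563)
    (L 2557)) (A 2808 (B 6649 (L 2372) (L 2302)) (B 6649 (L 2366) (L 2296))))) (C 3579 (B 3322 (A
    3064 (L 2741) (L 2734)) (A 3064 (L 2605) (L 2598))) (B 3322 (A 3064 (L 2550) (B 6393 (L 2491)
    (L 2422))) (A 3064 (B 6649 (L 2360) (L 2290)) (B 6649 (L 2353) (A 6135 (L 2261) (L 2258)))))))
    (A 1529 (C 3579 (B 3578 (A 2808 (L 2480) (L 2474)) (C 6906 (A 2808 (L 2341) (L 2336)) (L 2)))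
    (B 3578 (C 7162 (A 2808 (L 2284) (L 2278)) (L 2)) (L 2))) (C 3579 (B 3578 (A 3064 (B 6905 (L
    2414) (L 2346)) (B 6905 (L 2408) (L 2339))) (C 6906 (A 3064 (L 2331) (L 2325)) (L 2))) (B 3578
    (C 7162 (A 3064 (L 2273) (B 6905 (L 2214) (L 2))) (L 2)) (L 2))))))) (C 1788 (B 2043 (A 762 (A
    1273 (C 3323 (A 2296 (B 3834 (L 2627) (L 2490)) (B 3834 (L 2622) (L 2486))) (B 3834 (A 2296 (L
    2423) (L 2418)) (L 2))) (C 3323 (B 3834 (A 2552 (L 2617) (L 2612)) (A 2552 (L 2481) (L 2477)))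
    (B 3834 (A 2552 (L 2413) (L 2409)) (L 2)))) (A 1529 (C 3323 (B 3834 (A 2808 (L 2607) (L 2602))
    (A 2808 (L 2472) (L 2467))) (B 3834 (A 2808 (L 2404) (A 5623 (L 2374) (L 2372))) (L 2))) (C
    3323 (B 3834 (A 3064 (L 2596) (L 2590)) (A 3064 (A 5879 (L 2437) (L 2435)) (A 6135 (L 2432) (L
    2430)))) (B 3834 (C 6650 (A 3064 (L 2393) (L 2388)) (L 2)) (L 2))))) (L 2)) (L 2)))
    _ _ _ _ _ _ (by decide +kernel)

theorem ck2_269 : Ok P2 254 255 507 764 255 383 :=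
  sound2
    (B 253 (C 510 (A 509 (A 764 (C 765 (B 1018 (A 1275 (L 0) (L 0)) (A 1275 (B 2041 (L 0) (L 0))
    (L 0))) (B 1018 (L 0) (A 1275 (L 0) (L 0)))) (C 765 (L 0) (L 0))) (L 0)) (A 509 (A 764 (C 1021
    (B 1018 (L 0) (L 0)) (B 1018 (L 0) (L 0))) (L 0)) (L 0))) (B 1019 (C 510 (B 1530 (A 509 (C 765
    (A 764 (B 2553 (A 1275 (B 4600 (C 1276 (L 0) (L 0)) (C 1276 (L 0) (L 0))) (B 4600 (L 0) (L
    0))) (A 1275 (C 1276 (B 5368 (L 0) (L 0)) (B 5368 (L 0) (L 0))) (C 1276 (B 5368 (L 0) (L 0))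
    (B 5368 (L 0) (L 0))))) (B 2553 (A 1531 (L 0) (L 0)) (C 1276 (L 0) (L 0)))) (A 764 (B 2553 (A
    1275 (C 1532 (B 4600 (L 0) (L 0)) (L 0)) (B 4600 (L 0) (L 0))) (A 1275 (C 1532 (B 5368 (L 0)
    (L 0)) (B 5368 (L 0) (L 0))) (C 1532 (L 0) (L 0)))) (B 2553 (L 0) (B 5368 (L 0) (L 0))))) (C
    765 (B 2553 (L 0) (L 0)) (B 2553 (L 0) (L 0)))) (C 765 (A 509 (B 3321 (A 764 (C 1276 (A 1275
    (B 6136 (A 2298 (L 0) (L 0)) (A 2298 (L 0) (L 0))) (B 6136 (L 0) (L 0))) (A 1275 (B 6136 (A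
    2298 (L 0) (L 0)) (A 2298 (L 0) (L 0))) (B 6136 (L 0) (L 0)))) (C 1276 (A 1531 (L 0) (L 0)) (A
    1531 (L 0) (L 0)))) (A 764 (C 1276 (A 1275 (B 6904 (C 2299 (L 0) (L 0)) (C 2299 (A 2298 (L 0)
    (L 0)) (L 1))) (B 6904 (L 0) (A 2554 (L 0) (L 0)))) (B 6904 (A 1275 (C 2555 (L 0) (L 0)) (L
    0)) (L 1))) (C 1276 (B 6904 (L 0) (L 0)) (B 6904 (L 0) (L 1))))) (B 3321 (B 6136 (L 0) (L 0))
    (C 1276 (L 0) (L 0)))) (B 3321 (A 509 (A 764 (C 1532 (A 1275 (B 6136 (A 2298 (L 0) (L 0)) (A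
    2298 (L 0) (L 0))) (B 6136 (L 0) (L 0))) (A 1275 (B 6136 (A 2298 (L 0) (L 0)) (A 2298 (L 0) (L
    0))) (B 6136 (L 0) (L 0)))) (C 1532 (A 1531 (L 0) (L 0)) (A 1531 (L 0) (L 0)))) (B 6136 (L 0)
    (L 0))) (L 1)))) (B 1530 (A 509 (C 1021 (A 764 (B 2553 (C 1788 (A 1275 (L 0) (L 0)) (A 1275 (L
    0) (L 0))) (C 1788 (B 5368 (L 0) (A 1275 (L 0) (L 0))) (B 5368 (L 0) (L 0)))) (B 2553 (L 0) (A
    1531 (L 0) (L 0)))) (A 764 (B 2553 (A 1275 (L 0) (L 0)) (C 2044 (A 1275 (L 0) (L 0)) (A 1275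
    (L 0) (L 0)))) (B 2553 (L 0) (L 0)))) (C 1021 (L 0) (L 0))) (C 1021 (B 3321 (B 6136 (A 509 (A
    764 (C 1788 (A 1275 (L 0) (L 0)) (A 1275 (L 0) (L 0))) (L 0)) (L 0)) (L 1)) (L 1)) (L 1)))) (L
    1)))
    _ _ _ _ _ _ (by decide +kernel)

theorem ck2_158 : Ok P2 253 763 2041 763 0 253 :=
  sound2
    (B 4600 (C 252 (A 1274 (B 8439 (C 251 (A 2297 (C 250 (B 16118 (L 0) (L 0)) (B 16118 (L 0) (L
    0))) (B 16118 (L 0) (L 0))) (A 2297 (B 16118 (L 3090) (L 3093)) (B 16118 (L 3061) (A 4600 (L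
    3091) (L 3076))))) (C 251 (C 250 (A 2297 (L 0) (L 0)) (A 2297 (B 17398 (L 0) (L 0)) (B 17398
    (L 0) (L 0)))) (A 2297 (B 17398 (L 3097) (L 3101)) (C 506 (B 17398 (L 0) (L 0)) (L 3113)))))
    (B 8439 (C 251 (B 16118 (L 0) (L 0)) (A 2553 (C 506 (B 16118 (L 0) (L 0)) (B 16118 (L 0) (L
    0))) (B 16118 (L 0) (L 0)))) (C 251 (B 17398 (L 0) (L 0)) (A 2553 (C 506 (B 17398 (L 0) (L 0))
    (B 17398 (L 0) (L 0))) (B 17398 (L 0) (L 0)))))) (A 1274 (C 507 (B 8439 (A 2297 (L 3150) (L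
    3122)) (A 2297 (L 3159) (L 3130))) (B 8439 (L 3160) (L 3170))) (C 507 (B 8439 (A 2553 (B 16118
    (L 3111) (L 3115)) (B 16118 (L 3082) (A 5112 (L 3113) (L 0)))) (A 2553 (B 17398 (L 3119) (L
    3124)) (C 762 (B 17398 (L 0) (L 0)) (L 3129)))) (B 8439 (A 2553 (L 3156) (L 3127)) (A 2553 (L
    3167) (B 17398 (L 3155) (L 3161))))))) (C 252 (C 251 (A 1274 (B 9719 (C 250 (A 2297 (L 0) (L
    0)) (A 2297 (B 18678 (L 0) (L 0)) (B 18678 (L 0) (L 0)))) (C 250 (A 2297 (L 0) (L 0)) (A 2297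
    (B 19958 (L 0) (L 0)) (B 19958 (L 0) (L 0))))) (B 9719 (B 18678 (L 0) (A 2553 (L 0) (L 0))) (B
    19958 (A 2553 (L 0) (L 0)) (A 2553 (L 0) (L 0))))) (A 1274 (B 9719 (A 2297 (B 18678 (L 3105)
    (L 3109)) (C 506 (B 18678 (L 0) (L 0)) (L 3122))) (A 2297 (C 506 (B 19958 (L 3133) (L 3138))
    (L 3161)) (C 506 (B 19958 (L 0) (L 0)) (B 19958 (L 3151) (L 3156))))) (B 9719 (B 18678 (A 2553
    (C 506 (L 0) (L 0)) (L 0)) (A 2553 (C 506 (L 0) (L 0)) (L 0))) (B 19958 (A 2553 (C 506 (L 0)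
    (L 0)) (A 5112 (L 0) (L 0))) (C 506 (A 2553 (L 0) (L 0)) (A 2553 (L 0) (L 0))))))) (A 1274 (C
    507 (B 9719 (A 2297 (L 3169) (B 18678 (L 3158) (L 3163))) (A 2297 (L 3179) (B 19958 (L 3168)
    (L 3173)))) (B 9719 (A 2297 (L 3236) (L 3206)) (A 2297 (L 3247) (L 3218)))) (B 9719 (C 507 (A
    2553 (C 762 (L 3133) (L 3169)) (C 762 (B 18678 (L 0) (L 0)) (B 18678 (L 3158) (L 3164)))) (A
    2553 (L 3177) (B 18678 (L 3166) (L 3172)))) (C 507 (A 2553 (C 762 (B 19958 (L 3162) (L 3168))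
    (L 3180)) (C 762 (B 19958 (L 0) (L 0)) (B 19958 (L 3169) (L 3176)))) (A 2553 (B 19958 (L 3207)
    (L 3212)) (B 19958 (L 3177) (L 3183))))))))
    _ _ _ _ _ _ (by decide +kernel)

theorem ck2_210 : Ok P2 508 254 3321 2042 509 255 :=
  sound2
    (B 7160 (A 1019 (C 1020 (B 13559 (A 1786 (C 1787 (B 26358 (A 3321 (L 0) (L 0)) (A 3321 (L 0)
    (L 0))) (B 26358 (A 3321 (L 0) (L 0)) (A 3321 (L 0) (L 0)))) (C 1787 (B 26358 (L 0) (L 0)) (B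
    26358 (L 0) (L 0)))) (A 1786 (C 1787 (B 27638 (C 3322 (L 0) (L 0)) (C 3322 (A 3321 (L 0) (L
    0)) (A 3321 (L 0) (L 0)))) (B 27638 (C 3578 (L 0) (L 0)) (C 3578 (A 3321 (L 0) (L 0)) (L 0))))
    (C 1787 (B 27638 (L 0) (L 0)) (B 27638 (L 0) (L 0))))) (B 13559 (A 1786 (C 2043 (B 26358 (A
    3321 (L 0) (L 0)) (A 3321 (L 0) (L 0))) (B 26358 (A 3321 (L 0) (L 0)) (A 3321 (L 0) (L 0))))
    (C 2043 (B 26358 (L 0) (L 0)) (B 26358 (L 0) (L 0)))) (A 1786 (C 2043 (B 27638 (A 3321 (L 0)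
    (L 0)) (C 3834 (L 0) (L 0))) (B 27638 (A 3321 (L 0) (L 0)) (C 4090 (L 0) (L 0)))) (C 2043 (B
    27638 (L 0) (L 0)) (B 27638 (L 0) (L 0)))))) (C 1020 (B 13559 (A 2042 (C 1787 (L 0) (L 0)) (C
    1787 (L 0) (L 0))) (C 1787 (A 2042 (A 3833 (L 0) (L 0)) (L 0)) (A 2042 (A 3833 (L 0) (L 0)) (L
    0)))) (B 13559 (A 2042 (C 2043 (L 0) (L 0)) (C 2043 (L 0) (L 0))) (C 2043 (A 2042 (A 3833 (L
    0) (L 0)) (L 0)) (A 2042 (A 3833 (L 0) (L 0)) (L 0)))))) (C 1020 (A 1019 (B 14839 (A 1786 (C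
    1787 (B 28918 (C 3322 (A 3321 (L 0) (L 0)) (A 3321 (L 0) (L 0))) (A 3321 (A 6392 (L 0) (L 0))
    (L 0))) (B 28918 (C 3578 (A 3321 (L 0) (L 0)) (A 3321 (L 0) (L 0))) (A 3321 (A 6392 (L 0) (L
    0)) (L 0)))) (C 1787 (B 28918 (A 3577 (L 0) (L 0)) (A 3577 (L 0) (L 0))) (B 28918 (A 3577 (L
    0) (L 0)) (A 3577 (L 0) (L 0))))) (C 1787 (B 30198 (A 1786 (A 3321 (C 3322 (L 0) (L 0)) (A
    6648 (L 0) (L 0))) (A 3577 (L 0) (L 0))) (L 1)) (L 1))) (B 14839 (C 1787 (A 2042 (A 3833 (L 0)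
    (L 0)) (L 0)) (A 2042 (A 3833 (L 0) (L 0)) (L 0))) (C 1787 (B 30198 (A 2042 (L 0) (L 0)) (L
    1)) (L 1)))) (B 14839 (C 2043 (B 28918 (A 1019 (A 1786 (C 3834 (A 3321 (L 0) (L 0)) (A 3321 (L
    0) (L 0))) (A 3577 (L 0) (L 0))) (A 2042 (L 0) (L 0))) (L 1)) (L 1)) (L 1))))
    _ _ _ _ _ _ (by decide +kernel)

theorem ck1_46 : Ok P1 507 253 254 764 1021 383 :=
  sound1
    (C 2044 (A 1018 (B 1275 (A 1785 (C 3835 (B 2298 (A 3320 (L 0) (L 0)) (A 3320 (L 3352) (L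
    3343))) (B 2298 (L 0) (A 3320 (B 4601 (L 0) (L 0)) (L 0)))) (B 2298 (C 3835 (L 0) (L 0)) (C
    3835 (A 3576 (L 3334) (L 0)) (A 3576 (L 0) (L 0))))) (A 1785 (C 3835 (B 2554 (A 3320 (L 3201)
    (L 3193)) (A 3320 (L 3054) (L 3046))) (B 2554 (A 3320 (B 4857 (L 2970) (L 2895)) (B 4857 (L 0)
    (L 2886))) (A 3320 (B 5113 (L 2821) (L 2748)) (C 7674 (L 2864) (B 5113 (L 0) (L 2648)))))) (C
    3835 (B 2554 (A 3576 (L 3184) (B 4857 (L 0) (L 3047))) (A 3576 (B 5113 (L 2984) (L 2912)) (B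
    5113 (L 2975) (L 2903)))) (B 2554 (C 7674 (A 3576 (L 0) (L 0)) (A 3576 (L 0) (L 0))) (A 3576
    (C 7674 (L 2855) (B 5113 (L 0) (L 0))) (C 7674 (B 5113 (L 0) (L 0)) (B 5113 (L 0) (L 0))))))))
    (B 1275 (B 2298 (C 3835 (A 2041 (L 0) (L 0)) (L 0)) (C 3835 (A 2041 (L 0) (L 0)) (A 2041 (L 0)
    (L 0)))) (B 2554 (C 3835 (A 2041 (B 4857 (L 0) (A 3832 (L 0) (L 0))) (A 4088 (L 0) (L 0))) (A
    2041 (A 3832 (L 0) (L 0)) (L 0))) (C 3835 (A 2041 (A 3832 (B 5113 (L 2965) (L 2894)) (C 7418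
    (L 3010) (B 5113 (L 0) (L 0)))) (B 5113 (A 4088 (L 0) (L 0)) (A 4088 (L 0) (L 0)))) (A 2041 (B
    5113 (A 3832 (L 0) (L 0)) (C 7674 (L 0) (L 0))) (C 7674 (A 4088 (L 0) (L 0)) (L 0))))))) (B
    1275 (A 1018 (C 4091 (A 1785 (B 2298 (L 0) (L 0)) (B 2298 (L 0) (L 0))) (A 1785 (L 0) (L 0)))
    (C 4091 (A 2041 (L 0) (L 0)) (L 0))) (A 1018 (C 4091 (B 2554 (A 1785 (C 7930 (A 3320 (L 0) (L
    0)) (L 0)) (A 3576 (L 0) (L 0))) (A 1785 (C 7930 (A 3320 (B 5113 (L 0) (L 2565)) (B 5113 (L 0)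
    (L 0))) (A 3320 (B 5113 (L 0) (L 0)) (L 0))) (C 7930 (A 3576 (L 0) (L 0)) (A 3576 (L 0) (L
    0))))) (B 2554 (A 1785 (L 0) (L 0)) (A 1785 (C 8186 (A 3320 (L 0) (L 0)) (L 0)) (A 3576 (L 0)
    (L 0))))) (C 4091 (B 2554 (A 2041 (L 0) (L 0)) (A 2041 (C 7930 (L 0) (L 0)) (A 4088 (L 0) (L
    0)))) (B 2554 (L 0) (A 2041 (L 0) (L 0)))))))
    _ _ _ _ _ _ (by decide +kernel)

theorem ck1_48 : Ok P1 507 1018 1531 509 1021 2044 :=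
  sound1
    (A 1785 (C 3835 (B 3066 (A 3320 (B 5881 (L 2575) (L 2505)) (B 5881 (L 2567) (A 6647 (L 2473)
    (L 2470)))) (A 3320 (C 7418 (L 2487) (B 6137 (L 2341) (L 2271))) (C 7418 (B 6137 (L 2428) (L
    2358)) (B 6137 (L 2334) (L 2264))))) (B 3066 (A 3320 (C 7674 (B 5881 (L 2389) (L 2318)) (B
    5881 (A 6391 (L 2274) (L 2270)) (A 6391 (L 2203) (L 2200)))) (C 7674 (B 5881 (L 2382) (L
    2311)) (B 5881 (A 6647 (L 2267) (L 2263)) (A 6647 (L 2196) (L 2193))))) (A 3320 (C 7674 (B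
    6137 (L 2248) (A 6391 (L 2156) (L 2152))) (B 6137 (A 6391 (L 2132) (L 2129)) (A 6391 (B 12280
    (L 2038) (L 2003)) (B 12280 (L 2035) (L 2000))))) (C 7674 (B 6137 (A 6647 (L 2219) (L 2216))
    (A 6647 (L 2149) (L 2146))) (B 6137 (A 6647 (B 12024 (L 2102) (L 2067)) (B 12024 (L 2098) (L
    2063))) (A 6647 (B 12280 (L 2032) (L 1997)) (B 12280 (L 2028) (L 1993)))))))) (C 3835 (B 3066
    (A 3576 (C 7418 (L 2612) (B 5881 (L 2467) (L 2397))) (C 7418 (B 5881 (L 2551) (L 2482)) (B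
    5881 (L 2459) (L 2389)))) (A 3576 (C 7418 (B 6137 (L 2420) (L 2351)) (B 6137 (L 2327) (L
    2257))) (C 7418 (B 6137 (L 2413) (L 2343)) (B 6137 (L 2319) (A 7159 (L 2229) (L 2225)))))) (B
    3066 (A 3576 (C 7674 (B 5881 (L 2374) (A 6903 (L 2282) (L 2278))) (B 5881 (A 6903 (L 2259) (L
    2256)) (A 6903 (B 11768 (L 2165) (L 2130)) (B 11768 (L 2161) (L 2126))))) (C 7674 (B 5881 (A
    7159 (L 2344) (L 2340)) (A 7159 (L 2275) (L 2271))) (B 5881 (A 7159 (B 11512 (L 2228) (L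
    2193)) (B 11512 (L 2224) (L 2189))) (A 7159 (B 11768 (L 2158) (L 2123)) (B 11768 (L 2154) (L
    2119)))))) (A 3576 (C 7674 (B 6137 (A 6903 (L 2212) (L 2209)) (A 6903 (L 2143) (L 2139))) (B
    6137 (A 6903 (B 12024 (L 2095) (L 2060)) (B 12024 (L 2091) (L 2057))) (A 6903 (C 15353 (L
    2049) (B 12280 (L 1978) (L 2))) (C 15353 (L 2046) (B 12280 (L 1975) (L 2)))))) (C 7674 (B 6137
    (A 7159 (L 2205) (L 2202)) (A 7159 (B 12280 (L 2111) (L 2077)) (B 12280 (L 2108) (L 2073))))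
    (B 6137 (A 7159 (C 15353 (L 2113) (B 12024 (L 2042) (L 2007))) (C 15353 (L 2109) (B 12024 (L
    2038) (L 2003)))) (A 7159 (C 15353 (L 2043) (B 12280 (L 1972) (L 2))) (C 15353 (B 12280 (L
    2015) (L 1980)) (B 12280 (L 1969) (L 2))))))))))
    _ _ _ _ _ _ (by decide +kernel)

theorem ck2_221 : Ok P2 253 508 9720 764 0 252 :=
  sound2
    (C 251 (A 763 (C 250 (B 19959 (A 1274 (C 249 (L 0) (A 2297 (L 0) (L 0))) (A 2553 (L 0) (L 0)))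
    (A 1274 (C 249 (L 0) (A 2297 (L 0) (L 0))) (A 2553 (L 0) (L 0)))) (B 19959 (A 1274 (B 39158 (C
    505 (L 0) (A 2297 (L 0) (L 0))) (C 505 (A 2297 (L 0) (L 0)) (A 2297 (L 0) (L 0)))) (B 39158 (A
    2553 (L 0) (L 0)) (A 2553 (L 0) (L 0)))) (A 1274 (B 40438 (C 505 (A 2297 (L 0) (L 0)) (A 2297
    (L 0) (L 0))) (C 505 (A 2297 (L 0) (L 0)) (L 1))) (B 40438 (A 2553 (L 0) (L 0)) (A 2553 (L 0)
    (L 0)))))) (C 250 (B 19959 (A 1530 (L 0) (L 0)) (A 1530 (L 0) (L 0))) (B 19959 (A 1530 (A 2809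
    (L 0) (L 0)) (L 0)) (A 1530 (B 40438 (L 0) (L 0)) (L 0))))) (A 763 (B 19959 (C 506 (A 1274 (B
    39158 (C 761 (A 2297 (A 4344 (L 0) (L 0)) (L 0)) (A 2297 (B 77557 (L 0) (L 0)) (A 4600 (L 0)
    (L 0)))) (C 761 (A 2297 (A 4344 (L 0) (L 0)) (L 0)) (A 2297 (B 78837 (L 0) (L 0)) (A 4600 (L
    0) (L 0))))) (B 39158 (C 761 (L 0) (A 2553 (L 0) (L 0))) (C 761 (L 0) (A 2553 (L 0) (L 0)))))
    (A 1274 (B 39158 (A 2297 (C 1017 (A 4344 (L 3438) (A 8695 (L 3438) (L 0))) (A 4344 (L 3467) (L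
    3452))) (C 1017 (A 4600 (L 0) (L 0)) (B 77557 (A 4600 (L 0) (L 0)) (A 4600 (L 0) (L 0))))) (C
    1017 (B 78837 (A 2297 (A 4344 (L 0) (L 0)) (L 0)) (L 1)) (L 1))) (B 39158 (C 1017 (A 2553 (L
    0) (L 0)) (A 2553 (A 4856 (L 0) (L 0)) (L 0))) (C 1017 (A 2553 (L 0) (L 0)) (L 1))))) (C 506
    (C 761 (B 40438 (A 1274 (A 2297 (A 4344 (L 0) (L 0)) (L 0)) (L 0)) (L 1)) (L 1)) (L 1))) (B
    19959 (C 506 (A 1530 (B 39158 (A 2809 (L 0) (L 0)) (A 2809 (L 0) (L 0))) (A 3065 (L 0) (L 0)))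
    (A 1530 (B 39158 (C 1017 (L 0) (L 0)) (C 1017 (L 0) (L 1))) (B 39158 (L 0) (L 0)))) (C 506 (C
    761 (B 40438 (A 1530 (L 0) (L 0)) (L 1)) (L 1)) (L 1)))))
    _ _ _ _ _ _ (by decide +kernel)

theorem ck2_156 : Ok P2 253 763 762 2041 0 254 :=
  sound2
    (C 253 (B 3320 (C 252 (A 1274 (C 251 (B 5879 (A 2297 (B 10998 (L 2974) (L 2975)) (B 10998 (L
    0) (L 0))) (A 2297 (C 250 (B 12278 (L 0) (L 0)) (L 3021)) (B 12278 (L 0) (L 0)))) (B 5879 (A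
    2297 (L 3050) (L 3022)) (A 2297 (L 3054) (L 3026)))) (B 5879 (C 251 (A 2553 (L 0) (L 0)) (A
    2553 (B 10998 (L 0) (L 3014)) (B 10998 (L 0) (L 0)))) (C 251 (A 2553 (L 0) (L 0)) (A 2553 (B
    12278 (L 3016) (L 3018)) (B 12278 (L 0) (L 0)))))) (A 1274 (B 5879 (A 2297 (L 3094) (L 3066))
    (A 2297 (L 3099) (L 3070))) (B 5879 (C 507 (A 2553 (L 3064) (L 3036)) (L 3070)) (C 507 (A 2553
    (L 3070) (L 3042)) (L 3077))))) (C 252 (A 1274 (C 251 (B 7159 (A 2297 (C 250 (B 13558 (L 0) (L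
    0)) (L 3026)) (B 13558 (L 0) (L 0))) (A 2297 (C 250 (B 14838 (L 0) (L 0)) (B 14838 (L 0) (L
    0))) (B 14838 (L 0) (L 0)))) (B 7159 (A 2297 (L 3059) (B 13558 (L 3049) (L 3052))) (A 2297 (L
    3065) (B 14838 (L 3055) (L 3058))))) (B 7159 (C 251 (B 13558 (L 0) (L 0)) (A 2553 (C 506 (B
    13558 (L 0) (L 0)) (L 3059)) (B 13558 (L 0) (L 0)))) (C 251 (B 14838 (L 0) (L 0)) (A 2553 (C
    506 (B 14838 (L 0) (L 0)) (L 3067)) (B 14838 (L 0) (L 0)))))) (A 1274 (C 507 (B 7159 (L 3082)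
    (A 2297 (L 3142) (L 3113))) (B 7159 (L 3142) (L 3151))) (C 507 (B 7159 (A 2553 (L 3077) (B
    13558 (L 3067) (L 3070))) (A 2553 (L 3085) (B 14838 (L 3074) (L 3078)))) (B 7159 (A 2553 (L
    3137) (L 3109)) (A 2553 (L 3146) (L 3118))))))) (B 3320 (A 1274 (C 508 (B 5879 (L 3143) (L
    3150)) (L 3184)) (C 508 (B 5879 (L 3086) (A 2553 (L 3145) (L 3116))) (B 5879 (L 3159) (L
    3168)))) (C 508 (A 1274 (B 7159 (L 3157) (L 3165)) (B 7159 (A 2553 (L 3152) (L 3124)) (C 763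
    (L 3145) (L 3188)))) (A 1274 (B 7159 (L 3235) (L 3246)) (B 7159 (L 3178) (L 3188))))))
    _ _ _ _ _ _ (by decide +kernel)

theorem ck2_218 : Ok P2 508 254 2042 4601 0 253 :=
  sound2
    (C 252 (B 8440 (C 251 (A 1019 (B 16119 (L 0) (A 1786 (L 0) (L 0))) (A 2042 (L 0) (L 0))) (A
    1019 (B 16119 (C 506 (L 0) (A 1786 (L 0) (L 0))) (C 506 (L 0) (A 1786 (L 0) (L 0)))) (B 16119
    (L 0) (L 0)))) (C 251 (A 1019 (B 17399 (A 1786 (L 0) (L 0)) (A 1786 (L 0) (L 0))) (A 2042 (L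
    0) (L 0))) (A 1019 (B 17399 (C 506 (L 0) (A 1786 (L 0) (L 0))) (C 506 (L 0) (A 1786 (L 0) (L
    0)))) (B 17399 (L 0) (A 2042 (L 0) (L 0)))))) (B 8440 (A 1019 (C 507 (B 16119 (A 1786 (C 762
    (L 0) (A 3321 (L 0) (L 0))) (A 3577 (L 0) (L 0))) (A 1786 (C 762 (L 0) (A 3321 (L 0) (L 0)))
    (B 32758 (L 0) (L 0)))) (B 16119 (A 1786 (C 1018 (A 3321 (L 0) (L 0)) (B 31478 (L 0) (L 0)))
    (B 31478 (L 0) (L 0))) (A 1786 (C 1018 (A 3321 (L 0) (L 0)) (B 32758 (L 0) (L 0))) (C 1018 (L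
    0) (L 0))))) (C 507 (B 16119 (A 2042 (L 0) (L 0)) (A 2042 (L 0) (L 0))) (B 16119 (B 31478 (L
    0) (L 0)) (C 1018 (L 0) (A 2042 (L 0) (L 0)))))) (C 507 (A 1019 (B 17399 (C 762 (A 1786 (L 0)
    (L 0)) (A 1786 (A 3321 (L 0) (L 0)) (L 0))) (C 762 (B 35318 (A 1786 (L 0) (L 0)) (A 1786 (L 0)
    (L 0))) (A 1786 (A 3321 (L 0) (L 0)) (L 0)))) (B 17399 (A 2042 (L 0) (L 0)) (C 762 (L 0) (L
    0)))) (A 1019 (B 17399 (A 1786 (C 1018 (B 34038 (L 0) (L 0)) (B 34038 (L 0) (L 0))) (C 1018 (L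
    0) (A 3577 (L 0) (L 0)))) (A 1786 (C 1018 (B 35318 (L 0) (L 0)) (B 35318 (L 0) (A 3321 (L 0)
    (L 0)))) (C 1018 (A 3577 (L 0) (L 0)) (A 3577 (L 0) (L 0))))) (B 17399 (C 1018 (L 0) (A 2042
    (L 0) (L 0))) (C 1018 (A 2042 (L 0) (L 0)) (A 2042 (L 0) (L 0))))))))
    _ _ _ _ _ _ (by decide +kernel)

theorem ck2_208 : Ok P2 508 254 3321 7160 254 509 :=
  sound2
    (A 1019 (C 764 (B 13559 (A 1786 (C 1275 (B 26358 (C 2298 (L 0) (L 0)) (C 2298 (L 0) (A 3321 (L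
    0) (L 0)))) (B 26358 (C 2554 (L 0) (L 0)) (C 2554 (A 3321 (L 0) (L 0)) (A 3321 (L 0) (L 0)))))
    (C 1275 (B 26358 (L 0) (L 0)) (B 26358 (L 0) (L 0)))) (A 1786 (C 1275 (B 27638 (C 2298 (A 3321
    (L 0) (L 0)) (A 3321 (L 0) (L 0))) (C 2298 (A 3321 (L 0) (L 0)) (A 3321 (L 0) (L 0)))) (B
    27638 (C 2554 (A 3321 (L 0) (L 0)) (A 3321 (L 0) (L 0))) (C 2554 (A 3321 (L 0) (L 0)) (A 3321
    (L 0) (L 0))))) (C 1275 (B 27638 (L 0) (A 3577 (L 0) (L 0))) (B 27638 (L 0) (A 3577 (L 0) (L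
    0)))))) (B 13559 (A 1786 (C 1531 (B 26358 (A 3321 (L 0) (L 0)) (C 2810 (L 0) (L 0))) (B 26358
    (A 3321 (L 0) (L 0)) (A 3321 (L 0) (L 0)))) (C 1531 (B 26358 (L 0) (L 0)) (B 26358 (L 0) (L
    0)))) (A 1786 (C 1531 (B 27638 (C 2810 (A 3321 (L 0) (L 0)) (A 3321 (L 0) (L 0))) (C 2810 (A
    3321 (L 0) (L 0)) (A 3321 (L 0) (L 0)))) (B 27638 (C 3066 (A 3321 (L 0) (L 0)) (L 0)) (C 3066
    (A 3321 (L 0) (L 0)) (A 3321 (L 0) (L 0))))) (C 1531 (B 27638 (L 0) (A 3577 (L 0) (L 0))) (B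
    27638 (L 0) (L 0)))))) (C 764 (B 13559 (C 1275 (A 2042 (A 3833 (L 0) (L 0)) (L 0)) (A 2042 (A
    3833 (L 0) (L 0)) (L 0))) (C 1275 (A 2042 (A 3833 (L 0) (L 0)) (L 0)) (A 2042 (A 3833 (L 0) (L
    0)) (L 0)))) (B 13559 (A 2042 (C 1531 (L 0) (L 0)) (C 1531 (L 0) (L 0))) (A 2042 (C 1531 (A
    3833 (L 0) (L 0)) (A 3833 (L 0) (L 0))) (C 1531 (L 0) (L 0))))))
    _ _ _ _ _ _ (by decide +kernel)

theorem ck2_237 : Ok P2 253 508 8440 4601 508 254 :=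
  sound2
    (B 17399 (A 763 (C 1019 (A 1274 (C 1786 (A 2297 (L 3630) (A 4600 (L 3631) (L 3615))) (A 2297
    (L 3655) (A 4600 (L 3656) (L 3640)))) (C 1786 (A 2553 (B 34038 (L 3589) (L 3600)) (B 34038 (A
    5112 (L 3589) (L 3574)) (A 5112 (L 3600) (L 3585)))) (A 2553 (B 34038 (L 3614) (L 3625)) (B
    34038 (A 5112 (L 3614) (L 3599)) (A 5112 (L 3626) (L 3610)))))) (C 2042 (B 34038 (A 1274 (A
    2297 (L 3700) (L 3669)) (A 2553 (L 3637) (A 5112 (L 3638) (L 3622)))) (L 1)) (L 1))) (C 1019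
    (A 1530 (C 1786 (B 34038 (A 2809 (C 3321 (A 5368 (L 3579) (L 3564)) (A 5368 (L 3592) (L
    3576))) (C 3321 (A 5624 (L 3548) (L 0)) (A 5624 (L 3560) (L 0)))) (A 2809 (C 3321 (A 5368 (L
    3591) (L 3575)) (A 5368 (L 3603) (L 3587))) (C 3321 (A 5624 (L 3559) (L 0)) (A 5624 (L 3571)
    (L 0))))) (B 34038 (A 2809 (C 3577 (L 3572) (L 3583)) (C 3577 (A 5624 (L 3572) (L 0)) (A 5624
    (L 3584) (L 0)))) (C 3577 (A 2809 (A 5368 (L 3616) (L 3600)) (A 5624 (L 3584) (L 0))) (L 1))))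
    (C 1786 (B 34038 (A 3065 (C 3321 (A 5880 (L 0) (L 0)) (A 5880 (L 0) (L 0))) (A 6136 (L 0) (L
    0))) (A 3065 (C 3321 (A 5880 (L 0) (L 0)) (A 5880 (L 0) (L 0))) (A 6136 (L 0) (L 0)))) (B
    34038 (A 3065 (C 3577 (A 5880 (L 0) (L 0)) (A 5880 (L 0) (L 0))) (A 6136 (L 0) (L 0))) (C 3577
    (A 3065 (A 5880 (L 0) (L 0)) (L 0)) (L 1))))) (C 2042 (B 34038 (A 1530 (A 2809 (C 3833 (L
    3595) (L 3606)) (B 67317 (A 5624 (L 3585) (L 0)) (A 5624 (L 3591) (L 0)))) (A 3065 (B 67317 (A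
    5880 (L 0) (L 0)) (A 5880 (L 0) (L 0))) (A 6136 (L 0) (L 0)))) (L 1)) (L 1)))) (L 1))
    _ _ _ _ _ _ (by decide +kernel)

theorem ck1_72 : Ok P1 253 508 254 764 255 510 :=
  sound1
    (B 1275 (A 763 (C 765 (A 1274 (A 2297 (C 1276 (L 5852) (L 5450)) (C 1276 (L 5807) (L 5411)))
    (B 2298 (C 1276 (L 0) (L 0)) (C 1276 (L 0) (L 0)))) (A 1274 (B 2298 (C 1532 (A 2297 (L 0) (L
    0)) (A 2297 (L 4558) (L 0))) (C 1532 (A 2297 (L 4782) (L 0)) (A 2297 (L 4410) (C 3067 (L 0) (L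
    0))))) (C 1532 (B 2298 (L 0) (L 0)) (B 2298 (L 0) (A 2553 (L 0) (L 0)))))) (C 765 (A 1530 (C
    1276 (L 0) (L 0)) (L 0)) (B 2298 (C 1532 (L 0) (L 0)) (C 1532 (A 1530 (L 0) (L 0)) (A 1530 (L
    0) (L 0)))))) (A 763 (C 765 (A 1274 (A 2297 (C 1276 (L 5581) (L 5172)) (C 1276 (L 5538) (B
    2554 (L 0) (L 4862)))) (B 2554 (C 1276 (L 0) (A 2553 (L 0) (L 0))) (C 1276 (L 0) (A 2553 (L 0)
    (L 0))))) (A 1274 (A 2297 (C 1532 (B 2554 (L 4642) (L 4508)) (B 2554 (C 3067 (L 4268) (L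
    4084)) (C 3067 (L 4130) (L 3945)))) (C 1532 (B 2554 (L 4610) (L 4476)) (B 2554 (C 3067 (L 0)
    (L 0)) (C 3067 (L 4102) (L 3918))))) (C 1532 (B 2554 (A 2553 (L 0) (L 0)) (A 2553 (C 2811 (L
    0) (L 0)) (L 0))) (B 2554 (C 3067 (L 0) (L 0)) (A 2553 (C 3067 (L 0) (L 0)) (C 3067 (L 0) (L
    0))))))) (C 765 (A 1530 (B 2554 (C 1276 (L 0) (L 0)) (C 1276 (L 0) (L 0))) (C 1276 (L 0) (L
    0))) (C 1532 (A 1530 (B 2554 (L 0) (L 0)) (B 2554 (L 0) (L 0))) (B 2554 (A 1530 (L 0) (L 0))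
    (A 1530 (A 2809 (L 0) (L 0)) (L 0)))))))
    _ _ _ _ _ _ (by decide +kernel)

theorem ck2_230 : Ok P2 763 508 2042 8440 763 508 :=
  sound2
    (B 16119 (A 1530 (C 1530 (B 31478 (A 2809 (A 5368 (L 3464) (L 3448)) (C 2809 (A 5624 (L 0) (L
    0)) (A 5624 (L 0) (L 0)))) (A 2809 (C 2809 (L 3462) (L 3476)) (C 2809 (A 5624 (L 0) (L 0)) (A
    5624 (L 0) (L 0))))) (B 31478 (A 2809 (A 5368 (L 3491) (L 3475)) (A 5624 (A 10999 (L 3476) (L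
    3468)) (A 11255 (L 3460) (L 0)))) (A 2809 (A 5368 (L 3501) (L 3485)) (C 3065 (A 5624 (L 0) (L
    0)) (A 5624 (L 0) (L 0)))))) (C 1530 (B 31478 (A 3065 (A 5880 (L 0) (L 0)) (L 0)) (A 3065 (A
    5880 (L 0) (L 0)) (L 0))) (B 31478 (A 3065 (B 62197 (L 0) (L 0)) (L 0)) (A 3065 (B 63477 (L 0)
    (L 0)) (L 0))))) (A 1530 (C 1530 (B 32758 (A 2809 (C 2809 (A 5368 (L 3504) (L 3489)) (L 3486))
    (C 2809 (A 5624 (L 0) (L 0)) (A 5624 (L 0) (L 0)))) (A 2809 (C 2809 (A 5368 (L 3514) (L 3499))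
    (A 5368 (L 3529) (L 3513))) (C 2809 (A 5624 (L 0) (L 0)) (A 5624 (L 0) (L 0))))) (B 32758 (A
    2809 (C 3065 (L 3500) (L 3513)) (C 3065 (A 5624 (L 0) (L 0)) (A 5624 (L 0) (L 0)))) (A 2809 (C
    3065 (A 5368 (L 3542) (L 3527)) (L 3523)) (C 3065 (A 5624 (L 0) (L 0)) (A 5624 (L 0) (L
    0)))))) (C 1530 (B 32758 (A 3065 (B 64757 (L 0) (L 0)) (L 0)) (A 3065 (B 66037 (L 0) (L 0)) (A
    6136 (L 0) (L 0)))) (B 32758 (A 3065 (B 64757 (L 0) (L 0)) (A 6136 (L 0) (L 0))) (A 3065 (B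
    66037 (L 0) (L 0)) (A 6136 (L 0) (L 0)))))))
    _ _ _ _ _ _ (by decide +kernel)

theorem ck2_186 : Ok P2 763 508 3321 7160 508 254 :=
  sound2
    (B 13559 (A 1530 (C 1019 (A 2809 (C 1786 (A 5368 (L 3419) (L 3404)) (L 3410)) (C 1786 (B 26358
    (L 3377) (L 3386)) (B 26358 (L 3399) (L 3408)))) (A 2809 (C 2042 (L 3430) (L 3450)) (C 2042 (B
    26358 (L 3419) (L 3428)) (B 26358 (L 3438) (L 3448))))) (C 1019 (B 26358 (A 3065 (C 1786 (A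
    5880 (L 0) (L 0)) (A 5880 (L 0) (L 0))) (C 1786 (L 0) (L 0))) (A 3065 (C 1786 (A 5880 (L 0) (L
    0)) (A 5880 (L 0) (L 0))) (C 1786 (L 0) (L 0)))) (B 26358 (A 3065 (C 2042 (L 3388) (L 3407))
    (C 2042 (L 0) (L 0))) (A 3065 (C 2042 (A 5880 (L 0) (L 0)) (L 3417)) (C 2042 (L 0) (L 0))))))
    (A 1530 (C 1019 (B 27638 (A 2809 (C 1786 (L 3426) (L 3448)) (C 1786 (L 3395) (L 3417))) (A
    2809 (C 1786 (L 3436) (L 3458)) (C 1786 (A 5624 (L 3436) (L 3421)) (L 3427)))) (B 27638 (A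
    2809 (A 5368 (L 3467) (L 3451)) (C 2042 (L 3438) (L 3458))) (A 2809 (A 5368 (L 3476) (L 3461))
    (C 2042 (L 3448) (L 3468))))) (C 1019 (B 27638 (A 3065 (C 1786 (A 5880 (L 0) (L 0)) (A 5880 (L
    0) (L 0))) (C 1786 (L 0) (L 0))) (C 1786 (A 3065 (A 5880 (L 0) (L 0)) (L 0)) (A 3065 (A 5880
    (L 0) (L 0)) (L 0)))) (B 27638 (A 3065 (C 2042 (A 5880 (L 0) (L 0)) (A 5880 (L 0) (L 0))) (C
    2042 (L 0) (L 0))) (A 3065 (C 2042 (A 5880 (L 0) (L 0)) (A 5880 (L 0) (L 0))) (C 2042 (L 0) (L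
    0)))))))
    _ _ _ _ _ _ (by decide +kernel)

theorem ck2_205 : Ok P2 763 508 7160 2042 509 255 :=
  sound2
    (C 1020 (B 14839 (A 1530 (C 1787 (B 28918 (A 2809 (A 5368 (L 3654) (L 3638)) (C 3322 (L 3622)
    (L 3635))) (A 2809 (A 5368 (L 3666) (L 3650)) (C 3322 (L 3634) (L 3647)))) (B 28918 (A 2809 (A
    5368 (L 3680) (L 3664)) (C 3578 (L 3647) (L 3659))) (A 2809 (A 5368 (L 3693) (L 3677)) (C 3578
    (A 5624 (L 3693) (L 3677)) (A 5624 (L 3706) (L 0)))))) (C 1787 (B 28918 (A 3065 (C 3322 (A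
    5880 (L 0) (L 0)) (A 5880 (L 0) (L 0))) (C 3322 (L 0) (L 0))) (A 3065 (C 3322 (A 5880 (L 0) (L
    0)) (A 5880 (L 0) (L 0))) (C 3322 (L 0) (L 0)))) (B 28918 (A 3065 (C 3578 (A 5880 (L 0) (L 0))
    (A 5880 (L 0) (L 0))) (C 3578 (L 0) (L 0))) (A 3065 (C 3578 (A 5880 (L 0) (L 0)) (A 5880 (L 0)
    (L 0))) (C 3578 (L 0) (L 0)))))) (C 1787 (B 30198 (A 1530 (A 2809 (C 3322 (L 3679) (L 3692))
    (C 3322 (A 5624 (L 3680) (L 3664)) (A 5624 (L 3693) (L 3677)))) (A 3065 (C 3322 (A 5880 (L 0)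
    (L 0)) (A 5880 (L 0) (L 0))) (C 3322 (L 0) (L 0)))) (L 1)) (L 1))) (B 14839 (C 2043 (B 28918
    (A 1530 (A 2809 (A 5368 (L 3705) (L 3689)) (C 3834 (L 3671) (L 3683))) (A 3065 (C 3834 (A 5880
    (L 0) (L 0)) (A 5880 (L 0) (L 0))) (C 3834 (L 0) (L 0)))) (L 1)) (L 1)) (L 1)))
    _ _ _ _ _ _ (by decide +kernel)

theorem ck2_192 : Ok P2 508 254 3321 2042 0 253 :=
  sound2
    (C 252 (B 7160 (A 1019 (C 251 (B 13559 (L 0) (L 0)) (B 13559 (A 1786 (L 0) (L 0)) (A 1786 (L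
    0) (L 0)))) (C 251 (L 0) (A 2042 (L 0) (L 0)))) (C 251 (A 1019 (B 14839 (L 0) (L 0)) (L 0)) (A
    1019 (B 14839 (C 506 (L 0) (L 0)) (C 506 (L 0) (A 1786 (L 0) (L 0)))) (B 14839 (L 0) (L 0)))))
    (B 7160 (A 1019 (C 507 (B 13559 (A 1786 (A 3321 (L 0) (L 0)) (L 0)) (A 1786 (B 27638 (L 0) (L
    0)) (L 0))) (B 13559 (A 1786 (B 26358 (L 0) (A 3321 (L 0) (L 0))) (A 3577 (L 0) (L 0))) (A
    1786 (C 1018 (A 3321 (L 0) (L 0)) (A 3321 (L 0) (L 0))) (A 3577 (L 0) (L 0))))) (C 507 (B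
    13559 (L 0) (L 0)) (B 13559 (A 2042 (L 0) (L 0)) (A 2042 (L 0) (L 0))))) (A 1019 (C 507 (B
    14839 (A 1786 (B 28918 (L 0) (L 0)) (L 0)) (A 1786 (C 762 (L 0) (L 0)) (A 3577 (L 0) (L 0))))
    (B 14839 (A 1786 (C 1018 (A 3321 (L 0) (L 0)) (A 3321 (L 0) (L 0))) (A 3577 (L 0) (L 0))) (A
    1786 (C 1018 (A 3321 (L 0) (L 0)) (A 3321 (L 0) (L 0))) (B 30198 (L 0) (L 0))))) (C 507 (B
    14839 (L 0) (A 2042 (L 0) (L 0))) (B 14839 (A 2042 (L 0) (L 0)) (A 2042 (L 0) (L 0)))))))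
    _ _ _ _ _ _ (by decide +kernel)

theorem ck2_150 : Ok P2 252 253 1019 764 254 255 :=
  sound2
    (B 2298 (C 509 (A 507 (B 4089 (C 764 (A 762 (L 3681) (B 7672 (L 3661) (L 3684))) (A 762 (L
    3751) (B 7672 (L 3732) (L 3758)))) (C 764 (B 8440 (C 1275 (A 762 (L 3833) (L 3773)) (A 762 (L
    3871) (L 3812))) (L 1)) (L 1))) (B 4089 (C 764 (A 1018 (C 1275 (A 1785 (L 3676) (L 3645)) (A
    1785 (L 3713) (L 3682))) (C 1275 (B 7672 (A 2041 (L 3660) (L 3629)) (A 2041 (L 3685) (L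
    3655))) (B 7672 (A 2041 (L 3697) (L 3666)) (A 2041 (L 3724) (L 3693))))) (A 1018 (B 7672 (A
    1785 (L 3731) (L 3700)) (C 1531 (L 3758) (L 3791))) (B 7672 (C 1531 (A 2041 (L 3731) (L 3700))
    (A 2041 (L 3762) (L 3731))) (C 1531 (A 2041 (L 3759) (L 3728)) (A 2041 (L 3791) (L 3760))))))
    (C 764 (B 8440 (A 1018 (C 1275 (L 3712) (L 3751)) (C 1275 (A 2041 (L 3712) (L 3681)) (A 2041
    (L 3751) (L 3720)))) (L 1)) (L 1)))) (B 4089 (C 1020 (B 7672 (A 507 (A 762 (L 3853) (L 3793))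
    (A 1018 (A 1785 (L 3793) (L 3762)) (C 1787 (A 2041 (L 3791) (L 3760)) (A 2041 (L 3818) (L
    3788))))) (L 1)) (L 1)) (L 1))) (L 1))
    _ _ _ _ _ _ (by decide +kernel)

theorem ck1_58 : Ok P1 1018 253 509 1020 255 510 :=
  sound1
    (C 765 (B 1787 (A 2041 (C 1276 (L 4942) (L 4496)) (C 1276 (L 4911) (B 3322 (L 4321) (L
    4205)))) (C 1276 (A 2041 (L 4724) (B 3578 (L 4535) (L 4427))) (A 2041 (B 3578 (L 4116) (L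
    4001)) (B 3578 (L 4091) (L 3976))))) (B 1787 (C 1532 (A 2041 (B 3322 (L 3931) (L 3809)) (B
    3322 (L 3906) (C 2811 (L 3785) (L 3581)))) (A 2041 (B 3322 (A 3832 (L 3464) (L 3455)) (A 3832
    (L 3340) (L 3331))) (B 3322 (C 3067 (L 3505) (L 3309)) (C 3067 (L 3379) (A 4088 (L 3126) (L
    3117)))))) (C 1532 (A 2041 (B 3578 (A 3832 (L 3622) (L 3612)) (A 3832 (L 3503) (L 3494))) (B
    3578 (C 2811 (L 3665) (L 3458)) (C 2811 (L 3545) (L 3335)))) (A 2041 (B 3578 (C 3067 (L 3274)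
    (A 3832 (L 3016) (L 3008))) (C 3067 (A 3832 (L 3091) (L 3083)) (A 3832 (L 2889) (L 2882)))) (B
    3578 (C 3067 (A 4088 (L 3198) (L 3189)) (A 4088 (L 3000) (L 2991))) (C 3067 (A 4088 (L 3074)
    (L 3066)) (A 4088 (L 2874) (L 2866))))))))
    _ _ _ _ _ _ (by decide +kernel)

theorem ck1_114 : Ok P1 763 508 1020 255 510 1021 :=
  sound1
    (C 1788 (B 2043 (B 3834 (C 3323 (A 1530 (B 7417 (C 6394 (A 2809 (A 5368 (L 0) (L 0)) (L 0)) (A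
    2809 (B 14584 (L 0) (A 5368 (L 0) (L 0))) (A 5624 (L 0) (L 0)))) (C 6394 (A 2809 (B 14840 (L
    0) (L 0)) (A 5624 (L 0) (L 0))) (B 14840 (A 2809 (A 5368 (L 0) (L 0)) (L 0)) (L 2)))) (B 7417
    (C 6394 (A 3065 (L 0) (L 0)) (A 3065 (L 0) (L 0))) (C 6394 (A 3065 (L 0) (L 0)) (B 14840 (A
    3065 (L 0) (L 0)) (L 2))))) (B 7417 (C 6650 (B 14584 (A 1530 (A 2809 (A 5368 (L 0) (L 0)) (L
    0)) (A 3065 (L 0) (L 0))) (L 2)) (L 2)) (L 2))) (C 3323 (B 7673 (C 6394 (A 1530 (A 2809 (B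
    15096 (L 0) (L 0)) (A 5624 (L 0) (L 0))) (A 3065 (L 0) (L 0))) (L 2)) (L 2)) (L 2))) (L 2)) (L
    2))
    _ _ _ _ _ _ (by decide +kernel)

theorem ck1_22 : Ok P1 252 253 252 253 0 383 :=
  sound1
    (C 255 (A 507 (C 254 (A 762 (L 15641) (B 507 (L 14465) (L 13535))) (A 762 (L 12431) (B 507 (L
    11726) (L 10741)))) (B 507 (A 1018 (C 254 (L 0) (L 0)) (L 0)) (A 1018 (A 1785 (C 254 (L 0) (L
    10250)) (C 254 (L 0) (L 0))) (C 254 (L 0) (L 0))))) (A 507 (C 510 (A 762 (B 507 (L 9715) (L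
    8748)) (B 507 (L 0) (C 765 (L 8642) (L 7773)))) (C 1021 (A 762 (B 507 (L 1) (L 7032)) (L 0))
    (L 0))) (C 510 (B 507 (L 0) (A 1018 (B 1018 (L 0) (L 0)) (L 0))) (B 507 (L 0) (L 0)))))
    _ _ _ _ _ _ (by decide +kernel)

theorem ck2_261 : Ok P2 254 255 506 507 0 255 :=
  sound2
    (A 509 (C 254 (A 764 (B 1273 (C 253 (L 0) (B 2040 (L 0) (L 0))) (C 253 (A 1275 (L 0) (L 0)) (B
    2808 (L 0) (A 1275 (L 0) (L 0))))) (B 1273 (L 0) (L 0))) (A 764 (B 1273 (C 509 (B 2040 (L 0)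
    (L 0)) (L 0)) (C 509 (B 2808 (L 0) (L 0)) (B 2808 (L 0) (L 0)))) (B 1273 (L 0) (L 0)))) (C 254
    (L 0) (L 0)))
    _ _ _ _ _ _ (by decide +kernel)

end Vale.Agent.P322
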