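import Vale.Agent.P322.CKChk

/-!
Verified boxes, part 9.
-/

namespace Vale.Agent.P322

open Tr

theorem ck1_8 : Ok P1 250 251 0 255 0 383 :=
  sound1
    (B 247 (L 1) (B 251 (C 255 (L 29578) (B 249 (L 1) (L 14639))) (B 253 (C 255 (L 22505) (A 505
    (L 10985) (B 252 (L 10525) (L 9350)))) (C 255 (B 254 (C 254 (L 19343) (L 12489)) (C 254 (C 253
    (L 20774) (B 509 (L 13493) (L 12644))) (B 509 (B 764 (L 9946) (L 9367)) (A 505 (L 8730) (B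
    1020 (L 7948) (L 7567)))))) (B 254 (C 510 (B 508 (L 8727) (L 7798)) (A 505 (B 508 (L 6265) (A
    760 (L 5147) (L 5164))) (B 508 (L 6269) (C 1021 (L 5433) (B 1019 (L 4558) (L 4206)))))) (C 510
    (B 509 (A 505 (B 764 (L 6382) (L 5876)) (B 764 (L 6379) (C 765 (L 5859) (L 4988)))) (A 505 (C
    765 (B 1020 (L 5423) (L 4994)) (B 1020 (A 760 (L 4279) (L 4285)) (A 760 (A 1271 (L 3712) (L
    3720)) (A 1527 (L 3729) (B 2043 (L 3517) (L 3282)))))) (C 765 (B 1020 (L 5398) (L 4966)) (B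
    1020 (A 1016 (L 4293) (L 4303)) (C 1532 (A 1016 (L 3833) (L 3840)) (A 1016 (B 2043 (L 3182) (L
    2920)) (B 2043 (L 3179) (L 2918)))))))) (B 509 (A 505 (C 1021 (B 764 (L 4819) (A 760 (L 4020)
    (L 4019))) (B 764 (A 760 (B 1275 (L 3735) (L 3440)) (B 1275 (L 3723) (C 2044 (L 3426) (L
    3085)))) (C 2044 (A 760 (B 1531 (L 3150) (L 2860)) (B 1531 (L 3136) (L 2846))) (A 760 (B 1531
    (A 1271 (L 2723) (L 2719)) (C 4091 (L 2492) (B 3066 (L 2231) (L 2)))) (B 1531 (A 1527 (L 2716)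
    (L 2713)) (C 4091 (L 2477) (B 3066 (L 2212) (L 2)))))))) (C 1021 (B 764 (L 4779) (A 1016 (L
    4023) (B 1531 (L 3827) (L 3562)))) (B 764 (C 2044 (B 1275 (L 3877) (L 3563)) (B 1275 (A 1016
    (L 3383) (L 3374)) (A 1016 (L 3073) (L 3063)))) (C 2044 (B 1531 (A 1016 (L 3126) (L 3118)) (A
    1016 (L 2836) (L 2829))) (B 1531 (A 1016 (A 1783 (L 2711) (B 2810 (L 2629) (L 2481))) (C 4091
    (L 2759) (B 2810 (L 2495) (L 2341)))) (A 1016 (C 4091 (B 3066 (L 2386) (L 2233)) (B 3066 (A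
    1783 (L 2154) (L 2150)) (L 2))) (C 4091 (B 3066 (L 2375) (L 2223)) (B 3066 (A 2039 (L 2147) (L
    2143)) (L 2))))))))) (C 1021 (A 505 (B 1020 (A 760 (C 1788 (L 3504) (A 1271 (L 3036) (B 1787
    (L 2864) (L 2590)))) (C 1788 (L 3502) (B 1787 (L 2933) (A 1527 (L 2590) (L 2589))))) (C 1788
    (B 2043 (A 760 (L 2782) (L 2773)) (L 2)) (L 2))) (B 1020 (C 1788 (A 1016 (L 3503) (L 3505)) (B
    1787 (A 1016 (L 2925) (L 2919)) (A 1016 (A 1783 (L 2589) (L 2589)) (A 2039 (L 2589) (L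
    2589))))) (C 1788 (B 2043 (A 1016 (L 2768) (A 2039 (L 2711) (L 2712))) (L 2)) (L 2)))) (B 1020
    (C 2044 (B 1787 (A 505 (A 760 (A 1271 (L 2499) (L 2497)) (A 1527 (L 2495) (L 2494))) (A 1016
    (A 1783 (B 3322 (L 2411) (L 2266)) (B 3322 (L 2408) (L 2264))) (C 3835 (L 2538) (B 3322 (L
    2262) (L 2))))) (L 2)) (L 2)) (L 2))))))))))
    _ _ _ _ _ _ (by decide +kernel)

theorem ck2_171 : Ok P2 508 254 762 763 255 510 :=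
  sound2
    (B 2041 (A 1019 (B 3320 (C 765 (A 1786 (B 5879 (C 1276 (L 0) (L 0)) (C 1276 (B 12278 (L 0) (L
    0)) (L 0))) (B 5879 (L 0) (C 1276 (L 0) (L 0)))) (A 1786 (B 5879 (C 1532 (L 0) (L 0)) (C 1532
    (L 0) (L 0))) (B 5879 (L 0) (L 0)))) (C 765 (A 1786 (B 7159 (C 1276 (B 13558 (L 0) (L 0)) (B
    13558 (L 0) (L 0))) (C 1276 (A 3321 (L 0) (L 0)) (A 3321 (L 0) (L 0)))) (B 7159 (C 1276 (L 0)
    (L 0)) (C 1276 (L 0) (L 0)))) (A 1786 (B 7159 (C 1532 (L 0) (L 0)) (C 1532 (A 3321 (L 0) (L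
    0)) (L 0))) (B 7159 (C 1532 (L 0) (L 0)) (C 1532 (L 0) (L 0)))))) (B 3320 (C 765 (B 5879 (L 0)
    (A 2042 (L 0) (L 0))) (B 5879 (L 0) (L 0))) (C 765 (B 7159 (A 2042 (L 0) (L 0)) (A 2042 (L 0)
    (L 0))) (B 7159 (L 0) (A 2042 (L 0) (L 0)))))) (C 765 (B 4600 (A 1019 (A 1786 (B 8439 (C 1276
    (B 16118 (L 0) (L 0)) (A 3321 (L 0) (L 0))) (C 1276 (B 17398 (A 3321 (L 0) (L 0)) (A 3321 (L
    0) (L 0))) (B 17398 (L 0) (L 0)))) (B 8439 (C 1276 (L 0) (L 0)) (C 1276 (A 3577 (L 0) (L 0))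
    (L 0)))) (B 8439 (C 1276 (L 0) (L 0)) (C 1276 (A 2042 (L 0) (L 0)) (A 2042 (L 0) (L 0))))) (A
    1019 (C 1276 (B 9719 (A 1786 (B 18678 (A 3321 (L 0) (L 0)) (A 3321 (L 0) (L 0))) (A 3577 (L 0)
    (L 0))) (A 1786 (C 2299 (A 3321 (L 0) (L 0)) (A 3321 (L 0) (L 0))) (A 3577 (L 0) (L 0)))) (B
    9719 (A 1786 (B 18678 (A 3321 (L 0) (L 0)) (A 3321 (L 0) (L 0))) (A 3577 (L 0) (L 0))) (A 1786
    (C 2555 (A 3321 (L 0) (L 0)) (A 3321 (L 0) (L 0))) (A 3577 (L 0) (L 0))))) (C 1276 (B 9719 (A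
    2042 (L 0) (L 0)) (A 2042 (L 0) (L 0))) (B 9719 (A 2042 (L 0) (L 0)) (A 2042 (L 0) (L 0))))))
    (B 4600 (A 1019 (C 1532 (B 8439 (A 1786 (A 3321 (L 0) (L 0)) (L 0)) (A 1786 (A 3321 (L 0) (L
    0)) (L 0))) (B 8439 (A 1786 (A 3321 (L 0) (L 0)) (L 0)) (A 1786 (A 3321 (L 0) (L 0)) (L 0))))
    (C 1532 (B 8439 (L 0) (L 0)) (B 8439 (L 0) (L 0)))) (A 1019 (C 1532 (B 9719 (A 1786 (C 2811 (L
    0) (L 0)) (L 0)) (A 1786 (C 2811 (A 3321 (L 0) (L 0)) (A 3321 (L 0) (L 0))) (A 3577 (L 0) (L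
    0)))) (B 9719 (A 1786 (B 18678 (L 0) (L 0)) (L 0)) (A 1786 (C 3067 (A 3321 (L 0) (L 0)) (L 0))
    (A 3577 (L 0) (L 0))))) (C 1532 (B 9719 (A 2042 (L 0) (L 0)) (A 2042 (L 0) (L 0))) (B 9719 (L
    0) (A 2042 (L 0) (L 0))))))))
    _ _ _ _ _ _ (by decide +kernel)

theorem ck1_128 : Ok P1 254 255 509 255 510 383 :=
  sound1
    (B 1020 (C 1021 (B 1787 (C 1788 (A 509 (A 764 (B 3322 (C 3323 (A 1275 (L 0) (L 0)) (A 1275 (L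
    0) (L 0))) (C 3323 (A 1275 (L 0) (L 0)) (A 1275 (L 0) (L 0)))) (B 3322 (L 0) (A 1531 (L 0) (L
    0)))) (B 3322 (L 0) (L 0))) (A 509 (A 764 (B 3322 (C 3579 (A 1275 (L 0) (L 0)) (A 1275 (A 2298
    (L 0) (L 0)) (L 0))) (C 3579 (A 1275 (A 2298 (L 0) (L 0)) (L 0)) (A 1275 (B 6649 (L 0) (A 2298
    (L 0) (L 0))) (A 2554 (L 0) (L 0))))) (B 3322 (C 3579 (L 0) (L 0)) (C 3579 (L 0) (A 1531 (L 0)
    (L 0))))) (B 3322 (A 1020 (L 0) (L 0)) (C 3579 (L 0) (L 0))))) (C 1788 (A 509 (A 764 (B 3578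
    (C 3323 (A 1275 (L 0) (L 0)) (A 1275 (A 2298 (L 0) (L 0)) (L 0))) (C 3323 (A 1275 (A 2298 (L
    0) (L 0)) (L 0)) (A 1275 (B 7161 (L 0) (A 2298 (L 0) (L 0))) (A 2554 (L 0) (L 0))))) (B 3578
    (C 3323 (L 0) (L 0)) (C 3323 (L 0) (A 1531 (L 0) (L 0))))) (B 3578 (A 1020 (L 0) (L 0)) (C
    3323 (L 0) (L 0)))) (A 509 (B 3578 (A 764 (C 3579 (A 1275 (B 6905 (L 0) (A 2298 (L 0) (L 0)))
    (A 2554 (L 0) (L 0))) (B 6905 (A 1275 (A 2298 (L 0) (L 0)) (L 0)) (L 2))) (C 3579 (A 1531 (L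
    0) (L 0)) (B 6905 (L 0) (L 2)))) (C 3579 (B 7161 (A 764 (A 1275 (A 2298 (L 0) (L 0)) (L 0)) (L
    0)) (L 2)) (L 2))) (B 3578 (C 3579 (L 0) (A 1020 (L 0) (L 0))) (C 3579 (B 7161 (L 0) (L 2)) (L
    2)))))) (B 1787 (C 2044 (A 509 (A 764 (B 3322 (C 3835 (A 1275 (B 6393 (L 0) (L 0)) (A 2554 (L
    0) (L 0))) (B 6393 (A 1275 (L 0) (L 0)) (L 2))) (C 3835 (B 6649 (A 1275 (A 2298 (L 0) (L 0))
    (L 0)) (L 2)) (L 2))) (B 3322 (C 3835 (A 1531 (L 0) (L 0)) (A 1531 (L 0) (L 0))) (C 3835 (B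
    6649 (L 0) (L 2)) (L 2)))) (B 3322 (C 3835 (L 0) (L 0)) (C 3835 (A 1020 (L 0) (L 0)) (L 2))))
    (L 2)) (L 2))) (C 1021 (B 2043 (C 1788 (A 509 (B 3834 (A 764 (C 3323 (A 1275 (B 7417 (L 0) (L
    0)) (A 2554 (L 0) (L 0))) (B 7417 (A 1275 (A 2298 (L 0) (L 0)) (L 0)) (L 2))) (C 3323 (A 1531
    (L 0) (L 0)) (B 7417 (L 0) (L 2)))) (C 3323 (B 7673 (A 764 (C 6394 (A 1275 (L 0) (L 0)) (L 2))
    (L 0)) (L 2)) (L 2))) (B 3834 (C 3323 (L 0) (A 1020 (L 0) (L 0))) (C 3323 (A 1020 (L 0) (L 0))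
    (L 2)))) (L 2)) (L 2)) (L 2)))
    _ _ _ _ _ _ (by decide +kernel)

theorem ck2_170 : Ok P2 253 508 2041 763 510 383 :=
  sound2
    (C 1021 (A 763 (B 4600 (A 1274 (C 1788 (L 3535) (B 8439 (L 3590) (L 3616))) (B 8439 (C 1788 (L
    3512) (L 3529)) (C 1788 (L 3537) (L 3555)))) (A 1274 (B 9719 (C 1788 (L 3623) (L 3643)) (C
    1788 (L 3650) (L 3671))) (B 9719 (C 1788 (A 2553 (L 3624) (L 3593)) (A 2553 (L 3644) (L
    3613))) (C 1788 (A 2553 (L 3651) (L 3619)) (A 2553 (L 3672) (L 3641)))))) (B 4600 (A 1530 (B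
    8439 (C 1788 (L 3451) (A 2809 (L 3529) (L 3499))) (C 1788 (A 2809 (L 3537) (L 3506)) (A 2809
    (L 3555) (L 3524)))) (C 1788 (B 8439 (A 3065 (L 3451) (L 0)) (A 3065 (L 3475) (L 0))) (B 8439
    (A 3065 (L 0) (L 0)) (B 17398 (L 0) (L 0))))) (C 1788 (A 1530 (B 9719 (A 2809 (L 3562) (B
    18678 (L 3552) (L 3565))) (A 2809 (B 19958 (L 3609) (L 3623)) (B 19958 (L 3578) (L 3591)))) (B
    9719 (A 3065 (B 18678 (L 0) (L 0)) (B 18678 (L 0) (L 0))) (C 3323 (B 19958 (L 0) (L 0)) (A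
    3065 (L 0) (L 0))))) (A 1530 (B 9719 (A 2809 (L 3582) (B 18678 (L 0) (L 3586))) (A 2809 (B
    19958 (L 3631) (L 3645)) (C 3579 (L 3615) (L 3624)))) (B 9719 (C 3579 (A 3065 (L 0) (L 0)) (L
    0)) (C 3579 (A 3065 (L 0) (L 0)) (A 3065 (L 0) (L 0)))))))) (A 763 (B 4600 (A 1274 (B 8439 (L
    3550) (C 2044 (L 3633) (L 3649))) (B 8439 (C 2044 (L 3544) (L 3559)) (C 2044 (L 3571) (A 2553
    (L 3650) (L 3619))))) (A 1274 (B 9719 (C 2044 (L 3662) (L 3679)) (C 2044 (A 2297 (L 3755) (L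
    3724)) (A 2297 (L 3774) (L 3743)))) (C 2044 (B 9719 (A 2553 (L 3663) (L 3631)) (A 2553 (L
    3692) (B 19958 (L 3683) (L 3699)))) (B 9719 (A 2553 (L 3680) (L 3649)) (A 2553 (L 3711) (B
    19958 (L 3703) (L 3720))))))) (B 4600 (A 1530 (C 2044 (B 8439 (A 2809 (L 3545) (L 0)) (A 2809
    (L 3572) (L 0))) (B 8439 (A 2809 (L 0) (L 0)) (A 2809 (L 0) (L 0)))) (C 2044 (B 8439 (L 0) (A
    3065 (L 0) (L 0))) (B 8439 (L 0) (L 0)))) (C 2044 (A 1530 (B 9719 (A 2809 (B 18678 (L 0) (L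
    3637)) (B 18678 (L 0) (L 0))) (C 3835 (A 2809 (L 3665) (L 0)) (A 2809 (L 0) (L 0)))) (B 9719
    (A 3065 (L 0) (L 0)) (B 19958 (L 0) (L 0)))) (A 1530 (B 9719 (C 4091 (A 2809 (L 0) (L 0)) (L
    0)) (C 4091 (A 2809 (L 0) (L 0)) (L 0))) (B 9719 (L 0) (A 3065 (L 0) (L 0))))))))
    _ _ _ _ _ _ (by decide +kernel)

theorem ck2_264 : Ok P2 254 255 253 1019 254 255 :=
  sound2
    (B 1530 (A 509 (C 509 (A 764 (B 2553 (A 1275 (B 4600 (C 764 (L 0) (L 0)) (C 764 (L 0) (L 0)))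
    (B 4600 (L 0) (L 0))) (A 1275 (B 5368 (C 764 (L 0) (L 0)) (C 764 (L 0) (L 0))) (B 5368 (L 0)
    (C 764 (L 0) (L 0))))) (B 2553 (A 1531 (L 0) (L 0)) (B 5368 (L 0) (L 0)))) (A 764 (B 2553 (A
    1275 (B 4600 (C 1020 (L 0) (L 0)) (C 1020 (L 0) (L 0))) (B 4600 (L 0) (L 0))) (A 1275 (C 1020
    (B 5368 (L 0) (L 0)) (B 5368 (L 0) (L 0))) (C 1020 (B 5368 (L 0) (L 0)) (B 5368 (L 0) (L
    0))))) (B 2553 (A 1531 (L 0) (L 0)) (C 1020 (L 0) (L 0))))) (C 509 (B 2553 (L 0) (L 0)) (B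
    2553 (L 0) (L 0)))) (C 509 (A 509 (B 3321 (A 764 (C 764 (A 1275 (B 6136 (A 2298 (L 0) (L 0))
    (A 2298 (L 0) (L 0))) (B 6136 (L 0) (L 0))) (A 1275 (B 6136 (A 2298 (L 0) (L 0)) (A 2298 (L 0)
    (L 0))) (B 6136 (L 0) (L 0)))) (C 764 (A 1531 (L 0) (L 0)) (A 1531 (L 0) (L 0)))) (A 764 (C
    764 (B 6904 (A 1275 (C 1275 (L 0) (L 0)) (L 0)) (A 1275 (C 1275 (A 2298 (L 0) (L 0)) (A 2298
    (L 0) (L 0))) (L 0))) (B 6904 (A 1275 (C 1531 (L 0) (L 0)) (L 0)) (A 1275 (C 1531 (A 2298 (L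
    0) (L 0)) (A 2298 (L 0) (L 0))) (L 0)))) (C 764 (B 6904 (L 0) (L 0)) (B 6904 (L 0) (L 0)))))
    (B 3321 (A 1020 (L 0) (L 0)) (C 764 (L 0) (L 0)))) (A 509 (B 3321 (A 764 (C 1020 (A 1275 (B
    6136 (A 2298 (L 0) (L 0)) (A 2298 (L 0) (L 0))) (B 6136 (L 0) (L 0))) (A 1275 (B 6136 (A 2298
    (L 0) (L 0)) (A 2298 (L 0) (L 0))) (B 6136 (L 0) (L 0)))) (C 1020 (A 1531 (L 0) (L 0)) (A 1531
    (L 0) (L 0)))) (A 764 (C 1020 (B 6904 (A 1275 (C 1787 (L 0) (L 0)) (L 0)) (A 1275 (C 1787 (A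
    2298 (L 0) (L 0)) (A 2298 (L 0) (L 0))) (A 2554 (L 0) (L 0)))) (A 1275 (B 6904 (C 2043 (L 0)
    (L 0)) (C 2043 (A 2298 (L 0) (L 0)) (A 2298 (L 0) (L 0)))) (B 6904 (L 0) (A 2554 (L 0) (L
    0))))) (C 1020 (B 6904 (L 0) (L 0)) (B 6904 (L 0) (L 0))))) (B 3321 (B 6136 (L 0) (L 0)) (C
    1020 (L 0) (L 0))))))
    _ _ _ _ _ _ (by decide +kernel)

theorem ck1_111 : Ok P1 763 508 509 1787 1788 1021 :=
  sound1
    (B 3322 (C 3579 (A 1530 (B 6393 (A 2809 (C 6906 (A 5368 (L 0) (L 0)) (A 5368 (L 0) (L 0))) (C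
    6906 (L 0) (L 0))) (A 2809 (C 6906 (A 5368 (L 0) (L 0)) (A 5368 (L 0) (L 0))) (C 6906 (L 0) (L
    0)))) (B 6393 (C 6906 (L 0) (A 3065 (L 0) (L 0))) (C 6906 (A 3065 (L 0) (L 0)) (A 3065 (L 0)
    (L 0))))) (A 1530 (B 6393 (A 2809 (C 7162 (A 5368 (L 0) (L 0)) (A 5368 (L 0) (L 0))) (C 7162
    (L 0) (L 0))) (C 7162 (A 2809 (B 12792 (L 0) (A 5368 (L 0) (L 0))) (A 5624 (L 0) (L 0))) (A
    2809 (B 12792 (A 5368 (L 0) (L 0)) (A 5368 (L 0) (L 0))) (A 5624 (L 0) (L 0))))) (B 6393 (C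
    7162 (A 3065 (L 0) (L 0)) (A 3065 (L 0) (L 0))) (C 7162 (A 3065 (L 0) (L 0)) (A 3065 (L 0) (L
    0)))))) (C 3579 (A 1530 (B 6649 (A 2809 (C 6906 (B 13048 (L 0) (L 0)) (B 13048 (L 0) (A 5368
    (L 0) (L 0)))) (C 6906 (A 5624 (L 0) (L 0)) (A 5624 (L 0) (L 0)))) (C 6906 (A 2809 (B 13304 (A
    5368 (L 0) (L 0)) (A 5368 (L 0) (L 0))) (A 5624 (L 0) (L 0))) (A 2809 (B 13304 (A 5368 (L 0)
    (L 0)) (A 5368 (L 0) (L 0))) (B 13304 (L 0) (L 0))))) (B 6649 (C 6906 (A 3065 (L 0) (L 0)) (A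
    3065 (L 0) (L 0))) (C 6906 (A 3065 (L 0) (L 0)) (A 3065 (A 5880 (L 0) (L 0)) (L 0))))) (A 1530
    (B 6649 (C 7162 (A 2809 (B 13048 (A 5368 (L 0) (L 0)) (A 5368 (L 0) (L 0))) (B 13048 (L 0) (L
    0))) (A 2809 (B 13048 (A 5368 (L 0) (L 0)) (C 14329 (L 0) (L 0))) (B 13048 (L 0) (A 5624 (L 0)
    (L 0))))) (C 7162 (A 2809 (B 13304 (A 5368 (L 0) (L 0)) (C 14073 (L 0) (A 5368 (L 0) (L 0))))
    (B 13304 (L 0) (A 5624 (L 0) (L 0)))) (B 13304 (A 2809 (C 14329 (L 0) (L 2)) (A 5624 (L 0) (L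
    0))) (L 2)))) (B 6649 (C 7162 (A 3065 (A 5880 (L 0) (L 0)) (L 0)) (A 3065 (A 5880 (L 0) (L 0))
    (L 0))) (C 7162 (A 3065 (A 5880 (L 0) (L 0)) (L 0)) (B 13304 (A 3065 (L 0) (L 0)) (L 2)))))))
    _ _ _ _ _ _ (by decide +kernel)

theorem ck2_207 : Ok P2 508 254 763 3321 509 255 :=
  sound2
    (B 5880 (A 1019 (C 1020 (B 10999 (A 1786 (C 1787 (B 21238 (L 0) (A 3321 (L 0) (L 0))) (B 21238
    (L 0) (L 0))) (C 1787 (A 3577 (L 0) (L 0)) (L 0))) (A 1786 (C 1787 (B 22518 (A 3321 (L 0) (L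
    0)) (A 3321 (L 0) (L 0))) (B 22518 (A 3321 (L 0) (L 0)) (A 3321 (L 0) (L 0)))) (C 1787 (A 3577
    (L 0) (L 0)) (A 3577 (L 0) (L 0))))) (B 10999 (A 1786 (C 2043 (B 21238 (L 0) (L 0)) (B 21238
    (L 0) (L 0))) (C 2043 (L 0) (L 0))) (A 1786 (C 2043 (B 22518 (L 0) (A 3321 (L 0) (L 0))) (B
    22518 (L 0) (L 0))) (C 2043 (A 3577 (L 0) (L 0)) (A 3577 (L 0) (L 0)))))) (C 1020 (B 10999 (A
    2042 (A 3833 (L 0) (L 0)) (L 0)) (A 2042 (A 3833 (L 0) (L 0)) (L 0))) (B 10999 (A 2042 (A 3833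
    (L 0) (L 0)) (L 0)) (A 2042 (A 3833 (L 0) (L 0)) (L 0))))) (A 1019 (C 1020 (B 12279 (A 1786 (C
    1787 (B 23798 (A 3321 (L 0) (L 0)) (A 3321 (L 0) (L 0))) (B 23798 (A 3321 (L 0) (L 0)) (A 3321
    (L 0) (L 0)))) (C 1787 (A 3577 (L 0) (L 0)) (A 3577 (L 0) (L 0)))) (A 1786 (C 1787 (B 25078 (A
    3321 (L 0) (L 0)) (A 3321 (L 0) (L 0))) (B 25078 (A 3321 (L 0) (L 0)) (A 3321 (L 0) (L 0))))
    (C 1787 (A 3577 (L 0) (L 0)) (A 3577 (L 0) (L 0))))) (B 12279 (A 1786 (C 2043 (B 23798 (A 3321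
    (L 0) (L 0)) (A 3321 (L 0) (L 0))) (B 23798 (A 3321 (L 0) (L 0)) (A 3321 (L 0) (L 0)))) (C
    2043 (A 3577 (L 0) (L 0)) (A 3577 (L 0) (L 0)))) (A 1786 (C 2043 (B 25078 (A 3321 (L 0) (L 0))
    (A 3321 (L 0) (L 0))) (B 25078 (A 3321 (L 0) (L 0)) (A 3321 (L 0) (L 0)))) (C 2043 (A 3577 (L
    0) (L 0)) (A 3577 (L 0) (L 0)))))) (C 1020 (B 12279 (A 2042 (C 1787 (L 0) (L 0)) (L 0)) (A
    2042 (C 1787 (L 0) (L 0)) (A 4089 (L 0) (L 0)))) (B 12279 (A 2042 (C 2043 (L 0) (L 0)) (L 0))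
    (A 2042 (C 2043 (L 0) (L 0)) (A 4089 (L 0) (L 0)))))))
    _ _ _ _ _ _ (by decide +kernel)

theorem ck2_194 : Ok P2 508 254 7160 2042 253 254 :=
  sound2
    (C 508 (A 1019 (B 14839 (C 763 (A 1786 (C 1274 (B 28918 (L 0) (L 0)) (B 28918 (L 0) (L 0))) (B
    28918 (L 0) (L 0))) (A 1786 (B 28918 (C 1530 (L 0) (L 0)) (C 1530 (L 0) (L 0))) (B 28918 (L 0)
    (A 3577 (L 0) (L 0))))) (C 763 (A 1786 (C 1274 (B 30198 (L 0) (L 0)) (B 30198 (L 0) (L 0))) (C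
    1274 (L 0) (A 3577 (L 0) (L 0)))) (A 1786 (B 30198 (C 1530 (L 0) (A 3321 (L 0) (L 0))) (C 1530
    (L 0) (A 3321 (L 0) (L 0)))) (B 30198 (A 3577 (L 0) (L 0)) (A 3577 (L 0) (L 0)))))) (C 763 (B
    14839 (A 2042 (L 0) (L 0)) (C 1274 (L 0) (A 2042 (L 0) (L 0)))) (B 14839 (A 2042 (A 3833 (L 0)
    (L 0)) (L 0)) (A 2042 (A 3833 (L 0) (L 0)) (L 0))))) (A 1019 (B 14839 (C 1019 (A 1786 (B 28918
    (C 1786 (L 0) (A 3321 (L 0) (L 0))) (C 1786 (A 3321 (L 0) (L 0)) (A 3321 (L 0) (L 0)))) (B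
    28918 (A 3577 (L 0) (L 0)) (A 3577 (L 0) (L 0)))) (A 1786 (B 28918 (C 2042 (A 3321 (L 0) (L
    0)) (A 3321 (L 0) (L 0))) (C 2042 (A 3321 (L 0) (L 0)) (A 3321 (L 0) (L 0)))) (B 28918 (A 3577
    (L 0) (L 0)) (A 3577 (L 0) (L 0))))) (C 1019 (A 1786 (B 30198 (C 1786 (A 3321 (L 0) (L 0)) (A
    3321 (L 0) (L 0))) (C 1786 (A 3321 (L 0) (L 0)) (A 3321 (L 0) (L 0)))) (B 30198 (A 3577 (L 0)
    (L 0)) (A 3577 (L 0) (L 0)))) (A 1786 (B 30198 (C 2042 (A 3321 (L 0) (L 0)) (A 3321 (L 0) (L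
    0))) (C 2042 (A 3321 (L 0) (L 0)) (A 3321 (L 0) (L 0)))) (B 30198 (A 3577 (L 0) (L 0)) (A 3577
    (L 0) (L 0)))))) (B 14839 (C 1019 (A 2042 (A 3833 (L 0) (L 0)) (L 0)) (A 2042 (A 3833 (L 0) (L
    0)) (L 0))) (C 1019 (A 2042 (B 30198 (L 0) (L 0)) (L 0)) (A 2042 (B 30198 (L 0) (L 0)) (L
    0))))))
    _ _ _ _ _ _ (by decide +kernel)

theorem ck2_231 : Ok P2 253 763 8440 4601 253 508 :=
  sound2
    (C 763 (B 17399 (A 1274 (A 2297 (C 1274 (A 4344 (L 3543) (L 3528)) (L 3545)) (C 1274 (B 34038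
    (L 3503) (L 3512)) (A 4600 (L 3545) (L 3530)))) (C 1274 (B 34038 (A 2553 (A 4856 (L 3503) (L
    3487)) (C 2297 (A 5112 (L 3493) (L 3478)) (L 3479))) (A 2553 (A 4856 (L 3513) (L 3497)) (C
    2297 (A 5112 (L 3503) (L 3488)) (A 5112 (L 3520) (L 3505))))) (B 34038 (A 2553 (A 4856 (L
    3535) (L 3520)) (C 2553 (L 3494) (L 3510))) (A 2553 (A 4856 (L 3545) (L 3530)) (C 2553 (L
    3505) (L 3520)))))) (A 1274 (C 1274 (A 2297 (A 4344 (L 3563) (L 3547)) (B 35318 (L 3522) (A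
    4600 (L 3563) (L 3548)))) (A 2297 (A 4344 (L 3596) (L 3581)) (B 35318 (L 3555) (L 3566)))) (C
    1274 (B 35318 (A 2553 (A 4856 (L 3522) (L 3507)) (C 2297 (A 5112 (L 3514) (L 3498)) (A 5112 (L
    3530) (L 3515)))) (A 2553 (C 2297 (L 3523) (L 3540)) (C 2297 (A 5112 (L 3524) (L 3508)) (A
    5112 (L 3541) (L 3525))))) (B 35318 (A 2553 (A 4856 (L 3556) (L 3540)) (C 2553 (A 5112 (L
    3547) (L 3531)) (A 5112 (L 3562) (L 3547)))) (A 2553 (A 4856 (L 3566) (L 3550)) (C 2553 (A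
    5112 (L 3557) (L 3542)) (A 5112 (L 3573) (L 3557)))))))) (B 17399 (A 1274 (C 1530 (A 2297 (L
    3575) (A 4600 (L 3575) (L 3560))) (A 2297 (L 3604) (A 4600 (L 3604) (L 3588)))) (C 1530 (A
    2553 (B 34038 (L 3534) (A 4856 (L 3576) (L 3560))) (B 34038 (A 5112 (L 3535) (L 3519)) (C 2809
    (L 3535) (L 3549)))) (A 2553 (B 34038 (L 3562) (L 3573)) (B 34038 (A 5112 (L 3563) (L 3547))
    (A 5112 (L 3573) (L 3558)))))) (A 1274 (A 2297 (C 1530 (A 4344 (L 3627) (L 3612)) (L 3625)) (C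
    1530 (B 35318 (L 3586) (L 3597)) (A 4600 (L 3625) (L 3610)))) (C 1530 (B 35318 (A 2553 (A 4856
    (L 3587) (L 3571)) (C 2809 (L 3545) (L 3560))) (C 2809 (A 2553 (L 3588) (A 5112 (L 3588) (L
    3573))) (L 1))) (B 35318 (A 2553 (A 4856 (L 3615) (L 3600)) (C 3065 (L 3574) (L 3588))) (L
    1))))))
    _ _ _ _ _ _ (by decide +kernel)

theorem ck2_236 : Ok P2 763 508 16119 8440 508 254 :=
  sound2
    (C 1019 (A 1530 (B 32758 (C 1786 (A 2809 (A 5368 (L 3537) (L 3521)) (C 3321 (A 5624 (L 0) (L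
    0)) (A 5624 (L 3538) (L 0)))) (A 2809 (A 5368 (L 3561) (L 3545)) (A 5624 (A 10999 (L 3546) (L
    3538)) (B 64757 (L 0) (L 0))))) (C 1786 (A 2809 (C 3321 (L 3536) (L 3549)) (C 3321 (A 5624 (L
    3537) (L 0)) (A 5624 (L 3549) (L 0)))) (A 2809 (A 5368 (L 3572) (L 3556)) (B 66037 (A 5624 (L
    3551) (L 0)) (A 5624 (L 3556) (L 0)))))) (C 1786 (B 32758 (A 3065 (B 64757 (L 0) (L 0)) (A
    6136 (L 0) (L 0))) (A 3065 (C 3321 (L 0) (A 5880 (L 0) (L 0))) (A 6136 (L 0) (L 0)))) (B 32758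
    (A 3065 (B 64757 (L 0) (A 5880 (L 0) (L 0))) (A 6136 (L 0) (L 0))) (A 3065 (B 66037 (A 5880 (L
    0) (L 0)) (A 5880 (L 0) (L 0))) (A 6136 (L 0) (L 0)))))) (A 1530 (B 32758 (C 2042 (A 2809 (A
    5368 (L 3584) (L 3568)) (A 5624 (A 10999 (L 3569) (L 3561)) (A 11255 (L 3553) (L 3545)))) (A
    2809 (A 5368 (L 3606) (L 3590)) (A 5624 (L 3574) (A 11255 (L 3575) (L 3567))))) (C 2042 (A
    2809 (A 5368 (L 3595) (L 3579)) (A 5624 (A 10999 (L 3580) (L 3572)) (B 66037 (L 0) (L 0)))) (A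
    2809 (A 5368 (L 3617) (L 3602)) (A 5624 (A 10999 (L 3602) (L 3594)) (B 66037 (L 0) (L 0))))))
    (B 32758 (C 2042 (A 3065 (B 64757 (A 5880 (L 0) (L 0)) (A 5880 (L 0) (L 0))) (A 6136 (L 0) (L
    0))) (A 3065 (B 64757 (A 5880 (L 0) (L 0)) (A 5880 (L 0) (L 0))) (A 6136 (L 0) (L 0)))) (C
    2042 (A 3065 (B 66037 (A 5880 (L 0) (L 0)) (A 5880 (L 0) (L 0))) (A 6136 (L 0) (L 0))) (A 3065
    (B 66037 (A 5880 (L 0) (L 0)) (A 5880 (L 0) (L 0))) (A 6136 (L 0) (L 0)))))))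
    _ _ _ _ _ _ (by decide +kernel)

theorem ck1_15 : Ok P1 251 506 254 509 510 383 :=
  sound1
    (C 1021 (B 764 (A 761 (L 4766) (B 1275 (L 4535) (L 4235))) (A 761 (B 1531 (L 3969) (A 1272 (L
    3560) (L 3558))) (C 1788 (L 4174) (B 1531 (L 3573) (A 1528 (L 3184) (L 3180)))))) (B 764 (A
    761 (C 2044 (B 1275 (L 3843) (L 3528)) (B 1275 (A 1272 (L 3366) (L 3360)) (A 1272 (B 2554 (L
    2970) (L 2818)) (B 2554 (L 2961) (L 2809))))) (C 2044 (B 1275 (L 3819) (L 3504)) (B 1275 (A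
    1528 (L 3354) (B 2298 (L 3256) (L 3099))) (C 4091 (A 1528 (L 3041) (L 3035)) (A 1528 (B 2554
    (L 2774) (L 2619)) (B 2554 (L 2765) (L 2610))))))) (A 761 (C 2044 (B 1531 (A 1272 (L 3112) (L
    3107)) (A 1272 (B 3066 (L 2735) (L 2590)) (B 3066 (L 2727) (L 2583)))) (B 1531 (A 1272 (C 4091
    (L 2751) (B 2810 (L 2484) (L 2331))) (C 4091 (L 2744) (B 2810 (L 2474) (A 2551 (L 2284) (L
    2280))))) (C 4091 (A 1272 (B 3066 (L 2365) (L 2214)) (B 3066 (L 2356) (A 2551 (L 2171) (L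
    2168)))) (B 3066 (A 1272 (A 2295 (L 2140) (L 2136)) (A 2551 (B 5881 (L 2093) (L 2018)) (B 5881
    (L 2090) (L 2015)))) (L 2))))) (C 2044 (B 1531 (A 1528 (L 3102) (L 3097)) (A 1528 (B 3066 (L
    2720) (L 2576)) (C 3835 (L 2807) (B 3066 (L 2528) (L 2381))))) (B 1531 (C 4091 (A 1528 (L
    2737) (B 2810 (L 2641) (L 2491))) (A 1528 (B 2810 (L 2465) (A 2807 (L 2277) (L 2274))) (B 2810
    (A 3063 (L 2421) (L 2418)) (A 3063 (B 5625 (L 2229) (L 2154)) (B 5625 (L 2226) (L 2151))))))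
    (C 4091 (A 1528 (B 3066 (L 2349) (A 2807 (L 2165) (L 2163))) (B 3066 (L 2341) (A 3063 (L 2160)
    (L 2158)))) (B 3066 (A 1528 (C 8186 (L 2160) (A 2807 (L 2033) (L 2030))) (C 8186 (A 3063 (L
    2121) (L 2118)) (B 5881 (A 3063 (L 1986) (L 1982)) (L 2)))) (L 2))))))))
    _ _ _ _ _ _ (by decide +kernel)

theorem ck1_121 : Ok P1 1019 254 509 255 510 383 :=
  sound1
    (C 1021 (B 1020 (B 1787 (C 1788 (B 3322 (C 3323 (A 2042 (L 0) (L 0)) (A 2042 (L 0) (L 0))) (C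
    3323 (A 2042 (L 0) (L 0)) (B 6649 (L 0) (A 2042 (L 0) (L 0))))) (B 3322 (C 3579 (B 6393 (L 0)
    (A 2042 (L 0) (L 0))) (B 6393 (A 2042 (L 0) (L 0)) (A 2042 (L 0) (L 0)))) (C 3579 (B 6649 (A
    2042 (L 0) (L 0)) (A 2042 (L 0) (L 0))) (B 6649 (A 2042 (L 0) (L 0)) (A 2042 (A 3833 (L 0) (L
    0)) (L 0)))))) (C 1788 (B 3578 (C 3323 (B 6905 (L 0) (L 0)) (B 6905 (A 2042 (L 0) (L 0)) (A
    2042 (L 0) (L 0)))) (C 3323 (B 7161 (A 2042 (L 0) (L 0)) (A 2042 (L 0) (L 0))) (B 7161 (A 2042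
    (L 0) (L 0)) (A 2042 (A 3833 (L 0) (L 0)) (L 0))))) (B 3578 (C 3579 (B 6905 (A 2042 (A 3833 (L
    0) (L 0)) (L 0)) (A 2042 (A 3833 (L 0) (L 0)) (L 0))) (B 6905 (C 7162 (A 2042 (L 0) (L 0)) (L
    2)) (L 2))) (C 3579 (B 7161 (C 6906 (A 2042 (L 0) (L 0)) (L 2)) (L 2)) (L 2))))) (B 2043 (C
    1788 (B 3834 (C 3323 (B 7417 (A 2042 (L 0) (L 0)) (A 2042 (L 0) (L 0))) (B 7417 (C 6650 (A
    2042 (L 0) (L 0)) (L 2)) (L 2))) (C 3323 (B 7673 (C 6394 (L 0) (L 2)) (L 2)) (L 2))) (L 2)) (L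
    2))) (B 1020 (B 1787 (C 2044 (B 3322 (C 3835 (B 6393 (A 2042 (L 0) (L 0)) (C 7418 (L 0) (L
    0))) (B 6393 (A 2042 (L 0) (L 0)) (L 2))) (C 3835 (B 6649 (C 7418 (A 2042 (L 0) (L 0)) (L 2))
    (L 2)) (L 2))) (L 2)) (L 2)) (L 2)))
    _ _ _ _ _ _ (by decide +kernel)

theorem ck1_104 : Ok P1 253 2297 509 1787 1021 2044 :=
  sound1
    (C 3835 (B 3322 (A 4344 (C 7418 (B 6393 (A 8439 (B 12536 (L 2192) (L 2159)) (B 12536 (L 2189)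
    (L 2155))) (A 8439 (B 12792 (L 2125) (L 2092)) (B 12792 (L 2122) (L 2088)))) (B 6393 (A 8439
    (C 14841 (L 2126) (B 12536 (L 2054) (L 2021))) (C 14841 (B 12536 (L 2097) (L 2063)) (B 12536
    (L 2051) (L 2017)))) (C 14841 (B 12792 (A 8439 (L 2033) (L 2030)) (L 2)) (L 2)))) (C 7418 (B
    6393 (A 8695 (B 12536 (L 2185) (L 2152)) (B 12536 (L 2181) (L 2148))) (A 8695 (B 12792 (L
    2118) (C 14585 (L 2085) (L 2039))) (C 14585 (L 2141) (B 12792 (L 2069) (L 2035))))) (B 6393 (A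
    8695 (C 14841 (B 12536 (L 2093) (L 2060)) (B 12536 (L 2047) (L 2014))) (C 14841 (B 12536 (L
    2090) (L 2056)) (B 12536 (L 2044) (A 17398 (L 2001) (L 0))))) (C 14841 (B 12792 (A 8695 (L
    2026) (L 2023)) (L 2)) (L 2))))) (C 7418 (B 6649 (C 14585 (A 4344 (A 8439 (L 2084) (L 2081))
    (A 8695 (L 2077) (B 13048 (L 2048) (L 2)))) (L 2)) (L 2)) (L 2))) (B 3322 (C 7674 (B 6393 (A
    4344 (A 8439 (C 15097 (B 12536 (L 2008) (A 16630 (L 1966) (L 1964))) (B 12536 (A 16630 (L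
    1954) (L 1952)) (L 2))) (C 15097 (B 12536 (A 16886 (L 1996) (L 1994)) (A 16886 (L 1962) (L
    1961))) (B 12536 (A 16886 (L 1950) (L 1949)) (L 2)))) (B 12536 (C 15097 (A 8695 (A 17142 (L 0)
    (L 0)) (A 17398 (L 0) (L 0))) (B 24823 (A 8695 (L 0) (L 0)) (L 2))) (C 15097 (B 25079 (A 8695
    (L 0) (L 0)) (L 2)) (L 2)))) (L 2)) (L 2)) (L 2)))
    _ _ _ _ _ _ (by decide +kernel)

theorem ck1_43 : Ok P1 507 253 254 509 255 510 :=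
  sound1
    (A 1018 (B 764 (C 765 (A 1785 (B 1275 (L 6013) (L 5731)) (B 1275 (L 5977) (L 5697))) (A 1785
    (B 1275 (C 1532 (L 5184) (L 4797)) (C 1532 (L 4892) (L 4500))) (B 1275 (C 1532 (L 5157) (L
    4773)) (C 1532 (L 4867) (L 4477))))) (C 765 (A 1785 (B 1531 (L 5472) (L 5230)) (B 1531 (L
    5441) (C 1276 (L 5200) (L 4759)))) (A 1785 (B 1531 (C 1532 (L 4620) (L 4222)) (C 1532 (L 4362)
    (B 3066 (L 3827) (L 3697)))) (B 1531 (C 1532 (L 4596) (B 2810 (L 4071) (L 3937))) (C 1532 (L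
    4339) (B 3066 (L 3806) (L 3676))))))) (B 764 (C 765 (A 2041 (B 1275 (L 5938) (C 1276 (L 5661)
    (L 5240))) (B 1275 (C 1276 (L 5896) (L 5488)) (C 1276 (L 5622) (L 5207)))) (B 1275 (A 2041 (C
    1532 (L 5128) (L 4747)) (C 1532 (L 5097) (B 2298 (L 4588) (L 4439)))) (A 2041 (C 1532 (L 4839)
    (B 2554 (L 4323) (L 4183))) (C 1532 (L 4810) (B 2554 (L 4296) (L 4157)))))) (C 765 (A 2041 (B
    1531 (C 1276 (L 5406) (L 4979)) (C 1276 (L 5168) (L 4732))) (B 1531 (C 1276 (L 5370) (L 4947))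
    (C 1276 (L 5134) (L 4703)))) (B 1531 (A 2041 (C 1532 (L 4571) (B 2810 (L 4047) (L 3914))) (C
    1532 (B 2810 (L 4406) (L 4278)) (B 2810 (L 4022) (C 3067 (L 3890) (L 3700))))) (C 1532 (A 2041
    (B 3066 (L 4178) (L 4054)) (B 3066 (L 4152) (L 4028))) (A 2041 (B 3066 (L 3783) (A 3832 (L
    3589) (L 3580))) (B 3066 (C 3067 (L 3760) (L 3568)) (C 3067 (L 3632) (L 3438)))))))))
    _ _ _ _ _ _ (by decide +kernel)

theorem ck2_235 : Ok P2 763 508 2042 16119 508 254 :=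
  sound2
    (C 1019 (A 1530 (B 31478 (C 1786 (A 2809 (A 5368 (L 3516) (L 3501)) (C 3321 (A 5624 (L 0) (L
    0)) (A 5624 (L 0) (L 0)))) (A 2809 (A 5368 (L 3540) (L 3524)) (C 3577 (L 3496) (L 3508)))) (C
    1786 (A 2809 (A 5368 (L 3526) (L 3511)) (A 5624 (A 10999 (L 3511) (L 3503)) (A 11255 (L 3496)
    (L 3488)))) (A 2809 (A 5368 (L 3551) (L 3535)) (A 5624 (L 3519) (A 11255 (L 3520) (L
    3512)))))) (B 31478 (C 1786 (A 3065 (B 62197 (L 0) (L 0)) (A 6136 (L 0) (L 0))) (A 3065 (B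
    62197 (L 0) (L 0)) (A 6136 (L 0) (L 0)))) (C 1786 (A 3065 (B 63477 (L 0) (L 0)) (A 6136 (L 0)
    (L 0))) (A 3065 (B 63477 (L 0) (L 0)) (A 6136 (L 0) (L 0)))))) (A 1530 (B 31478 (C 2042 (A
    2809 (A 5368 (L 3562) (L 3547)) (A 5624 (L 3531) (L 3515))) (A 2809 (L 3552) (A 5624 (L 3552)
    (L 3537)))) (C 2042 (A 2809 (A 5368 (L 3573) (L 3558)) (C 3833 (A 5624 (L 3562) (L 0)) (A 5624
    (L 3573) (L 0)))) (A 2809 (A 5368 (L 3595) (L 3579)) (C 4089 (L 3551) (L 3561))))) (B 31478 (C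
    2042 (A 3065 (B 62197 (L 0) (L 0)) (A 6136 (L 0) (L 0))) (A 3065 (B 62197 (L 0) (L 0)) (A 6136
    (L 0) (L 0)))) (C 2042 (A 3065 (B 63477 (L 0) (A 5880 (L 0) (L 0))) (A 6136 (L 0) (L 0))) (A
    3065 (B 63477 (L 0) (A 5880 (L 0) (L 0))) (A 6136 (L 0) (L 0)))))))
    _ _ _ _ _ _ (by decide +kernel)

theorem ck2_267 : Ok P2 254 255 1019 764 254 255 :=
  sound2
    (B 2298 (C 509 (A 509 (B 4089 (A 764 (C 764 (B 7672 (A 1275 (C 1275 (A 2298 (L 0) (L 0)) (A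
    2298 (L 0) (L 0))) (A 2554 (L 0) (L 0))) (A 1275 (C 1275 (A 2298 (L 0) (L 0)) (A 2298 (L 0) (L
    0))) (C 1275 (L 0) (L 0)))) (B 7672 (A 1275 (C 1531 (A 2298 (L 0) (L 0)) (A 2298 (L 0) (L 0)))
    (A 2554 (L 0) (L 0))) (A 1275 (C 1531 (A 2298 (L 0) (L 0)) (A 2298 (L 0) (L 0))) (C 1531 (L 0)
    (L 0))))) (C 764 (B 7672 (A 1531 (L 0) (L 0)) (A 1531 (L 0) (L 0))) (B 7672 (A 1531 (L 0) (L
    0)) (A 1531 (L 0) (L 0))))) (C 764 (B 8440 (A 764 (A 1275 (C 1275 (B 16375 (L 0) (L 0)) (B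
    16375 (L 0) (L 1))) (C 1275 (L 0) (L 0))) (C 1275 (L 0) (L 0))) (L 1)) (L 1))) (B 4089 (C 764
    (B 7672 (L 0) (L 0)) (B 7672 (L 0) (L 0))) (C 764 (B 8440 (L 0) (L 1)) (L 1)))) (B 4089 (C
    1020 (B 7672 (A 509 (A 764 (A 1275 (C 1787 (A 2298 (L 0) (L 0)) (A 2298 (L 0) (L 0))) (A 2554
    (L 0) (L 0))) (A 1531 (L 0) (L 0))) (L 0)) (L 1)) (L 1)) (L 1))) (L 1))
    _ _ _ _ _ _ (by decide +kernel)

theorem ck2_243 : Ok P2 508 254 2042 8440 254 509 :=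
  sound2
    (C 764 (A 1019 (B 16119 (C 1275 (A 1786 (B 31478 (C 2298 (A 3321 (L 0) (L 0)) (A 3321 (L 0) (L
    0))) (C 2298 (A 3321 (L 0) (L 0)) (A 3321 (L 0) (L 0)))) (B 31478 (A 3577 (L 0) (L 0)) (C 2298
    (L 0) (L 0)))) (A 1786 (B 31478 (C 2554 (A 3321 (L 0) (L 0)) (A 3321 (L 0) (L 0))) (C 2554 (A
    3321 (L 0) (L 0)) (A 3321 (L 0) (L 0)))) (B 31478 (A 3577 (L 0) (L 0)) (C 2554 (L 0) (L 0)))))
    (C 1275 (A 1786 (B 32758 (C 2298 (A 3321 (L 0) (L 0)) (A 3321 (L 0) (L 0))) (C 2298 (A 3321 (L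
    0) (L 0)) (L 1))) (B 32758 (C 2298 (L 0) (L 0)) (C 2298 (L 0) (L 1)))) (L 1))) (B 16119 (C
    1275 (A 2042 (B 31478 (L 0) (L 0)) (A 4089 (L 0) (L 0))) (A 2042 (B 31478 (L 0) (L 0)) (A 4089
    (L 0) (L 0)))) (C 1275 (A 2042 (B 32758 (L 0) (A 3833 (L 0) (L 0))) (A 4089 (L 0) (L 0))) (L
    1)))) (B 16119 (C 1531 (B 31478 (A 1019 (A 1786 (C 2810 (A 3321 (L 0) (L 0)) (A 3321 (L 0) (L
    0))) (A 3577 (L 0) (L 0))) (A 2042 (L 0) (L 0))) (L 1)) (L 1)) (L 1)))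
    _ _ _ _ _ _ (by decide +kernel)

theorem ck1_23 : Ok P1 252 253 253 254 0 255 :=
  sound1
    (A 507 (C 254 (A 762 (B 508 (L 14046) (L 13262)) (B 508 (B 763 (L 12923) (L 12484)) (C 253 (L
    12534) (L 10886)))) (A 762 (B 508 (L 10703) (B 1019 (L 9385) (L 9029))) (B 508 (B 763 (L
    10063) (L 9550)) (C 509 (L 9498) (L 8330))))) (B 508 (B 763 (A 1018 (C 254 (C 253 (L 12311) (L
    10974)) (C 509 (L 9798) (L 8765))) (B 1274 (L 0) (C 254 (L 0) (L 0)))) (A 1018 (C 254 (C 253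
    (L 11879) (L 10499)) (C 509 (L 9297) (L 8252))) (C 254 (C 253 (L 11360) (L 10139)) (C 509 (L
    9052) (B 1530 (L 0) (L 0)))))) (B 1019 (A 1018 (C 254 (C 253 (L 11554) (L 10127)) (C 509 (L
    8897) (L 7835))) (C 254 (C 253 (L 11040) (L 9778)) (C 509 (L 8662) (B 1786 (L 7517) (L
    7339))))) (A 1018 (C 254 (C 253 (L 11304) (L 9826)) (C 509 (L 8563) (L 7484))) (C 254 (C 253
    (L 10794) (L 9486)) (C 509 (L 8339) (B 2042 (L 7174) (L 7020))))))))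
    _ _ _ _ _ _ (by decide +kernel)

theorem ck2_190 : Ok P2 508 254 763 3321 0 253 :=
  sound2
    (C 252 (B 5880 (A 1019 (C 251 (A 1786 (L 0) (L 0)) (B 10999 (L 0) (A 1786 (L 0) (L 0)))) (B
    10999 (L 0) (L 0))) (A 1019 (C 251 (A 1786 (L 0) (L 0)) (B 12279 (A 1786 (L 0) (L 0)) (A 1786
    (L 0) (L 0)))) (B 12279 (L 0) (A 2042 (L 0) (L 0))))) (B 5880 (A 1019 (B 10999 (C 507 (A 1786
    (L 0) (L 0)) (A 1786 (A 3321 (L 0) (L 0)) (L 0))) (C 507 (A 1786 (L 0) (L 0)) (A 1786 (A 3321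
    (L 0) (L 0)) (L 0)))) (B 10999 (A 2042 (L 0) (L 0)) (C 507 (L 0) (L 0)))) (A 1019 (B 12279 (C
    507 (A 1786 (A 3321 (L 0) (L 0)) (L 0)) (A 1786 (B 23798 (L 0) (L 0)) (L 0))) (C 507 (A 1786
    (A 3321 (L 0) (L 0)) (L 0)) (A 1786 (B 25078 (L 0) (L 0)) (L 0)))) (B 12279 (C 507 (L 0) (L
    0)) (C 507 (L 0) (L 0))))))
    _ _ _ _ _ _ (by decide +kernel)

theorem ck2_262 : Ok P2 254 255 507 253 0 255 :=
  sound2
    (C 254 (A 509 (A 764 (C 253 (B 1018 (A 1275 (L 0) (L 0)) (C 252 (L 0) (L 0))) (B 1018 (A 1275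
    (B 1785 (L 0) (L 0)) (L 0)) (A 1275 (B 2041 (L 0) (L 0)) (L 0)))) (C 253 (L 0) (B 1018 (L 0)
    (L 0)))) (B 1018 (L 0) (L 0))) (A 509 (A 764 (C 509 (B 1018 (A 1275 (L 0) (L 0)) (A 1275 (B
    2041 (L 0) (L 0)) (L 0))) (B 1018 (A 1275 (L 0) (L 0)) (A 1275 (B 2041 (L 0) (L 0)) (L 0))))
    (C 509 (L 0) (B 1018 (L 0) (L 0)))) (A 1020 (L 0) (L 0))))
    _ _ _ _ _ _ (by decide +kernel)

theorem ck1_21 : Ok P1 252 253 249 252 0 383 :=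
  sound1
    (B 250 (C 255 (L 0) (L 0)) (A 507 (C 255 (A 762 (C 254 (B 251 (L 1) (L 16973)) (B 251 (L 1) (L
    13814))) (B 251 (L 0) (L 0))) (C 510 (A 762 (L 1) (L 0)) (L 0))) (C 255 (B 251 (L 0) (L 0)) (L
    0))))
    _ _ _ _ _ _ (by decide +kernel)

theorem ck1_65 : Ok P1 507 253 1020 255 1021 383 :=
  sound1
    (L 2)
    _ _ _ _ _ _ (by decide +kernel)

theorem ck1_122 : Ok P1 254 255 0 252 0 383 :=
  sound1
    (L 0)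
    _ _ _ _ _ _ (by decide +kernel)

theorem ck2_257 : Ok P2 253 254 2042 764 255 383 :=
  sound2
    (L 1)
    _ _ _ _ _ _ (by decide +kernel)

end Vale.Agent.P322
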