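import Vale.Agent.P322.CKD1
import Vale.Agent.P322.CKD2
import Vale.Agent.P322.CKD3
import Vale.Agent.P322.CKD4
import Vale.Agent.P322.CKD5
import Vale.Agent.P322.CKD6
import Vale.Agent.P322.CKD7
import Vale.Agent.P322.CKD8
import Vale.Agent.P322.CKD9
import Vale.Agent.P322.CKD10
import Vale.Agent.P322.CKD11
import Vale.Agent.P322.CKD12

/-!
The two charts are covered by verified boxes.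
-/

namespace Vale.Agent.P322

theorem all1 : Ok P1 208 255 0 255 0 383 :=
  (Ok.A 231 (Ok.A 219 (Ok.A 213 ck1_0 ck1_1) (Ok.A 225 ck1_2 ck1_3)) (Ok.A 243 (Ok.A 237 ck1_4
  ck1_5) (Ok.A 249 ck1_6 (Ok.A 252 (Ok.A 250 ck1_7 (Ok.A 251 ck1_8 (Ok.B 248 ck1_9 (Ok.B 251
  ck1_10 (Ok.B 253 ck1_11 (Ok.C 255 ck1_12 (Ok.B 254 ck1_13 (Ok.C 510 ck1_14 (Ok.B 509 (Ok.A 506
  ck1_15 (Ok.C 1021 ck1_16 (Ok.B 764 ck1_17 ck1_18))) ck1_19))))))))) (Ok.A 253 (Ok.B 249 ck1_20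
  (Ok.B 252 ck1_21 (Ok.B 253 ck1_22 (Ok.B 254 (Ok.C 255 ck1_23 (Ok.A 507 ck1_24 ck1_25)) (Ok.C 255
  (Ok.B 509 ck1_26 ck1_27) (Ok.A 507 (Ok.B 509 (Ok.C 510 ck1_28 (Ok.C 1021 ck1_29 (Ok.B 764 (Ok.A
  762 ck1_30 ck1_31) (Ok.A 762 (Ok.C 2044 ck1_32 (Ok.B 1531 ck1_33 ck1_34)) (Ok.C 2044 ck1_35
  (Ok.B 1531 (Ok.A 1529 ck1_36 ck1_37) (Ok.A 1529 ck1_38 ck1_39))))))) (Ok.C 510 ck1_40 (Ok.C 1021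
  ck1_41 ck1_42))) (Ok.B 509 (Ok.C 510 ck1_43 (Ok.C 1021 (Ok.B 764 ck1_44 ck1_45) (Ok.B 764 ck1_46
  (Ok.A 1018 (Ok.C 2044 (Ok.B 1531 ck1_47 ck1_48) (Ok.B 1531 ck1_49 (Ok.A 1785 ck1_50 ck1_51)))
  (Ok.C 2044 (Ok.B 1531 ck1_52 (Ok.A 2041 ck1_53 ck1_54)) (Ok.B 1531 ck1_55 ck1_56)))))) (Ok.C 510
  (Ok.A 1018 ck1_57 (Ok.B 1020 ck1_58 ck1_59)) (Ok.C 1021 (Ok.B 1020 (Ok.A 1018 ck1_60 (Ok.C 1788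
  ck1_61 ck1_62)) ck1_63) (Ok.B 1020 ck1_64 ck1_65)))))))))) (Ok.A 254 (Ok.B 250 ck1_66 (Ok.B 252
  ck1_67 (Ok.B 253 ck1_68 (Ok.B 254 ck1_69 (Ok.C 255 (Ok.B 509 ck1_70 ck1_71) (Ok.A 508 (Ok.B 509
  (Ok.C 510 (Ok.B 764 ck1_72 (Ok.B 1531 ck1_73 ck1_74)) (Ok.B 764 ck1_75 (Ok.C 1021 (Ok.B 1531
  ck1_76 (Ok.A 763 (Ok.C 1788 ck1_77 ck1_78) ck1_79)) (Ok.B 1531 ck1_80 (Ok.C 2044 (Ok.A 763 (Ok.A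
  1274 (Ok.B 3066 ck1_81 ck1_82) ck1_83) ck1_84) ck1_85))))) (Ok.C 510 (Ok.B 1020 (Ok.C 765 ck1_86
  (Ok.B 1787 ck1_87 ck1_88)) (Ok.C 765 ck1_89 (Ok.B 2043 (Ok.C 1532 ck1_90 (Ok.A 763 ck1_91
  ck1_92)) (Ok.C 1532 ck1_93 ck1_94)))) (Ok.A 763 (Ok.C 1021 (Ok.B 1020 (Ok.A 1274 (Ok.C 1788
  ck1_95 (Ok.B 1787 ck1_96 ck1_97)) (Ok.B 1787 (Ok.C 1788 ck1_98 (Ok.B 3322 ck1_99 ck1_100)) (Ok.C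
  1788 ck1_101 ck1_102))) ck1_103) (Ok.B 1020 (Ok.C 2044 (Ok.B 1787 (Ok.A 1274 (Ok.A 2297 ck1_104
  ck1_105) ck1_106) ck1_107) ck1_108) ck1_109)) (Ok.C 1021 (Ok.B 1020 (Ok.B 1787 (Ok.C 1788
  ck1_110 ck1_111) (Ok.C 1788 ck1_112 ck1_113)) ck1_114) ck1_115)))) (Ok.B 509 (Ok.C 510 ck1_116
  ck1_117) (Ok.C 510 (Ok.B 1020 ck1_118 ck1_119) (Ok.A 1019 ck1_120 ck1_121))))))))) (Ok.B 252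
  ck1_122 (Ok.B 253 ck1_123 (Ok.B 254 ck1_124 (Ok.C 255 ck1_125 (Ok.B 509 ck1_126 (Ok.C 510
  ck1_127 ck1_128))))))))))))

theorem all2 : Ok P2 0 255 0 764 0 383 :=
  (Ok.A 251 ck2_129 (Ok.A 253 (Ok.A 252 ck2_130 (Ok.B 759 ck2_131 (Ok.B 506 ck2_132 (Ok.B 507
  ck2_133 (Ok.B 253 ck2_134 (Ok.C 255 (Ok.B 1019 (Ok.B 1530 (Ok.C 254 ck2_135 ck2_136) (Ok.C 254
  (Ok.C 253 (Ok.A 507 ck2_137 ck2_138) ck2_139) ck2_140)) (Ok.C 254 (Ok.C 253 (Ok.B 2298 (Ok.C 252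
  (Ok.B 4089 ck2_141 ck2_142) ck2_143) (Ok.C 252 (Ok.B 4857 (Ok.A 507 ck2_144 ck2_145) (Ok.A 507
  ck2_146 ck2_147)) ck2_148)) ck2_149) ck2_150)) ck2_151)))))) (Ok.A 254 (Ok.B 763 (Ok.C 255 (Ok.B
  762 (Ok.A 508 (Ok.B 754 ck2_152 (Ok.A 763 ck2_153 ck2_154)) ck2_155) (Ok.A 508 (Ok.C 254 (Ok.B
  2041 (Ok.A 763 ck2_156 ck2_157) (Ok.C 253 (Ok.A 763 ck2_158 ck2_159) ck2_160)) (Ok.B 2041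
  ck2_161 ck2_162)) (Ok.C 254 (Ok.B 2041 ck2_163 ck2_164) (Ok.B 2041 ck2_165 ck2_166)))) (Ok.B 762
  ck2_167 (Ok.A 508 (Ok.B 2041 ck2_168 (Ok.C 510 ck2_169 ck2_170)) (Ok.C 510 ck2_171 ck2_172))))
  (Ok.C 255 (Ok.B 2042 (Ok.C 254 (Ok.A 508 (Ok.B 3321 (Ok.C 253 (Ok.C 252 ck2_173 (Ok.A 763
  ck2_174 ck2_175)) (Ok.A 763 ck2_176 (Ok.B 5880 ck2_177 ck2_178))) (Ok.C 253 (Ok.C 252 (Ok.B 7160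
  ck2_179 ck2_180) (Ok.B 7160 ck2_181 (Ok.A 763 ck2_182 ck2_183))) (Ok.B 7160 (Ok.A 763 ck2_184
  (Ok.C 508 ck2_185 ck2_186)) (Ok.A 763 ck2_187 (Ok.C 508 ck2_188 ck2_189))))) (Ok.B 3321 (Ok.C
  253 ck2_190 ck2_191) (Ok.C 253 ck2_192 (Ok.B 7160 ck2_193 ck2_194)))) (Ok.A 508 (Ok.B 3321 (Ok.C
  509 (Ok.A 763 ck2_195 ck2_196) (Ok.A 763 ck2_197 ck2_198)) (Ok.C 509 (Ok.A 763 ck2_199 (Ok.B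
  7160 ck2_200 (Ok.C 764 ck2_201 ck2_202))) (Ok.A 763 ck2_203 (Ok.B 7160 ck2_204 ck2_205)))) (Ok.B
  3321 (Ok.C 509 ck2_206 ck2_207) (Ok.C 509 (Ok.B 7160 ck2_208 ck2_209) ck2_210)))) (Ok.C 254
  (Ok.C 253 (Ok.B 4601 (Ok.A 508 (Ok.C 252 (Ok.B 8440 ck2_211 ck2_212) (Ok.B 8440 (Ok.A 763
  ck2_213 ck2_214) (Ok.A 763 (Ok.C 507 ck2_215 ck2_216) ck2_217))) ck2_218) (Ok.C 252 (Ok.A 508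
  (Ok.B 9720 (Ok.C 251 ck2_219 ck2_220) ck2_221) ck2_222) (Ok.A 508 (Ok.B 9720 (Ok.A 763 (Ok.C 507
  ck2_223 ck2_224) ck2_225) ck2_226) ck2_227))) (Ok.B 4601 (Ok.A 508 (Ok.C 508 (Ok.B 8440 (Ok.A
  763 ck2_228 (Ok.C 763 ck2_229 ck2_230)) (Ok.A 763 ck2_231 (Ok.C 763 ck2_232 ck2_233))) (Ok.B
  8440 (Ok.A 763 ck2_234 (Ok.B 16119 ck2_235 ck2_236)) ck2_237)) (Ok.C 508 ck2_238 ck2_239))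
  ck2_240)) (Ok.C 509 (Ok.B 4601 (Ok.B 8440 (Ok.A 508 (Ok.A 763 ck2_241 ck2_242) ck2_243) ck2_244)
  ck2_245) ck2_246))) (Ok.B 2042 (Ok.C 510 (Ok.A 508 (Ok.B 3321 (Ok.C 765 (Ok.A 763 ck2_247
  ck2_248) ck2_249) ck2_250) (Ok.B 3321 (Ok.C 765 ck2_251 ck2_252) ck2_253)) (Ok.B 3321 (Ok.A 508
  ck2_254 ck2_255) ck2_256)) ck2_257))) (Ok.B 755 ck2_258 (Ok.B 504 ck2_259 (Ok.B 506 ck2_260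
  (Ok.C 255 (Ok.B 507 ck2_261 (Ok.B 253 ck2_262 (Ok.B 1019 (Ok.C 254 ck2_263 ck2_264) (Ok.C 254
  (Ok.C 253 ck2_265 ck2_266) ck2_267)))) (Ok.B 507 ck2_268 ck2_269))))))))

end Vale.Agent.P322
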