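import Mathlib

/-!
Elementary functions for the Courtade-Kumar inequality: the entropy deficit `ph`, its power
series and polynomial bounds.
-/

namespace Vale.Agent.P322

open Real Finset

noncomputable def ph (x : ℝ) : ℝ := ((1 + x) * log (1 + x) + (1 - x) * log (1 - x)) / 2

noncomputable def ath (x : ℝ) : ℝ := (log (1 + x) - log (1 - x)) / 2

noncomputable def pp (x : ℝ) : ℝ := -log (1 - x ^ 2) / 2

theorem ph_neg (x : ℝ) : ph (-x) = ph x := by
  simp only [ph, sub_neg_eq_add, ← sub_eq_add_neg]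
  ring

theorem ph_abs (x : ℝ) : ph |x| = ph x := by
  rcases abs_choice x with h | h <;> rw [h]
  exact ph_neg x

@[simp] theorem ph_zero : ph 0 = 0 := by simp [ph]

@[simp] theorem ath_zero : ath 0 = 0 := by simp [ath]

theorem log_one_sub_sq {x : ℝ} (h0 : -1 < x) (h1 : x < 1) :
    log (1 - x ^ 2) = log (1 + x) + log (1 - x) := by
  rw [← log_mul (by linarith) (by linarith)]
  congr 1
  ring

theorem ph_sub {x : ℝ} (h0 : -1 < x) (h1 : x < 1) : ph x - x * ath x = -pp x := by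
  rw [pp, log_one_sub_sq h0 h1, ph, ath]
  ring

theorem hasDerivAt_ath {x : ℝ} (h0 : -1 < x) (h1 : x < 1) :
    HasDerivAt ath (1 / (1 - x ^ 2)) x := by
  have a : 1 + x ≠ 0 := by linarith
  have b : 1 - x ≠ 0 := by linarith
  have c : 1 - x ^ 2 ≠ 0 := by
    rw [show 1 - x ^ 2 = (1 + x) * (1 - x) by ring]
    exact mul_ne_zero a b
  have := ((((hasDerivAt_id' x).const_add 1).log a).sub
    (((hasDerivAt_id' x).const_sub 1).log b)).div_const 2
  refine HasDerivAt.congr_deriv this ?_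
  field_simp
  ring

theorem hasDerivAt_ph {x : ℝ} (h0 : -1 < x) (h1 : x < 1) : HasDerivAt ph (ath x) x := by
  have a : 1 + x ≠ 0 := by linarith
  have b : 1 - x ≠ 0 := by linarith
  have := ((((hasDerivAt_id' x).const_add 1).mul (((hasDerivAt_id' x).const_add 1).log a)).add
    (((hasDerivAt_id' x).const_sub 1).mul (((hasDerivAt_id' x).const_sub 1).log b))).div_const 2
  refine HasDerivAt.congr_deriv this ?_
  rw [ath]
  field_simp
  ring

theorem nl_pair {m y : ℝ} (hm : 0 < m) (h0 : -1 < y) (h1 : y < 1) :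
    negMulLog (m * (1 - y)) + negMulLog (m * (1 + y)) = 2 * negMulLog m - 2 * m * ph y := by
  simp only [negMulLog, ph]
  rw [log_mul hm.ne' (by linarith), log_mul hm.ne' (by linarith)]
  ring

theorem ent_eq_ph {x : ℝ} (h0 : -1 < x) (h1 : x < 1) :
    binEntropy ((1 - x) / 2) = log 2 - ph x := by
  have := nl_pair (m := 1 / 2) (by norm_num) h0 h1
  rw [binEntropy_eq_negMulLog_add_negMulLog_one_sub, show (1 - x) / 2 = 1 / 2 * (1 - x) by ring,
    show 1 - 1 / 2 * (1 - x) = 1 / 2 * (1 + x) by ring, this, negMulLog, one_div, log_inv]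
  ring

theorem ent_eq_ph' {u : ℝ} (h0 : 0 < u) (h1 : u < 1) :
    binEntropy u = log 2 - ph (1 - 2 * u) := by
  rw [← ent_eq_ph (by linarith) (by linarith)]
  congr 1
  ring

/-- Average entropy of the pair with mean `m` and difference `d`. -/
noncomputable def Hh (m d : ℝ) : ℝ := (binEntropy (m - d / 2) + binEntropy (m + d / 2)) / 2

theorem Hh_eq {m d : ℝ} (h0 : |d| < 2 * m) (h1 : |d| < 2 * (1 - m)) :
    Hh m d = binEntropy m - m * ph (d / (2 * m)) - (1 - m) * ph (d / (2 * (1 - m))) := by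
  have hm : 0 < m := by linarith [abs_nonneg d]
  have hm' : 0 < 1 - m := by linarith [abs_nonneg d]
  have a := abs_lt.1 h0
  have b := abs_lt.1 h1
  have e1 := nl_pair (y := d / (2 * m)) hm (by rw [lt_div_iff₀ (by linarith)]; linarith)
    (by rw [div_lt_iff₀ (by linarith)]; linarith)
  have e2 := nl_pair (y := d / (2 * (1 - m))) hm' (by rw [lt_div_iff₀ (by linarith)]; linarith)
    (by rw [div_lt_iff₀ (by linarith)]; linarith)
  rw [show m * (1 - d / (2 * m)) = m - d / 2 by field_simp,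
    show m * (1 + d / (2 * m)) = m + d / 2 by field_simp] at e1
  rw [show (1 - m) * (1 - d / (2 * (1 - m))) = 1 - (m + d / 2) by field_simp; ring,
    show (1 - m) * (1 + d / (2 * (1 - m))) = 1 - (m - d / 2) by field_simp; ring] at e2
  simp only [Hh, binEntropy_eq_negMulLog_add_negMulLog_one_sub]
  linarith

theorem hasSum_of_eq {f g : ℕ → ℝ} {a b : ℝ} (h : HasSum f a) (h1 : ∀ k, g k = f k)
    (h2 : b = a) : HasSum g b := by
  rw [h2, funext h1]
  exact h

noncomputable def cc (k : ℕ) : ℝ := 1 / ((2 * k + 1) * (2 * k + 2))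

theorem cc_pos (k : ℕ) : 0 < cc k := by
  unfold cc
  positivity

theorem hasSum_ph {x : ℝ} (h0 : 0 ≤ x) (h1 : x < 1) :
    HasSum (fun k : ℕ => cc k * (x ^ 2) ^ (k + 1)) (ph x) := by
  have a : |x| < 1 := by rwa [abs_of_nonneg h0]
  have b : |x ^ 2| < 1 := by
    rw [abs_of_nonneg (sq_nonneg x)]
    nlinarith
  have s := ((hasSum_log_sub_log_of_abs_lt_one a).mul_left (x / 2)).sub
    ((hasSum_pow_div_log_of_abs_lt_one b).mul_left (1 / 2))
  refine hasSum_of_eq s (fun k => ?_) ?_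
  · rw [cc, ← pow_mul]
    field_simp
    ring
  · rw [log_one_sub_sq (by linarith) h1, ph]
    ring

theorem ph_nonneg {x : ℝ} (h0 : 0 ≤ x) (h1 : x < 1) : 0 ≤ ph x :=
  (hasSum_ph h0 h1).nonneg fun k => mul_nonneg (cc_pos k).le (by positivity)

theorem ph_le_log {x : ℝ} (h0 : -1 < x) (h1 : x < 1) : ph x ≤ log 2 := by
  have := binEntropy_nonneg (p := (1 - x) / 2) (by linarith) (by linarith)
  rw [ent_eq_ph h0 h1] at this
  linarith

theorem ph_le_sq {x : ℝ} (h0 : 0 ≤ x) (h1 : x < 1) : ph x ≤ log 2 * x ^ 2 := by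
  have key : ∀ y, x < y → y < 1 → y ^ 2 * ph x ≤ log 2 * x ^ 2 := fun y hy hy1 => by
    have := hasSum_le (fun k => ?_) ((hasSum_ph h0 h1).mul_left (y ^ 2))
      ((hasSum_ph (h0.trans hy.le) hy1).mul_left (x ^ 2))
    · have h2 := ph_le_log (x := y) (by linarith) hy1
      nlinarith [sq_nonneg x]
    · have : (x ^ 2) ^ k ≤ (y ^ 2) ^ k := by gcongr
      have h3 := mul_le_mul_of_nonneg_left this
        (mul_nonneg (cc_pos k).le (mul_nonneg (sq_nonneg x) (sq_nonneg y)))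
      simp only [pow_succ] at h3 ⊢
      nlinarith
  have hc : Filter.Tendsto (fun y : ℝ => y ^ 2 * ph x) (nhdsWithin 1 (Set.Iio 1))
      (nhds (1 ^ 2 * ph x)) :=
    Filter.Tendsto.mono_left (Continuous.tendsto (by fun_prop) 1) nhdsWithin_le_nhds
  have := le_of_tendsto hc (Filter.mem_of_superset (Ioo_mem_nhdsLT h1) fun y hy => key y hy.1 hy.2)
  simpa using this

theorem ent_ge {u : ℝ} (h0 : 0 < u) (h1 : u < 1) : log 2 * (4 * u * (1 - u)) ≤ binEntropy u := by
  rw [ent_eq_ph' h0 h1, ← ph_abs]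
  have := ph_le_sq (abs_nonneg (1 - 2 * u)) (abs_lt.2 ⟨by linarith, by linarith⟩)
  rw [sq_abs] at this
  nlinarith

theorem ph_ge_sum (N : ℕ) {x : ℝ} (h0 : 0 ≤ x) (h1 : x < 1) :
    ∑ k ∈ range N, cc k * (x ^ 2) ^ (k + 1) ≤ ph x :=
  sum_le_hasSum _ (fun k _ => mul_nonneg (cc_pos k).le (by positivity)) (hasSum_ph h0 h1)

theorem ph_le_sum (N : ℕ) {x : ℝ} (h0 : 0 ≤ x) (h1 : x < 1) :
    ph x ≤ ∑ k ∈ range N, cc k * (x ^ 2) ^ (k + 1) + (x ^ 2) ^ (N + 1) / (4 * N + 1) := by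
  have hX : x ^ 2 ≤ 1 := by nlinarith
  have step : ∀ M : ℕ, ∑ k ∈ range (M + 1), cc k * (x ^ 2) ^ (k + 1) +
      (x ^ 2) ^ (M + 1 + 1) / (4 * (M + 1 : ℕ) + 1) ≤
      ∑ k ∈ range M, cc k * (x ^ 2) ^ (k + 1) + (x ^ 2) ^ (M + 1) / (4 * M + 1) := fun M => by
    rw [sum_range_succ]
    have a : cc M + 1 / (4 * (M + 1 : ℕ) + 1) ≤ 1 / (4 * M + 1) := by
      rw [cc]
      push_cast
      rw [div_add_div _ _ (by positivity) (by positivity), div_le_div_iff₀ (by positivity)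
        (by positivity)]
      have : (0 : ℝ) ≤ M := by positivity
      nlinarith [mul_nonneg this this]
    have b : (x ^ 2) ^ (M + 1 + 1) ≤ (x ^ 2) ^ (M + 1) := pow_le_pow_of_le_one (sq_nonneg x) hX
      (by omega)
    have c := mul_le_mul_of_nonneg_left a (show 0 ≤ (x ^ 2) ^ (M + 1) by positivity)
    have d := div_le_div_of_nonneg_right b (show (0 : ℝ) ≤ 4 * (M + 1 : ℕ) + 1 by positivity)
    simp only [mul_add, mul_one_div] at c
    linarith
  have anti := antitone_nat_of_succ_le (f := fun M : ℕ => ∑ k ∈ range M,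
    cc k * (x ^ 2) ^ (k + 1) + (x ^ 2) ^ (M + 1) / (4 * M + 1)) step
  refine le_of_tendsto (hasSum_ph h0 h1).tendsto_sum_nat
    (Filter.eventually_atTop.2 ⟨N, fun M hM => ?_⟩)
  have := anti hM
  have e : 0 ≤ (x ^ 2) ^ (M + 1) / (4 * M + 1) := by positivity
  simp only at this
  linarith

theorem psi_ge_sum (N : ℕ) {r y : ℝ} (hr0 : 0 ≤ r) (hr1 : r ≤ 1) (h0 : 0 ≤ y) (h1 : y < 1) :
    ∑ k ∈ range N, cc k * (r ^ 2 - (r ^ 2) ^ (k + 1)) * (y ^ 2) ^ (k + 1) ≤
      r ^ 2 * ph y - ph (r * y) := by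
  have s := ((hasSum_ph h0 h1).mul_left (r ^ 2)).sub
    (hasSum_ph (x := r * y) (by positivity) (by nlinarith))
  refine sum_le_hasSum _ (fun k _ => ?_) 
    (hasSum_of_eq s (fun k => by rw [mul_pow, mul_pow]; ring) rfl)
  have : (r ^ 2) ^ (k + 1) ≤ r ^ 2 := pow_le_of_le_one (sq_nonneg r) (by nlinarith) (by omega)
  exact mul_nonneg (mul_nonneg (cc_pos k).le (by linarith)) (by positivity)

theorem af_ge_sum (N : ℕ) {r y : ℝ} (hr0 : 0 ≤ r) (hr1 : r < 1) (h0 : 0 ≤ y) (h1 : y ≤ 1) :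
    ∑ k ∈ range N, cc k * (r ^ 2) ^ (k + 1) * (1 - (y ^ 2) ^ (k + 1)) ≤ ph r - ph (r * y) := by
  have s := (hasSum_ph hr0 hr1).sub (hasSum_ph (x := r * y) (by positivity) (by nlinarith))
  refine sum_le_hasSum _ (fun k _ => ?_) 
    (hasSum_of_eq s (fun k => by rw [mul_pow, mul_pow]; ring) rfl)
  have : (y ^ 2) ^ (k + 1) ≤ 1 := pow_le_one₀ (sq_nonneg y) (by nlinarith)
  exact mul_nonneg (mul_nonneg (cc_pos k).le (by positivity)) (by linarith)

theorem nlog_ge_sum (N : ℕ) {u : ℝ} (h0 : 0 ≤ u) (h1 : u < 1) :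
    ∑ k ∈ range N, u ^ (k + 1) / (k + 1) ≤ -log (1 - u) :=
  sum_le_hasSum _ (fun k _ => by positivity)
    (hasSum_pow_div_log_of_abs_lt_one (by rwa [abs_of_nonneg h0]))

theorem nlog_le_sum (N : ℕ) {u : ℝ} (h0 : 0 ≤ u) (h1 : u < 1) :
    -log (1 - u) ≤ ∑ k ∈ range N, u ^ (k + 1) / (k + 1) + u ^ (N + 1) / ((N + 1) * (1 - u)) := by
  have hu : 0 < 1 - u := by linarith
  have step : ∀ M : ℕ, ∑ k ∈ range (M + 1), u ^ (k + 1) / (k + 1) +
      u ^ (M + 1 + 1) / (((M + 1 : ℕ) + 1) * (1 - u)) ≤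
      ∑ k ∈ range M, u ^ (k + 1) / (k + 1) + u ^ (M + 1) / ((M + 1) * (1 - u)) := fun M => by
    rw [sum_range_succ]
    have a : u ^ (M + 1 + 1) / (((M + 1 : ℕ) + 1) * (1 - u)) ≤
        u ^ (M + 1 + 1) / ((M + 1) * (1 - u)) := by
      push_cast
      gcongr
      linarith
    have b : u ^ (M + 1) / ((M + 1) * (1 - u)) =
        u ^ (M + 1) / (M + 1) + u ^ (M + 1 + 1) / ((M + 1) * (1 - u)) := by
      field_simp
      ring
    linarith
  have anti := antitone_nat_of_succ_le (f := fun M : ℕ => ∑ k ∈ range M,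
    u ^ (k + 1) / (k + 1) + u ^ (M + 1) / ((M + 1) * (1 - u))) step
  refine le_of_tendsto (hasSum_pow_div_log_of_abs_lt_one
    (by rwa [abs_of_nonneg h0])).tendsto_sum_nat (Filter.eventually_atTop.2 ⟨N, fun M hM => ?_⟩)
  have := anti hM
  have e : 0 ≤ u ^ (M + 1) / ((M + 1) * (1 - u)) := by positivity
  simp only at this
  linarith

end Vale.Agent.P322
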