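import Vale.Agent.P322.CKBasic

/-!
Supporting planes for the two-point functional of the induction step.
-/

namespace Vale.Agent.P322

open Real

theorem mvt {f f' : ℝ → ℝ} {a b : ℝ} (hab : a < b) (hc : ContinuousOn f (Set.Icc a b))
    (hd : ∀ y, a < y → y < b → HasDerivAt f (f' y) y) :
    ∃ c, a < c ∧ c < b ∧ f' c * (b - a) = f b - f a := by
  obtain ⟨c, hc, h⟩ := exists_hasDerivAt_eq_slope f f' hab hc fun y hy => hd y hy.1 hy.2
  exact ⟨c, hc.1, hc.2, by rw [h, div_mul_cancel₀ _ (by linarith)]⟩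

theorem mvt' {f f' : ℝ → ℝ} {a b : ℝ} (hab : a < b)
    (hd : ∀ y, a ≤ y → y ≤ b → HasDerivAt f (f' y) y) :
    ∃ c, a < c ∧ c < b ∧ f' c * (b - a) = f b - f a :=
  mvt hab (fun y hy => (hd y hy.1 hy.2).continuousAt.continuousWithinAt)
    fun y h1 h2 => hd y h1.le h2.le

theorem pos_of_mul_pos_right' {a b : ℝ} (h : 0 < a * b) (hb : 0 < b) : 0 < a :=
  (mul_pos_iff_of_pos_right hb).1 h

theorem left_nonneg {T T' T'' : ℝ → ℝ} {x y : ℝ} (hc : ContinuousOn T (Set.Icc 0 x))
    (h1 : ∀ y, 0 < y → y ≤ x → HasDerivAt T (T' y) y)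
    (h2 : ∀ y, 0 < y → y ≤ x → HasDerivAt T' (T'' y) y) (h0 : 0 ≤ T 0) (hx : T x = 0)
    (hx' : T' x = 0) (hup : ∀ y z, 0 < y → y < z → z < x → 0 ≤ T'' y → 0 ≤ T'' z)
    (hy0 : 0 < y) (hy : y < x) : 0 ≤ T y := by
  by_contra hn
  rw [not_le] at hn
  obtain ⟨a, a0, a1, ha⟩ := mvt hy0 (hc.mono (Set.Icc_subset_Icc_right hy.le))
    fun z z0 z1 => h1 z z0 (by linarith)
  obtain ⟨b, b0, b1, hb⟩ := mvt' hy fun z z0 z1 => h1 z (by linarith) z1
  obtain ⟨c, c0, c1, hc⟩ := mvt' (a1.trans b0) fun z z0 z1 => h2 z (by linarith) (by linarith)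
  obtain ⟨d, d0, d1, hd⟩ := mvt' b1 fun z z0 z1 => h2 z (by linarith) z1
  have e1 : T' a < 0 := by nlinarith
  have e2 : 0 < T' b := by nlinarith
  have e3 : 0 ≤ T'' c := by nlinarith
  have e4 := hup c d (by linarith) (by linarith) d1 e3
  nlinarith

theorem right_nonneg {T T' T'' : ℝ → ℝ} {m u : ℝ} (hm0 : 0 < m) (h : m < u) (h1 : u < 1)
    (d0 : Continuous T) (d1 : ∀ y, 0 < y → y < 1 → HasDerivAt T (T' y) y)
    (d2 : ∀ y, 0 < y → y < 1 → HasDerivAt T' (T'' y) y) (t0 : T 0 = 0) (tm : T m = 0)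
    (tm' : T' m = 0) (t1 : 0 ≤ T 1)
    (mono : ∀ y z, 0 < y → y < 1 → y * (1 - y) ≤ z * (1 - z) → T'' y ≤ T'' z) : 0 ≤ T u := by
  by_contra hn
  rw [not_le] at hn
  obtain ⟨a, a0, a1, ha⟩ := mvt hm0 d0.continuousOn fun z z0 z1 => d1 z z0 (by linarith)
  obtain ⟨b, b0, b1, hb⟩ := mvt h d0.continuousOn fun z z0 z1 => d1 z (by linarith) (by linarith)
  obtain ⟨e, e0, e1, he⟩ := mvt h1 d0.continuousOn fun z z0 z1 => d1 z (by linarith) z1
  obtain ⟨x, x0, x1, hx⟩ := mvt' a1 fun z z0 z1 => d2 z (by linarith) (by linarith)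
  obtain ⟨y, y0, y1, hy⟩ := mvt' b0 fun z z0 z1 => d2 z (by linarith) (by linarith)
  obtain ⟨z, z0, z1, hz⟩ := mvt' (b1.trans e0) fun z z0 z1 => d2 z (by linarith) (by linarith)
  have f1 : T' a = 0 := by
    rw [tm, t0, sub_self, sub_zero] at ha
    exact (mul_eq_zero.1 ha).resolve_right hm0.ne'
  have f2 : T' b < 0 := neg_of_mul_neg_left (by linarith : T' b * (u - m) < 0) (by linarith)
  have f3 : 0 < T' e := pos_of_mul_pos_right' (by linarith : 0 < T' e * (1 - u)) (by linarith)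
  have g1 : 0 ≤ T'' x := nonneg_of_mul_nonneg_left (by linarith : 0 ≤ T'' x * (m - a)) (by linarith)
  have g2 : T'' y < 0 := neg_of_mul_neg_left (by linarith : T'' y * (b - m) < 0) (by linarith)
  have g3 : 0 < T'' z := pos_of_mul_pos_right' (by linarith : 0 < T'' z * (e - b)) (by linarith)
  rcases le_total y (1 / 2) with hh | hh
  · linarith [mono x y (by linarith) (by linarith) (by nlinarith)]
  · linarith [mono z y (by linarith) (by linarith) (by nlinarith)]

theorem ent_k1 {m : ℝ} (hm0 : 0 < m) (hm : m ≤ 1 / 2) : m * log 2 ≤ -(1 - m) * log (1 - m) := by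
  have := concaveOn_negMulLog.2 (show (1 / 2 : ℝ) ∈ Set.Ici 0 by norm_num)
    (show (1 : ℝ) ∈ Set.Ici 0 by norm_num) (show 0 ≤ 2 * m by linarith)
    (show 0 ≤ 1 - 2 * m by linarith) (by ring)
  simp only [smul_eq_mul, negMulLog, log_one, one_div, log_inv] at this
  rw [show 2 * m * 2⁻¹ + (1 - 2 * m) * 1 = 1 - m by ring] at this
  linarith

theorem ent_quad {m u : ℝ} (hm0 : 0 < m) (hm : m ≤ 1 / 2) (h0 : 0 < u) (h1 : u < 1) :
    binEntropy m + (log (1 - m) - log m) * (u - m) - -log (1 - m) / m ^ 2 * (u - m) ^ 2 ≤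
      binEntropy u := by
  set c := -log (1 - m) / m ^ 2 with hc
  have hcm : c * m ^ 2 = -log (1 - m) := by rw [hc, div_mul_cancel₀ _ (by positivity)]
  set T : ℝ → ℝ := fun u => binEntropy u - binEntropy m - (log (1 - m) - log m) * (u - m) +
    c * (u - m) ^ 2 with hT
  set T' : ℝ → ℝ := fun u => log (1 - u) - log u - (log (1 - m) - log m) + c * (2 * (u - m))
  set T'' : ℝ → ℝ := fun u => 2 * c - 1 / (u * (1 - u)) with hT''
  have d0 : Continuous T := by fun_prop
  have d1 : ∀ y, 0 < y → y < 1 → HasDerivAt T (T' y) y := fun y y0 y1 => by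
    have := (((hasDerivAt_binEntropy y0.ne' y1.ne).sub_const (binEntropy m)).sub
      (((hasDerivAt_id' y).sub_const m).const_mul (log (1 - m) - log m))).add
      ((((hasDerivAt_id' y).sub_const m).pow 2).const_mul c)
    refine HasDerivAt.congr_deriv this ?_
    simp [T']
  have d2 : ∀ y, 0 < y → y < 1 → HasDerivAt T' (T'' y) y := fun y y0 y1 => by
    have b : 1 - y ≠ 0 := by linarith
    have := (((((hasDerivAt_id' y).const_sub 1).log b).sub (hasDerivAt_log y0.ne')).sub_const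
      (log (1 - m) - log m)).add ((((hasDerivAt_id' y).sub_const m).const_mul 2).const_mul c)
    refine HasDerivAt.congr_deriv this ?_
    simp only [hT'']
    field_simp
    ring
  have hb : binEntropy m = -m * log m - (1 - m) * log (1 - m) := by
    rw [binEntropy_eq_negMulLog_add_negMulLog_one_sub, negMulLog, negMulLog]
    ring
  have t0 : T 0 = 0 := by
    simp only [hT, binEntropy_zero, hb]
    linarith
  have tm : T m = 0 := by simp [hT]
  have tm' : T' m = 0 := by simp [T']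
  have mono : ∀ y z, 0 < y → y < 1 → y * (1 - y) ≤ z * (1 - z) → T'' y ≤ T'' z := by
    intro y z y0 y1 h
    have := one_div_le_one_div_of_le (mul_pos y0 (sub_pos.2 y1)) h
    simp only [hT'']
    linarith
  suffices 0 ≤ T u by
    simp only [hT] at this
    linarith
  rcases lt_trichotomy u m with h | h | h
  · exact left_nonneg d0.continuousOn (fun y y0 y1 => d1 y y0 (by linarith))
      (fun y y0 y1 => d2 y y0 (by linarith)) t0.ge tm tm'
      (fun y z y0 yz z1 h => h.trans (mono y z y0 (by linarith) (by nlinarith))) h0 h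
  · rw [h, tm]
  have t1 : 0 ≤ T 1 := by
    have k1 := ent_k1 hm0 hm
    have k2 : -m * log m ≤ (1 - m) * log 2 := by
      have a := log_le_sub_one_of_pos (x := (2 * m)⁻¹) (by positivity)
      rw [log_inv, log_mul (by norm_num) hm0.ne'] at a
      have b := mul_le_mul_of_nonneg_left a hm0.le
      rw [mul_sub, show m * (2 * m)⁻¹ = 1 / 2 by field_simp] at b
      nlinarith [log_two_gt_d9]
    have k3 : 0 ≤ (log m + c * (1 - m) ^ 2) * m ^ 2 := by
      have : (log m + c * (1 - m) ^ 2) * m ^ 2 =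
          m * (m * log m) + (1 - m) * (-(1 - m) * log (1 - m)) := by
        rw [add_mul, mul_right_comm c, hcm]
        ring
      rw [this]
      nlinarith
    have k4 := nonneg_of_mul_nonneg_left k3 (by positivity : 0 < m ^ 2)
    simp only [hT, binEntropy_one, hb]
    linarith
  exact right_nonneg hm0 h h1 d0 d1 d2 t0 tm tm' t1 mono

theorem chi_tangent {r l w x x1 : ℝ} (hr0 : 0 < r) (hr1 : r < 1) (hl : 0 ≤ l) (hw : 0 ≤ w)
    (hx0 : 0 < x) (hx : x ≤ x1) (hx1 : x1 < 1) (hg : w * x ^ 2 = l * pp x - pp (r * x)) :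
    l * ath x - r * ath (r * x) - 2 * w * x ≤ l * ath x1 - r * ath (r * x1) - 2 * w * x1 ∧
    ∀ y, 0 ≤ y → y < 1 → pp (r * x1) - l * pp x1 + w * x1 ^ 2 +
      (l * ath x1 - r * ath (r * x1) - 2 * w * x1) * y ≤ l * ph y - ph (r * y) - w * y ^ 2 := by
  set C : ℝ → ℝ := fun y => l * ph y - ph (r * y) - w * y ^ 2 with hC
  set C' : ℝ → ℝ := fun y => l * ath y - r * ath (r * y) - 2 * w * y with hC'
  set C'' : ℝ → ℝ := fun y => l * (1 / (1 - y ^ 2)) - r ^ 2 * (1 / (1 - (r * y) ^ 2)) - 2 * w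
    with hC''
  have d1 : ∀ y, 0 ≤ y → y < 1 → HasDerivAt C (C' y) y := fun y y0 y1 => by
    have := (((hasDerivAt_ph (x := y) (by linarith) y1).const_mul l).sub
      ((hasDerivAt_ph (x := r * y) (by nlinarith) (by nlinarith)).comp y
        ((hasDerivAt_id' y).const_mul r))).sub (((hasDerivAt_id' y).pow 2).const_mul w)
    refine HasDerivAt.congr_deriv this ?_
    simp only [hC']
    norm_num
    ring
  have d2 : ∀ y, 0 ≤ y → y < 1 → HasDerivAt C' (C'' y) y := fun y y0 y1 => by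
    have := (((hasDerivAt_ath (x := y) (by linarith) y1).const_mul l).sub
      (((hasDerivAt_ath (x := r * y) (by nlinarith) (by nlinarith)).comp y
        ((hasDerivAt_id' y).const_mul r)).const_mul r)).sub ((hasDerivAt_id' y).const_mul (2 * w))
    refine HasDerivAt.congr_deriv this ?_
    simp only [hC'']
    ring
  have d3 : ∀ y, 0 ≤ y → y < 1 → HasDerivAt (fun y => C y - y * C' y) (-y * C'' y) y :=
    fun y y0 y1 => by
    refine HasDerivAt.congr_deriv ((d1 y y0 y1).sub ((hasDerivAt_id' y).mul (d2 y y0 y1))) ?_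
    ring
  have g : ∀ y, 0 ≤ y → y < 1 → C y - y * C' y = pp (r * y) - l * pp y + w * y ^ 2 :=
    fun y y0 y1 => by
    have a := ph_sub (x := y) (by linarith) y1
    have b := ph_sub (x := r * y) (by nlinarith) (by nlinarith)
    simp only [hC, hC']
    linear_combination l * a - b
  have N : ∀ y, 0 ≤ y → y < 1 → (0 ≤ C'' y ↔ 0 ≤ l * (1 - r ^ 2 * y ^ 2) - r ^ 2 * (1 - y ^ 2) -
      2 * w * (1 - y ^ 2) * (1 - r ^ 2 * y ^ 2)) := fun y y0 y1 => by
    have a : 0 < 1 - y ^ 2 := by nlinarith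
    have b : 0 < 1 - r ^ 2 * y ^ 2 := by nlinarith [sq_nonneg y, sq_nonneg r]
    rw [← mul_nonneg_iff_of_pos_right (mul_pos a b)]
    simp only [hC'', mul_pow]
    apply iff_of_eq
    congr 1
    have a' := mul_one_div_cancel a.ne'
    have b' := mul_one_div_cancel b.ne'
    linear_combination l * (1 - r ^ 2 * y ^ 2) * a' - r ^ 2 * (1 - y ^ 2) * b'
  have up : ∀ y z, 0 ≤ y → y ≤ z → z < 1 → 0 ≤ C'' y → 0 ≤ C'' z := fun y z y0 yz z1 h => by
    rw [N z (by linarith) z1]
    rw [N y y0 (by linarith)] at h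
    have a : 0 < 1 - y ^ 2 := by nlinarith
    have b : 0 ≤ 1 - z ^ 2 := by nlinarith
    have c : 0 ≤ z ^ 2 - y ^ 2 := by nlinarith
    have d : 0 ≤ 1 - r ^ 2 := by nlinarith
    refine nonneg_of_mul_nonneg_left ?_ a
    have k1 := add_nonneg (mul_nonneg h b) (mul_nonneg (mul_nonneg hl d) c)
    have k2 := mul_nonneg (mul_nonneg (mul_nonneg (mul_nonneg hw (sq_nonneg r)) c) b) a.le
    linarith
  have cx : 0 ≤ C'' x := by
    obtain ⟨c, c0, c1, hc⟩ := mvt' hx0 fun z z0 z1 => d3 z z0 (by linarith)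
    rw [g x hx0.le (by linarith)] at hc
    have : C 0 = 0 := by simp [hC]
    refine up c x c0.le c1.le (by linarith) ?_
    have e : c * x * C'' c = 0 := by linarith
    exact ((mul_eq_zero.1 e).resolve_left (by positivity)).ge
  have cz : ∀ z, x ≤ z → z < 1 → 0 ≤ C'' z := fun z z0 z1 => up x z hx0.le z0 z1 cx
  have gx : C x1 - x1 * C' x1 ≤ 0 := by
    rcases hx.eq_or_lt with h | h
    · rw [← h, g x hx0.le (by linarith)]
      linarith
    obtain ⟨c, c0, c1, hc⟩ := mvt' h fun z z0 z1 => d3 z (by linarith) (by linarith)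
    rw [g x hx0.le (by linarith)] at hc
    have := mul_nonneg (mul_nonneg (cz c c0.le (by linarith)) (sub_pos.2 h).le)
      (show 0 ≤ c by linarith)
    linarith
  refine ⟨?_, fun y y0 y1 => ?_⟩
  · rcases hx.eq_or_lt with h | h
    · rw [h]
    obtain ⟨c, c0, c1, hc⟩ := mvt' h fun z z0 z1 => d2 z (by linarith) (by linarith)
    have := mul_nonneg (cz c c0.le (by linarith)) (sub_pos.2 h).le
    change C' x ≤ C' x1
    linarith
  rw [← g x1 (by linarith) hx1]
  change C x1 - x1 * C' x1 + C' x1 * y ≤ C y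
  have e1 : ∀ y, 0 ≤ y → y < 1 → HasDerivAt (fun y => C y - (C x1 - x1 * C' x1 + C' x1 * y))
      (C' y - C' x1) y := fun y y0 y1 => by
    refine HasDerivAt.congr_deriv ((d1 y y0 y1).sub
      (((hasDerivAt_id' y).const_mul (C' x1)).const_add _)) ?_
    ring
  have e2 : ∀ y, 0 ≤ y → y < 1 → HasDerivAt (fun y => C' y - C' x1) (C'' y) y :=
    fun y y0 y1 => (d2 y y0 y1).sub_const _
  have c0 : C 0 = 0 := by simp [hC]
  rcases y0.eq_or_lt with h0 | h0
  · rw [← h0, c0]
    linarith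
  rcases lt_trichotomy y x1 with h | h | h
  · have := left_nonneg (x := x1) (y := y) (fun z hz => (e1 z hz.1
      (by linarith [hz.2])).continuousAt.continuousWithinAt)
      (fun z z0 z1 => e1 z z0.le (by linarith)) (fun z z0 z1 => e2 z z0.le (by linarith))
      (by simp only [c0]; linarith) (by ring) (by ring)
      (fun y z y0 yz z1 => up y z y0.le yz.le (by linarith)) h0 h
    linarith
  · rw [h]
    linarith
  · obtain ⟨a, a0, a1, ha⟩ := mvt' h fun z z0 z1 => e1 z (by linarith) (by linarith)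
    obtain ⟨b, b0, b1, hb⟩ := mvt' a0 fun z z0 z1 => e2 z (by linarith) (by linarith)
    have k1 := mul_nonneg (cz b (by linarith) (by linarith)) (sub_pos.2 a0).le
    have k2 := mul_nonneg (show 0 ≤ C' a - C' x1 by linarith) (sub_pos.2 h).le
    linarith

theorem pp_mono {x y : ℝ} (h0 : 0 ≤ x) (h : x ≤ y) (h1 : y < 1) : pp x ≤ pp y := by
  have := log_le_log (x := 1 - y ^ 2) (y := 1 - x ^ 2) (by nlinarith) (by nlinarith)
  simp only [pp]
  linarith

theorem pp_nonneg {x : ℝ} (h0 : 0 ≤ x) (h1 : x < 1) : 0 ≤ pp x := by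
  simpa [pp] using pp_mono le_rfl h0 h1

theorem Hh_abs (u d : ℝ) : Hh u |d| = Hh u d := by
  rcases abs_choice d with h | h <;> rw [h]
  simp only [Hh, neg_div, sub_neg_eq_add, ← sub_eq_add_neg, add_comm]

theorem ent_eq (m : ℝ) : binEntropy m = -m * log m - (1 - m) * log (1 - m) := by
  rw [binEntropy_eq_negMulLog_add_negMulLog_one_sub, negMulLog, negMulLog]
  ring

set_option maxHeartbeats 1000000 in
theorem cert {r m dl : ℝ} (hr0 : 0 < r) (hr1 : r < 1) (hm : m ≤ 1 / 2) (hd0 : 0 < dl)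
    (hd : dl < 2 * m) : ∃ l A g : ℝ, 0 ≤ l ∧ l ≤ 1 ∧
      l * (-log (1 - m) + pp (dl / (2 * (1 - m)))) =
        -log (1 - m) + pp (r * (dl / (2 * (1 - m)))) ∧
      A * m + g * dl = Hh m (r * dl) - l * Hh m dl ∧ (m = 1 / 2 → A = 0) ∧
      ∀ u d, |d| < 2 * u → |d| < 2 * (1 - u) → A * u + g * d + l * Hh u d ≤ Hh u (r * d) := by
  have hm0 : 0 < m := by linarith
  have hm1 : 0 < 1 - m := by linarith
  have hH : ∀ u d, 0 ≤ d → d < 2 * u → d < 2 * (1 - u) → Hh u (r * d) = binEntropy u -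
      u * ph (r * (d / (2 * u))) - (1 - u) * ph (r * (d / (2 * (1 - u)))) := fun u d d0 d1 d2 => by
    have : |r * d| ≤ d := by
      rw [abs_of_nonneg (by positivity)]
      nlinarith
    rw [Hh_eq (by linarith) (by linarith), mul_div_assoc, mul_div_assoc]
  have h1 := hH m dl hd0.le hd (by linarith)
  have h2 := Hh_eq (m := m) (d := dl) (by rwa [abs_of_pos hd0]) (by rw [abs_of_pos hd0]; linarith)
  have hq := fun u => ent_quad (u := u) hm0 hm
  have hcm : -log (1 - m) / m ^ 2 * m ^ 2 = -log (1 - m) := div_mul_cancel₀ _ (by positivity)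
  have k1 := ent_k1 hm0 hm
  have hb := ent_eq m
  have hK : 0 < -log (1 - m) := neg_pos.2 (log_neg hm1 (by linarith))
  have hsym : m = 1 / 2 → log (1 - m) = log m ∧ dl / (2 * m) = dl / (2 * (1 - m)) := fun h => by
    rw [h]
    norm_num
  have ex : (1 - m) * (dl / (2 * (1 - m))) = dl / 2 := by field_simp
  have ex1 : m * (dl / (2 * m)) = dl / 2 := by field_simp
  generalize -log (1 - m) / m ^ 2 = c at hq hcm
  generalize dl / (2 * (1 - m)) = x at *
  generalize dl / (2 * m) = x1 at *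
  have hx0 : 0 < x := pos_of_mul_pos_right' (b := 1 - m) (by linarith) hm1
  have hx1 : x1 < 1 := by nlinarith
  have hx : x ≤ x1 := by nlinarith
  have hP := pp_mono (x := r * x) (y := x) (by positivity) (by nlinarith) (by linarith)
  have hQ := pp_nonneg (x := r * x) (by positivity) (by nlinarith)
  obtain ⟨l, hl⟩ : ∃ l, l * (-log (1 - m) + pp x) = -log (1 - m) + pp (r * x) :=
    ⟨_, div_mul_cancel₀ _ (by linarith)⟩
  have l0 : 0 ≤ l := nonneg_of_mul_nonneg_left (b := -log (1 - m) + pp x) (by linarith)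
    (by linarith)
  have l1 : 0 ≤ 1 - l := nonneg_of_mul_nonneg_left (b := -log (1 - m) + pp x) (by linarith)
    (by linarith)
  obtain ⟨w, hw⟩ : ∃ w, w * x ^ 2 = (1 - l) * -log (1 - m) := ⟨_, div_mul_cancel₀ _ (by positivity)⟩
  have w0 : 0 ≤ w := nonneg_of_mul_nonneg_left (b := x ^ 2) (by rw [hw]; positivity)
    (by positivity)
  have w1 : w * x * x1 = (1 - l) * c * m * (1 - m) := mul_right_cancel₀ hm0.ne' (by
    linear_combination (1 - m) * hw - (1 - l) * (1 - m) * hcm + w * x * (ex1 - ex))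
  have w2 : w * x1 ^ 2 = (1 - l) * c * (1 - m) ^ 2 := mul_right_cancel₀ hm0.ne' (by
    linear_combination (1 - m) * w1 + w * x1 * (ex1 - ex))
  have hg : w * x ^ 2 = l * pp x - pp (r * x) := by linarith
  obtain ⟨s1, t1⟩ := chi_tangent hr0 hr1 l0 w0 hx0 hx hx1 hg
  obtain ⟨-, t0⟩ := chi_tangent hr0 hr1 l0 w0 hx0 le_rfl (by linarith) hg
  have a0 := ph_sub (x := x) (by linarith) (by linarith)
  have a1 := ph_sub (x := x1) (by linarith) hx1
  have b0 := ph_sub (x := r * x) (by nlinarith) (by nlinarith)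
  have b1 := ph_sub (x := r * x1) (by nlinarith) (by nlinarith)
  have g0 : 0 ≤ (l * ath x1 - r * ath (r * x1) + (l * ath x - r * ath (r * x))) / 2 := by
    have c1 := psi_ge_sum 0 hr0.le hr1.le hx0.le (by linarith)
    have c2 := ph_nonneg hx0.le (by linarith)
    have c3 := ph_le_log (x := x) (by linarith) (by linarith)
    have c4 : log 2 ≤ c * m * (1 - m) := le_of_mul_le_mul_right (a := m)
      (by linear_combination k1 - (1 - m) * hcm) hm0
    have c5 : ph (r * x) ≤ ph x := by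
      simp only [Finset.range_zero, Finset.sum_empty] at c1
      nlinarith [mul_nonneg c2 (show 0 ≤ 1 - r ^ 2 by nlinarith)]
    have c6 := mul_nonneg l1 (show 0 ≤ c * m * (1 - m) - ph x by linarith)
    have c7 := mul_le_mul_of_nonneg_right s1 hx0.le
    refine nonneg_of_mul_nonneg_left ?_ hx0
    linarith [congrArg (HMul.hMul l) a0]
  refine ⟨l, (1 - l) * (log (1 - m) - log m) + (pp (r * x1) - l * pp x1) + (1 - l) * -log (1 - m),
    (l * ath x1 - r * ath (r * x1) + (l * ath x - r * ath (r * x))) / 2, l0, by linarith, hl, ?_,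
    fun h => ?_, fun u d d1 d2 => ?_⟩
  · rw [h1, h2, hb]
    linarith [congrArg (HMul.hMul m) b1, congrArg (HMul.hMul (l * m)) a1,
      congrArg (HMul.hMul (1 - m)) b0, congrArg (HMul.hMul (l * (1 - m))) a0,
      congrArg (HMul.hMul (1 - m)) hl, congrArg (HMul.hMul (l * ath x1 - r * ath (r * x1))) ex1,
      congrArg (HMul.hMul (l * ath x - r * ath (r * x))) ex]
  · obtain ⟨e1, e2⟩ := hsym h
    rw [e2]
    linear_combination (1 - l) * e1 - hl
  have u0 : 0 < u := by linarith [abs_nonneg d]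
  have u1 : 0 < 1 - u := by linarith [abs_nonneg d]
  have f1 := mul_le_mul_of_nonneg_left (le_abs_self d) g0
  rw [← Hh_abs u (r * d), abs_mul, abs_of_pos hr0, hH u _ (abs_nonneg d) d1 d2, Hh_eq d1 d2,
    ← ph_abs (d / (2 * u)), ← ph_abs (d / (2 * (1 - u))), abs_div, abs_div,
    abs_of_pos (by linarith : 0 < 2 * u), abs_of_pos (by linarith : 0 < 2 * (1 - u))]
  have ey : (1 - u) * (|d| / (2 * (1 - u))) = |d| / 2 := by field_simp
  have ey1 : u * (|d| / (2 * u)) = |d| / 2 := by field_simp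
  have f2 := mul_le_mul_of_nonneg_left (t1 (|d| / (2 * u)) (by positivity)
    (by rwa [div_lt_one (by linarith)])) u0.le
  have f3 := mul_le_mul_of_nonneg_left (t0 (|d| / (2 * (1 - u))) (by positivity)
    (by rwa [div_lt_one (by linarith)])) u1.le
  have f4 := mul_le_mul_of_nonneg_left (hq u u0 (by linarith)) l1
  generalize |d| / (2 * (1 - u)) = y at *
  generalize |d| / (2 * u) = y1 at *
  have f5 := mul_nonneg (mul_nonneg w0 u0.le) (sq_nonneg (y1 - (x + x1) * (1 - u)))
  have f6 := mul_nonneg (mul_nonneg w0 u1.le) (sq_nonneg (y - (x + x1) * u))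
  have w3 : w * (x + x1) ^ 2 = (1 - l) * c := by
    linear_combination hw + 2 * w1 + w2 - (1 - l) * hcm
  rw [hb] at f4
  linarith [congrArg (HMul.hMul (1 - u)) hg, congrArg (HMul.hMul (u * (1 - u))) w3,
    congrArg (HMul.hMul u) w2, congrArg (HMul.hMul ((1 - l) * (1 - u))) hcm,
    congrArg (HMul.hMul (l * ath x1 - r * ath (r * x1) - 2 * w * x1 +
      2 * w * (x + x1) * (1 - u))) ey1,
    congrArg (HMul.hMul (l * ath x - r * ath (r * x) - 2 * w * x + 2 * w * (x + x1) * u)) ey,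
    congrArg (HMul.hMul ((1 - l) * u)) hcm]

end Vale.Agent.P322
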