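import Vale.Agent.P322.CKLinkB

/-!
Criteria D and A: large differences.
-/

namespace Vale.Agent.P322

open Real Finset

theorem coreD {Kb KP T1 T2 c Lr L Cp N a : ℝ} (c0 : 0 ≤ c) (K0 : 0 ≤ Kb) (KP0 : 0 ≤ KP)
    (H0 : Kb ≤ N) (hL : L ≤ Lr) (h1 : 2 * T1 ≤ c * (Lr + Cp)) (h2 : c * N ≤ T2)
    (h3 : Lr + a ≤ 2 * KP) (H : Kb * Cp ≤ L * (N - Kb) + a * N) : Kb * T1 ≤ KP * T2 := by
  have f1 := mul_le_mul_of_nonneg_left h1 K0
  have f2 := mul_le_mul_of_nonneg_left h2 KP0
  have f3 := mul_le_mul_of_nonneg_right h3 (mul_nonneg c0 (K0.trans H0))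
  have f4 := mul_le_mul_of_nonneg_left H c0
  have f5 := mul_le_mul_of_nonneg_right hL (mul_nonneg c0 (sub_nonneg.2 H0))
  linarith

set_option maxHeartbeats 1000000 in
theorem linkD {e be z kl L zl t al oz s d iz zz q mh x x1 N Kb : ℝ} (he0 : 0 < e)
    (he1 : e < 1 / 2) (hb0 : 0 < be) (hb : be ≤ 1 / 3) (hz0 : 0 < z) (hz : z ≤ 1)
    (ht : t = (1 - 2 * e) * (1 - 2 * e)) (hal : al = z * be) (hoz : oz = 1 - z) (hs : s = be * oz)
    (hd : d = 1 - be * (1 + z)) (hiz : iz = 1 / (1 + z)) (hzz : zz = 1 - iz)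
    (hq : q = s * oz * iz) (hmh : mh = 2 * (1 - be * (1 - zz * oz)))
    (hx : x = 1 - 2 * be / (1 + s)) (hx1 : x1 = 1 - 2 * al / (1 - s)) (hkl : t * kl ≤ kap e)
    (hL : L ≤ -log be) (hzl : -z * log z ≤ zl)
    (hN : N = max (af t x + zz * (af t x1 - af t x) - q * max (phiHi (s * s) - kl) 0) 0)
    (hKb : Kb = 1 / 2 * log (4 / ((1 + s) * (1 + s) - t * (d * d)))) (H0 : Kb ≤ N)
    (H : Kb * max (1 + zl * iz - ((z * kLo al + kLo be) * iz + 2 * kl * mh)) 0 ≤
      L * (N - Kb) + al * (1 + al * (1 / 2)) * N) : Step e al (1 - be) := by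
  revert H0 H hN hKb
  have a0 : 0 < al := hal ▸ mul_pos hz0 hb0
  have a1 : al ≤ be := by nlinarith
  have es : s = be - al := by rw [hs, hoz, hal]; ring
  have ed : d = 1 - be - al := by rw [hd, hal]; ring
  have s0 : 0 ≤ s := by linarith
  have s1 : 0 < 1 - s := by linarith
  have d0 : 0 < d := by linarith
  have ei : (1 + z) * iz = 1 := by rw [hiz, mul_one_div_cancel (by positivity)]
  have i0 : 0 < iz := by rw [hiz]; positivity
  have ex : (1 + s) * x = d := by
    rw [hx, mul_sub, mul_div_cancel₀ _ (by positivity)]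
    linarith
  have ex1 : (1 - s) * x1 = d := by
    rw [hx1, mul_sub, mul_div_cancel₀ _ s1.ne']
    linarith
  have x0 : 0 < x := pos_of_mul_pos_right' (b := 1 + s) (by linarith) (by linarith)
  have x10 : 0 < x1 := pos_of_mul_pos_right' (b := 1 - s) (by linarith) s1
  have xl : x < 1 := lt_of_mul_lt_mul_left (a := 1 + s) (by linarith) (by linarith)
  have x1l : x1 < 1 := lt_of_mul_lt_mul_left (a := 1 - s) (by linarith) s1.le
  have r0 : 0 < 1 - 2 * e := by linarith
  have r1 : 1 - 2 * e < 1 := by linarith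
  have t0 : 0 < t := ht ▸ mul_pos r0 r0
  have t1 : t < 1 := by nlinarith
  have q0 : 0 ≤ q := by
    have : 0 ≤ oz := by linarith
    rw [hq]
    positivity
  have eq : be * (1 + z) * q = s * s := by
    rw [hq]
    linear_combination be * s * oz * ei - s * hs
  have emh : be * (1 + z) * mh = 2 * (al * (1 - al) + be * (1 - be)) := by
    rw [hmh, hzz, hoz, hal]
    linear_combination -2 * be * be * (1 - z) * ei
  clear hx hx1 hiz hq hmh hs hoz hd
  have g0 : 0 < 1 - t * (x * x) := by nlinarith [mul_pos x0 x0]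
  have g1 : 0 < 1 - x ^ 2 := by nlinarith
  have h2 := Hh_pair (m := (1 - s) / 2) (x := x) (by linarith) (by linarith) x10 x1l r0.le r1.le
    (by rw [eq_div_iff (by linarith)]; linarith)
  rw [show 2 * ((1 - s) / 2) * x1 = d by linarith] at h2
  have m1 : (1 - s) / 2 - d / 2 = al := by linarith
  have m2 : (1 - s) / 2 + d / 2 = 1 - be := by linarith
  have m3 : d / (2 * (1 - (1 - s) / 2)) = x := by
    rw [div_eq_iff (by linarith)]
    linarith
  have m4 : binEntropy ((1 - s) / 2) = log 2 - ph s := ent_eq_ph (by linarith) (by linarith)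
  have l2 : 2 * log ((1 + s) / 2) = log ((1 + s) * (1 + s) / 4) := by
    rw [show (1 + s) * (1 + s) / 4 = ((1 + s) / 2) ^ 2 by ring, log_pow]
    norm_num
  have eK : -log ((1 + s) / 2) + pp ((1 - 2 * e) * x) =
      1 / 2 * log (4 / ((1 + s) * (1 + s) - t * (d * d))) := by
    rw [← ex, show (1 + s) * (1 + s) - t * ((1 + s) * x * ((1 + s) * x)) =
      (1 + s) * (1 + s) * (1 - t * (x * x)) by ring, ← inv_div _ 4, log_inv, mul_div_right_comm,
      log_mul (by positivity) g0.ne', ← l2, pp,
      show ((1 - 2 * e) * x) ^ 2 = t * (x * x) by rw [ht]; ring]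
    ring
  have eP : 2 * (-log ((1 + s) / 2) + pp x) = -log be - log (1 - al) := by
    have : (1 + s) * (1 + s) / 4 * (1 - x ^ 2) = be * (1 - al) := by
      rw [es] at ex ⊢
      rw [ed] at ex
      linear_combination (-((1 + (be - al)) * x + (1 - be - al)) / 4) * ex
    have h := congrArg log this
    rw [log_mul (by positivity) g1.ne', log_mul hb0.ne' (by linarith), ← l2] at h
    rw [pp]
    linarith only [h]
  have K0 : 0 < -log ((1 + s) / 2) := neg_pos.2 (log_neg (by positivity) (by linarith))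
  have Q0 := pp_nonneg (x := (1 - 2 * e) * x) (by positivity) (by nlinarith)
  have P0 := pp_nonneg x0.le xl
  have s2 : 4 * e * (1 - e) = 1 - t := by rw [ht]; ring
  have al1 : al < 1 := by linarith
  have be1 : be < 1 := by linarith
  have k1 : 2 * ((binEntropy al + binEntropy be) / 2 - ((1 - t) * ((binEntropy al +
      binEntropy be) / 2) + kap e * (4 * ((1 - s) / 2) * ((1 + s) / 2) - d ^ 2))) ≤
      t * (be * (1 + z)) * (-log be +
        (1 + zl * iz - ((z * kLo al + kLo be) * iz + 2 * kl * mh))) := by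
    have f1 := mul_le_mul_of_nonneg_left (ent_hi a0.le al1) t0.le
    have f2 := mul_le_mul_of_nonneg_left (ent_hi hb0.le be1) t0.le
    have f3 := mul_le_mul_of_nonneg_right hkl (show 0 ≤ 2 * (al * (1 - al) + be * (1 - be)) from
      mul_nonneg zero_le_two (add_nonneg (mul_nonneg a0.le (sub_pos.2 al1).le)
        (mul_nonneg hb0.le (sub_pos.2 be1).le)))
    have f4 := mul_le_mul_of_nonneg_left hzl (mul_pos t0 hb0).le
    have f5 : log al = log z + log be := by rw [hal, log_mul hz0.ne' hb0.ne']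
    have f6 : 4 * ((1 - s) / 2) * ((1 + s) / 2) - d ^ 2 = 2 * (al * (1 - al) + be * (1 - be)) := by
      rw [es, ed]
      ring
    rw [f6]
    rw [f5] at f1
    linarith only [f1, f2, f3, f4, congrArg (HMul.hMul (t * kl)) emh,
      congrArg (HMul.hMul (t * be * (zl - z * kLo al - kLo be))) ei,
      congrArg (HMul.hMul (t * (-log z - log be + 1 - kLo al))) hal]
  have k2 : t * (be * (1 + z)) * (af t x + zz * (af t x1 - af t x) -
      q * max (phiHi (s * s) - kl) 0) ≤ log 2 - ph s - (1 - s) / 2 * ph ((1 - 2 * e) * x1) -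
      (1 + s) / 2 * ph ((1 - 2 * e) * x) -
      ((1 - t) * (log 2 - ph s) + kap e * (4 * ((1 - s) / 2) * ((1 + s) / 2))) := by
    have f1 := mul_le_mul_of_nonneg_left (af_lo r0.le r1 x10.le x1l.le) s1.le
    have f2 := mul_le_mul_of_nonneg_left (af_lo r0.le r1 x0.le xl.le) (show 0 ≤ 1 + s by linarith)
    have f3 := mul_le_mul_of_nonneg_left (ph_hi s0 (by linarith)) t0.le
    have f4 := mul_le_mul_of_nonneg_right hkl (mul_self_nonneg s)
    have f5 := mul_le_mul_of_nonneg_left (le_max_left (phiHi (s * s) - kl) 0)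
      (mul_nonneg t0.le (mul_self_nonneg s))
    have f6 := kap_eq he0 (by linarith)
    have f7 : (1 - s) * (1 - x1) = 2 * (z * be) := by linarith
    have f8 : (1 + s) * (1 - x) = 2 * be := by linarith
    rw [sq] at f6
    rw [← ht] at f1 f2 f6
    rw [hzz]
    linarith only [f1, f2, f3, f4, f5, f6, congrArg (HMul.hMul (t * af t x1)) f7,
      congrArg (HMul.hMul (t * af t x)) f8,
      congrArg (HMul.hMul (t * max (phiHi (s * s) - kl) 0)) eq,
      congrArg (HMul.hMul (t * be * (af t x1 - af t x))) ei]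
  have k3 : -log be + al * (1 + al * (1 / 2)) ≤ 2 * (-log ((1 + s) / 2) + pp x) := by
    have := nlog_ge_sum 2 a0.le al1
    simp only [sum_range_succ, sum_range_zero] at this
    push_cast at this
    linarith only [this, eP]
  have := stepV (m := (1 - s) / 2) (d := d) he0 he1 (by linarith) d0 (by linarith)
  rw [m3, h2, Hh, m1, m2, binEntropy_one_sub, BB, m4, show 1 - (1 - s) / 2 = (1 + s) / 2 by ring,
    s2, eK] at this
  intro hN hKb H0 H
  rw [← hKb] at eK this
  have n0 : 0 < N := by linarith only [K0, Q0, eK, H0]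
  refine this (coreD (c := t * (be * (1 + z))) (by positivity) (by linarith only [K0, Q0, eK])
    (by linarith only [K0, P0]) H0 hL (k1.trans (mul_le_mul_of_nonneg_left
      (add_le_add le_rfl (le_max_left _ _)) (by positivity))) ?_ k3 H)
  rw [hN, lt_max_iff, or_iff_left (lt_irrefl 0)] at n0
  rwa [hN, max_eq_left n0.le]

theorem eta_incr {e n d : ℝ} (he0 : 0 < e) (he1 : e < 1) (hn : 0 < n) (hd : 0 < d) :
    d * binEntropy e + n * (log d + log (d + 2 * n) - log (e * d + n / 2) -
      log ((1 - e) * d + n / 2)) ≤ eta (n + e * d) (n + d - e * d) := by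
  have a : 0 < e * d := by positivity
  have b : 0 < (1 - e) * d := mul_pos (sub_pos.2 he1) hd
  have f1 := Dd_le (c := e * d + n / 2) (h := n / 2) (by linarith) (by linarith)
  have f2 := Dd_le (c := (1 - e) * d + n / 2) (h := n / 2) (by linarith) (by linarith)
  simp only [Dd, add_sub_cancel_right] at f1 f2
  rw [show e * d + n / 2 + n / 2 = n + e * d by ring, log_mul he0.ne' hd.ne'] at f1
  rw [show (1 - e) * d + n / 2 + n / 2 = n + d - e * d by ring,
    log_mul (sub_pos.2 he1).ne' hd.ne'] at f2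
  have f3 := mul_le_mul_of_nonneg_left (le_log_one_add_of_nonneg (x := 2 * n / d) (by positivity))
    (show 0 ≤ d + n by positivity)
  rw [show (d + n) * (2 * (2 * n / d) / (2 * n / d + 2)) = 2 * n by field_simp; ring,
    show 1 + 2 * n / d = (d + 2 * n) / d by field_simp, log_div (by positivity) hd.ne'] at f3
  rw [eta, ent_eq, show n + e * d + (n + d - e * d) = d + 2 * n by ring]
  linarith

set_option maxHeartbeats 1000000 in
theorem linkA {e be z nu L l0 lz eb al oz s d iz zz q mh m cL u : ℝ} (he0 : 0 < e)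
    (he1 : e < 1 / 2) (hb0 : 0 < be) (hb : be ≤ 1 / 3) (hz0 : 0 < z) (hz : z ≤ 1) (hnu : 0 < nu)
    (heb : eb = 1 - e) (hal : al = z * be) (hoz : oz = 1 - z) (hs : s = be * oz)
    (hd : d = 1 - be * (1 + z)) (hiz : iz = 1 / (1 + z)) (hzz : zz = 1 - iz)
    (hq : q = s * oz * iz) (hmh : mh = 2 * (1 - be * (1 - zz * oz)))
    (hm : m = 2 * (1 - be + z * (1 - al))) (hcL : cL = 2 * eb / mh) (hu : u = nu * be * m / d)
    (hL : L ≤ -log be) (hl0 : l0 ≤ -log e) (hlz : lz ≤ -log z) (H0 : nu ≤ 1) (H1 : nu ≤ cL)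
    (H2 : nu + 4 * log 2 * eb ≤ (1 - nu) * l0 + (cL - nu) * L + (1 - kHi e) +
      nu * log (nu * m / (d + 2 * e * be * (nu * m))) +
      cL * max (1 + z * lz * iz - (z * kHi al + kHi be) * iz) 0) (H3 : 1 ≤ nu * mh + q)
    (H4 : nu * mh * log (1 + 1 / 2 * u) + q * eb * (4 * log 2 - 2) + (1 - kLo e) ≤
      (nu * mh + q - 1) * l0 +
      nu * mh * (2 - 4 / (2 + (e + 3 / 2 * (e * u)) / (eb + 1 / 2 * (e * u)))) +
      q * (1 - kHi e)) : Step e al (1 - be) := by
  revert H2 H4
  have a0 : 0 < al := hal ▸ mul_pos hz0 hb0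
  have a1 : al ≤ be := by nlinarith
  have es : s = be - al := by rw [hs, hoz, hal]; ring
  have ed : d = 1 - be - al := by rw [hd, hal]; ring
  have s0 : 0 ≤ s := by linarith
  have d0 : 0 < d := by linarith
  have b0 : 0 < eb := by linarith
  have ei : (1 + z) * iz = 1 := by rw [hiz, mul_one_div_cancel (by positivity)]
  have i0 : 0 < iz := by rw [hiz]; positivity
  have q0 : 0 ≤ q := by
    have : 0 ≤ oz := by linarith
    rw [hq]
    positivity
  have eq : be * (1 + z) * q = s * s := by
    rw [hq]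
    linear_combination be * s * oz * ei - s * hs
  have em : (1 + z) * mh = m := by
    rw [hmh, hzz, hoz, hm, hal]
    linear_combination -2 * be * (1 - z) * ei
  have m0 : 0 < m := by
    rw [hm]
    nlinarith
  have mh0 : 0 < mh := pos_of_mul_pos_right' (b := 1 + z) (by linarith) (by linarith)
  have ec : mh * cL = 2 * eb := by rw [hcL, mul_div_cancel₀ _ mh0.ne']
  have c0 : 0 < cL := by linarith
  have u0 : 0 < u := by rw [hu]; positivity
  have eu : d * u = nu * be * m := by rw [hu, mul_div_cancel₀ _ d0.ne']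
  intro H2 H4
  have := stepG (m := (1 - s) / 2) (d := d) (n := e * be * (nu * m)) he0 he1 d0 (by positivity)
    fun l l0' _ => ?_
  · rwa [show (1 - s) / 2 - d / 2 = al by linarith,
      show (1 - s) / 2 + d / 2 = 1 - be by linarith] at this
  have f6 : 4 * ((1 - s) / 2) * (1 - (1 - s) / 2) - d ^ 2 = be * m := by
    rw [es, ed, hm, hal]
    ring
  rw [f6, Hh, show (1 - s) / 2 - d / 2 = al by linarith,
    show (1 - s) / 2 + d / 2 = 1 - be by linarith, binEntropy_one_sub, BB,
    ent_eq_ph (by linarith) (by linarith), mul_assoc 4 e, ← heb]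
  have kl := kap_lo' he0 (by linarith)
  rw [← heb] at kl
  have k1 : eta (e * be * (nu * m)) (e * be * (nu * m) + d) ≤
      4 * (e * eb) * ((binEntropy al + binEntropy be) / 2) + kap e * (be * m) := by
    have g := eta_hi (n := e * be * (nu * m)) (by positivity) d0
    rw [show (2 * (e * be * (nu * m)) + d) / (e * be * (nu * m)) =
      (e * be * (nu * m / (d + 2 * e * be * (nu * m))))⁻¹ by field_simp; ring, log_inv,
      log_mul (by positivity) (by positivity), log_mul he0.ne' hb0.ne'] at g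
    have f0 : max (1 + z * lz * iz - (z * kHi al + kHi be) * iz) 0 ≤
        iz * (z * -log z + z * (1 - kHi al) + (1 - kHi be)) := by
      refine max_le ?_ (mul_nonneg i0.le (add_nonneg (add_nonneg (mul_nonneg hz0.le
        (neg_nonneg.2 (log_nonpos hz0.le hz))) (mul_nonneg hz0.le (sub_nonneg.2
          (kHi_le a0.le (by linarith))))) (sub_nonneg.2 (kHi_le hb0.le (by linarith)))))
      linarith only [ei, mul_le_mul_of_nonneg_left hlz (mul_pos hz0 i0).le]
    have f1 := mul_le_mul_of_nonneg_left (ent_lo a0.le (by linarith))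
      (show 0 ≤ 2 * (e * eb) by positivity)
    have f2 := mul_le_mul_of_nonneg_left (ent_lo hb0.le (by linarith))
      (show 0 ≤ 2 * (e * eb) by positivity)
    have f3 := mul_le_mul_of_nonneg_right kl (mul_pos hb0 m0).le
    have f4 : nu * (1 - log e - log be - log (nu * m / (d + 2 * e * be * (nu * m)))) ≤
        -log e + (1 - kHi e) - 4 * log 2 * eb + cL * (-log be +
          iz * (z * -log z + z * (1 - kHi al) + (1 - kHi be))) := by
      linarith only [H2, mul_le_mul_of_nonneg_left f0 c0.le,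
        mul_le_mul_of_nonneg_left hl0 (sub_nonneg.2 H0),
        mul_le_mul_of_nonneg_left hL (sub_nonneg.2 H1)]
    have f5 := mul_le_mul_of_nonneg_left f4 (show 0 ≤ e * be * m by positivity)
    have f7 : log al = log z + log be := by rw [hal, log_mul hz0.ne' hb0.ne']
    have f8 : m * cL = 2 * eb * (1 + z) := by rw [← em, mul_assoc, ec]; ring
    have f9 : m * cL * iz = 2 * eb := by rw [f8, mul_assoc, ei, mul_one]
    rw [f7] at f1
    linarith only [g, f1, f2, f3, f5, congrArg (HMul.hMul (e * be * log be)) f8,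
      congrArg (HMul.hMul (e * be * (z * -log z + z * (1 - kHi al) + (1 - kHi be)))) f9,
      congrArg (HMul.hMul (2 * e * eb * (-log z - log be + 1 - kHi al))) hal]
  have k2 := eta_incr (n := e * be * (nu * m)) he0 (by linarith) (by positivity) d0
  have en : e * be * (nu * m) = d * (e * u) := by linear_combination -e * eu
  have k3 : -log e - log (1 + 1 / 2 * u) +
      (2 - 4 / (2 + (e + 3 / 2 * (e * u)) / (eb + 1 / 2 * (e * u)))) ≤
      log d + log (d + 2 * (e * be * (nu * m))) - log (e * d + e * be * (nu * m) / 2) -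
        log ((1 - e) * d + e * be * (nu * m) / 2) := by
    have w0 : 0 < eb + 1 / 2 * (e * u) := by positivity
    have f := le_log_one_add_of_nonneg (x := (e + 3 / 2 * (e * u)) / (eb + 1 / 2 * (e * u)))
      (by positivity)
    rw [show 1 + (e + 3 / 2 * (e * u)) / (eb + 1 / 2 * (e * u)) =
      (1 + 2 * (e * u)) / (eb + 1 / 2 * (e * u)) by
        rw [eq_div_iff w0.ne', add_mul, div_mul_cancel₀ _ w0.ne', heb]; ring,
      log_div (by positivity) w0.ne'] at f
    rw [en, ← heb, show d + 2 * (d * (e * u)) = d * (1 + 2 * (e * u)) by ring,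
      show e * d + d * (e * u) / 2 = d * (e * (1 + 1 / 2 * u)) by ring,
      show eb * d + d * (e * u) / 2 = d * (eb + 1 / 2 * (e * u)) by ring,
      log_mul d0.ne' (by positivity), log_mul d0.ne' (by positivity),
      log_mul d0.ne' (by positivity), log_mul he0.ne' (by positivity)]
    generalize hg : (e + 3 / 2 * (e * u)) / (eb + 1 / 2 * (e * u)) = g at f ⊢
    have g0 : 0 ≤ g := by rw [← hg]; positivity
    have : 2 * g / (g + 2) = 2 - 4 / (2 + g) := by field_simp; ring
    linarith
  have k4 := mul_nonneg l0' (sub_nonneg.2 k1)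
  have f1 := mul_le_mul_of_nonneg_left k3 (show 0 ≤ e * be * (nu * m) by positivity)
  have f2 := mul_le_mul_of_nonneg_left (ph_ge_half (x := s) (by linarith) (by linarith))
    (show 0 ≤ 4 * (e * eb) by positivity)
  have f3 := mul_le_mul_of_nonneg_right kl (mul_self_nonneg s)
  have f4 := mul_le_mul_of_nonneg_left (ent_hi he0.le (by linarith))
    (show 0 ≤ be * (1 + z) by positivity)
  have f5 : -log e + (1 - kLo e) ≤ nu * mh * (-log e - log (1 + 1 / 2 * u) +
      (2 - 4 / (2 + (e + 3 / 2 * (e * u)) / (eb + 1 / 2 * (e * u))))) +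
      q * (2 * eb + (-log e + (1 - kHi e) - 4 * log 2 * eb)) := by
    linarith only [H4, mul_le_mul_of_nonneg_left hl0 (sub_nonneg.2 H3)]
  have f7 := mul_le_mul_of_nonneg_left f5 (show 0 ≤ e * (be * (1 + z)) by positivity)
  have f8 : binEntropy e = kap e + 4 * (e * eb) * log 2 := by rw [kap, heb]; ring
  generalize -log e - log (1 + 1 / 2 * u) +
    (2 - 4 / (2 + (e + 3 / 2 * (e * u)) / (eb + 1 / 2 * (e * u)))) = G at f1 f7
  linarith only [k2, k4, f1, f2, f3, f4, f7, f8, congrArg (HMul.hMul (binEntropy e)) hd,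
    congrArg (HMul.hMul (e * be * nu * G)) em,
    congrArg (HMul.hMul (e * (2 * eb + (-log e + (1 - kHi e) - 4 * log 2 * eb)))) eq]

end Vale.Agent.P322
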