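import Vale.Agent.P322.CKIv
import Vale.Agent.P322.CKLinkD

/-!
Box checks for the four criteria and their soundness.
-/

namespace Vale.Agent.P322

open Real Iv

def chkE (m x1 t kh kc : Iv) : Bool :=
  let om := (n 1).sub m
  let x := (m.mul x1).div om
  let X := x.mul x
  let X1 := x1.mul x1
  let mX := m.mul X1
  let o4 := (n 4).mul om
  let oX := (n 6).mul ((n 1).sub X)
  let dn := (n 2).sub (((n 1).add t).mul X)
  om.pos && o4.pos && oX.pos && dn.pos &&
  ((((om.mul om).mul ((n 1).add (m.mul ((c 1 2).add (m.mul ((c 1 3).add (m.div o4))))))).add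
    (mX.mul ((c 1 2).add (X.mul ((c 1 4).add (X.div oX)))))).mul (((n 4).mul kc).sub
    (((X1.mul (t.psi X1)).mul m.invLo).add ((X.mul (t.psi X)).div om)))).le
  (((n 1).div dn).mul ((m.lgInv.add ((n 1).sub m.kHi)).sub (((X1.mul X1.phiHi).add
    ((x.mul x1).mul X.phiHi)).add (((n 4).mul kh).mul (om.sub mX)))))

def sqr (e : Iv) : Iv := ((n 1).sub ((n 2).mul e)).mul ((n 1).sub ((n 2).mul e))

def ktil (e : Iv) : Iv :=
  (((n 1).div e).lg.add ((n 1).sub e.kLo)).sub (((n 4).mul ln2).mul ((n 1).sub e))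

def chkE0 (e m x1 : Iv) : Bool :=
  let t := sqr e
  let kh := ln2.sub t.phiLo
  ((n 1).sub t).pos && chkE m x1 t kh (kh.div ((n 1).sub t))

def chkE1 (e m x1 : Iv) : Bool :=
  let t := sqr e
  let dn := ((n 4).mul t).mul ((n 1).sub e)
  e.pos && t.pos && dn.pos && chkE m x1 t ((e.mul (ktil e)).div t) ((ktil e).div dn)

def chkB (e m x1 nu : Iv) : Bool :=
  let eb := (n 1).sub e
  let om := (n 1).sub m
  let x := (m.mul x1).div om
  let X := x.mul x
  let X1 := x1.mul x1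
  let o2 := (n 2).mul om
  let y := x1.div o2
  let y1 := pt y.hi
  let en := e.mul nu
  let r := y.div en
  let r3 := (n 3).add ((n 2).mul r)
  let dn := e.mul (nu.add (y.div (n 2)))
  e.pos && m.pos && nu.pos && om.pos && o2.pos && en.pos && r3.pos && dn.pos &&
  (((ktil e).mul ((n 1).sub ((m.mul X1).div om))).add
    ((eb.mul (((n 1).div m).lg.add ((n 1).sub m.kLo))).div om)).le
  ((nu.mul (((n 2).add r).lg.add ((n 1).sub ((n 1).div r3)))).add
    ((((n 4).mul eb).mul (y.mul y)).mul ((c 1 2).add (om.mul (X1.phiLo.sub (c 1 2)))))) &&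
  (y1.mul ((((n 4).mul eb).mul (X1.phiHi.sub (m.mul (X1.phiHi.sub X.phiHi)))).add
    ((ktil e).mul ((n 1).sub (sqr m))))).le ((n 1).add (y1.mul (eb.div dn))).lg

def chkD (e be z : Iv) : Bool :=
  let t := sqr e
  let al := z.mul be
  let oz := (n 1).sub z
  let s := be.mul oz
  let z1 := (n 1).add z
  let d := (n 1).sub (be.mul z1)
  let iz := (n 1).div z1
  let zz := (n 1).sub iz
  let q := (s.mul oz).mul iz
  let mh := (n 2).mul ((n 1).sub (be.mul ((n 1).sub (zz.mul oz))))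
  let sp := (n 1).add s
  let sm := (n 1).sub s
  let x := (n 1).sub (((n 2).mul be).div sp)
  let x1 := (n 1).sub (((n 2).mul al).div sm)
  let kl := ln2.sub t.phiHi
  let N := ((t.af x).add (zz.mul ((t.af x1).sub (t.af x)))).sub (q.mul ((s.mul s).phiHi.sub kl))
  let g := (sp.mul sp).sub (t.mul (d.mul d))
  let Kb := (c 1 2).mul ((n 4).div g).lg
  z1.pos && sp.pos && sm.pos && g.pos && Kb.le N &&
  (Kb.mul (((n 1).add (z.nlHi.mul iz)).sub ((((z.mul al.kLo).add be.kLo).mul iz).add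
    (((n 2).mul kl).mul mh)))).le
  ((be.lgInv.mul (N.sub Kb)).add ((al.mul ((n 1).add (al.mul (c 1 2)))).mul N))

def chkA (e be z nu : Iv) : Bool :=
  let eb := (n 1).sub e
  let al := z.mul be
  let oz := (n 1).sub z
  let s := be.mul oz
  let z1 := (n 1).add z
  let d := (n 1).sub (be.mul z1)
  let iz := (n 1).div z1
  let zz := (n 1).sub iz
  let q := (s.mul oz).mul iz
  let mh := (n 2).mul ((n 1).sub (be.mul ((n 1).sub (zz.mul oz))))
  let m := (n 2).mul (((n 1).sub be).add (z.mul ((n 1).sub al)))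
  let cL := ((n 2).mul eb).div mh
  let u := ((nu.mul be).mul m).div d
  let nm := nu.mul m
  let w := d.add ((((n 2).mul e).mul be).mul nm)
  let ar := nm.div w
  let nh := nu.mul mh
  let eu := e.mul u
  let g1 := eb.add ((c 1 2).mul eu)
  let g2 := (n 2).add ((e.add ((c 3 2).mul eu)).div g1)
  let ke := (n 1).sub e.kHi
  nu.pos && z1.pos && mh.pos && d.pos && w.pos && g1.pos && g2.pos && nu.le (n 1) && nu.le cL &&
  (n 1).le ar && (n 1).le (nh.add q) &&
  (nu.add (((n 4).mul ln2).mul eb)).le (((((((n 1).sub nu).mul e.lgInv).add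
    ((cL.sub nu).mul be.lgInv)).add ke).add (nu.mul ar.lg)).add
    (cL.mul (((n 1).add ((z.mul z.lgInv).mul iz)).sub (((z.mul al.kHi).add be.kHi).mul iz)))) &&
  (((nh.mul ((n 1).add ((c 1 2).mul u)).lg).add ((q.mul eb).mul (((n 4).mul ln2).sub (n 2)))).add
    ((n 1).sub e.kLo)).le (((((nh.add q).sub (n 1)).mul e.lgInv).add
    (nh.mul ((n 2).sub ((n 4).div g2)))).add (q.mul ke))

attribute [local irreducible] Iv.add Iv.sub Iv.mul Iv.div Iv.pt Iv.n Iv.c Iv.ln2 Iv.lg Iv.invLo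
  Iv.lgInv Iv.nlHi Iv.phiLo Iv.phiHi Iv.kLo Iv.kHi Iv.psi Iv.af

theorem In.pos {a : Iv} {x : ℝ} (ha : In a x) (h : a.pos = true) : 0 < x := by
  have h1 : (0 : ℝ) < a.lo := by exact_mod_cast Nat.blt_eq.mp h
  exact pos_of_mul_pos_right' (h1.trans_le ha.1) (by positivity)

theorem In.sqr {a : Iv} {x : ℝ} (ha : In a x) (h : x ≤ 1 / 2) :
    In (sqr a) ((1 - 2 * x) * (1 - 2 * x)) :=
  (In.one.sub (In.two.mul ha) (by linarith)).mul (In.one.sub (In.two.mul ha) (by linarith))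

theorem In.ktil {a : Iv} {x : ℝ} (ha : In a x) (h : a.pos = true) (h1 : x < 1) :
    ∃ k, In (ktil a) k ∧ kap x ≤ x * k := by
  have h0 := ha.pos h
  refine ⟨_, (((In.one.div ha h).lg (one_le_one_div h0 h1.le)).add (In.one.sub ha.kLo
    (kLo_le h0.le h1.le))).tsub ((In.four.mul In.ln2).mul (In.one.sub ha h1.le)), ?_⟩
  rw [one_div, log_inv]
  exact kap_hi' h0 h1

theorem chkE_sound {e m x1 kh kc : ℝ} {M Y T KH KC : Iv} (he0 : 0 < e) (he1 : e < 1 / 2)
    (hm0 : 0 < m) (hm : m ≤ 1 / 2) (hx0 : 0 < x1) (hx1 : x1 < 1) (hM : In M m) (hY : In Y x1)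
    (hT : In T ((1 - 2 * e) * (1 - 2 * e))) (hKH : In KH kh) (hKC : In KC kc)
    (hkh : kap e ≤ (1 - 2 * e) * (1 - 2 * e) * kh)
    (hkc : kap e ≤ (1 - 2 * e) * (1 - 2 * e) * (1 - (1 - 2 * e) * (1 - 2 * e)) * kc)
    (h : chkE M Y T KH KC = true) : Step e (m - m * x1) (m + m * x1) := by
  simp only [chkE, Bool.and_eq_true] at h
  obtain ⟨⟨⟨⟨p1, p2⟩, p3⟩, p4⟩, h⟩ := h
  obtain ⟨L, hL, hL'⟩ := hM.lgInv hm0 (by linarith)
  obtain ⟨r, hr, hr'⟩ := hM.invLo hm0
  have om := In.one.sub hM (by linarith)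
  have x := (hM.mul hY).div om p1
  have X := x.mul x
  have X1 := hY.mul hY
  have mX := hM.mul X1
  have a : m * x1 / (1 - m) ≤ 1 := by
    rw [div_le_one (by linarith)]
    nlinarith
  have b := mul_le_one₀ a x.nonneg a
  have t1 : 1 + (1 - 2 * e) * (1 - 2 * e) ≤ 2 := by nlinarith
  exact linkE he0 he1 hm0 hm hx0 hx1 rfl rfl rfl rfl rfl rfl hkh hkc hL' hr' (In.le
    ((((om.mul om).mul (In.one.add (hM.mul (In.half.add (hM.mul ((In.c 1 3 (by norm_num)).add
      (hM.div (In.four.mul om) p2))))))).add (mX.mul (In.half.add (X.mul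
      ((In.c 1 4 (by norm_num)).add (X.div (In.six.mul (In.one.sub X b)) p3)))))).mul
      ((In.four.mul hKC).tsub (((X1.mul (hT.psi X1)).mul hr).add ((X.mul (hT.psi X)).div om p1))))
    ((In.one.div (In.two.sub ((In.one.add hT).mul X)
      ((mul_le_of_le_one_right (In.one.add hT).nonneg b).trans t1)) p4).mul
      ((hL.add (In.one.sub hM.kHi (kHi_le hm0.le (by linarith)))).tsub (((X1.mul X1.phiHi).add
      ((x.mul hY).mul X.phiHi)).add ((In.four.mul hKH).mul (om.sub mX (by nlinarith)))))) h)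

theorem chkE0_sound {e m x1 : ℝ} {E M Y : Iv} (he0 : 0 < e) (he1 : e < 1 / 2)
    (hm0 : 0 < m) (hm : m ≤ 1 / 2) (hx0 : 0 < x1) (hx1 : x1 < 1) (hE : In E e) (hM : In M m)
    (hY : In Y x1) (h : chkE0 E M Y = true) : Step e (m - m * x1) (m + m * x1) := by
  simp only [chkE0, Bool.and_eq_true] at h
  have t := hE.sqr he1.le
  have t1 : (1 - 2 * e) * (1 - 2 * e) < 1 := by nlinarith
  have kh := In.ln2.sub t.phiLo (phiLo_le t.nonneg t1.le)
  refine chkE_sound he0 he1 hm0 hm hx0 hx1 hM hY t kh (kh.div (In.one.sub t t1.le) h.1)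
    (kap_hi he0 he1) ?_ h.2
  rw [mul_assoc, mul_div_cancel₀ _ (sub_pos.2 t1).ne']
  exact kap_hi he0 he1

theorem chkE1_sound {e m x1 : ℝ} {E M Y : Iv} (he0 : 0 < e) (he1 : e < 1 / 2)
    (hm0 : 0 < m) (hm : m ≤ 1 / 2) (hx0 : 0 < x1) (hx1 : x1 < 1) (hE : In E e) (hM : In M m)
    (hY : In Y x1) (h : chkE1 E M Y = true) : Step e (m - m * x1) (m + m * x1) := by
  simp only [chkE1, Bool.and_eq_true] at h
  obtain ⟨⟨⟨p1, p2⟩, p3⟩, h⟩ := h
  have t := hE.sqr he1.le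
  obtain ⟨k, hk, hk'⟩ := hE.ktil p1 (by linarith)
  have a := (t.pos p2).ne'
  have b : 1 - e ≠ 0 := by linarith
  refine chkE_sound he0 he1 hm0 hm hx0 hx1 hM hY t ((hE.mul hk).div t p2)
    (hk.div ((In.four.mul t).mul (In.one.sub hE (by linarith))) p3) (hk'.trans_eq ?_)
    (hk'.trans_eq ?_) h
  · rw [mul_div_cancel₀ _ a]
  · rw [show 1 - (1 - 2 * e) * (1 - 2 * e) = 4 * e * (1 - e) by ring]
    generalize (1 - 2 * e) * (1 - 2 * e) = s at a
    field_simp

theorem chkB_sound {e m x1 nu : ℝ} {E M Y V : Iv} (he0 : 0 < e) (he1 : e < 1 / 2)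
    (hm0 : 0 < m) (hm : m ≤ 1 / 2) (hx0 : 0 < x1) (hx1 : x1 < 1) (hE : In E e) (hM : In M m)
    (hY : In Y x1) (hV : In V nu) (h : chkB E M Y V = true) :
    Step e (m - m * x1) (m + m * x1) := by
  simp only [chkB, Bool.and_eq_true] at h
  obtain ⟨⟨⟨⟨⟨⟨⟨⟨⟨p1, p2⟩, p3⟩, p4⟩, p5⟩, p6⟩, p7⟩, p8⟩, h1⟩, h3⟩ := h
  obtain ⟨k, hk, hk'⟩ := hE.ktil p1 (by linarith)
  have eb := In.one.sub hE (by linarith)
  have om := In.one.sub hM (by linarith)
  have x := (hM.mul hY).div om p4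
  have X := x.mul x
  have X1 := hY.mul hY
  have y := hY.div (In.two.mul om) p5
  have r := y.div (hE.mul hV) p6
  have r3 := In.three.add (In.two.mul r)
  have a : m * x1 / (1 - m) ≤ x1 := by
    rw [div_le_iff₀ (by linarith)]
    nlinarith
  have b := phiHi_mono X.nonneg (mul_self_le_mul_self x.nonneg a)
  have f := X1.phiHi.sub X.phiHi b
  have c1 : m * (x1 * x1) / (1 - m) ≤ 1 := by
    rw [div_le_one (by linarith)]
    nlinarith
  have c2 : 1 / (3 + 2 * (x1 / (2 * (1 - m)) / (e * nu))) ≤ 1 := by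
    rw [div_le_one (by linarith [r.nonneg])]
    linarith [r.nonneg]
  have g := (In.pt _).mul (eb.div (hE.mul (hV.add (y.div In.two (by
    unfold Iv.n Iv.pt; decide)))) p8) (a := Iv.pt (Y.div ((n 2).mul ((n 1).sub M))).hi)
  exact linkB he0 he1 hm0 hm hx0 hx1 (hV.pos p3) rfl rfl rfl rfl rfl rfl rfl rfl hk' y.le_pt
    (In.le ((hk.mul (In.one.sub ((hM.mul X1).div om p4) c1)).add ((eb.mul (((In.one.div hM p2).lg
      (one_le_one_div hm0 (by linarith))).add (In.one.sub hM.kLo (kLo_le hm0.le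
      (by linarith))))).div om p4)) ((hV.mul (((In.two.add r).lg (by linarith [r.nonneg])).add
      (In.one.sub (In.one.div r3 p7) c2))).add (((In.four.mul eb).mul (y.mul y)).mul
      (In.half.add (om.mul (X1.phiLo.sub In.half (phiLo_ge X1.nonneg)))))) h1)
    (In.le ((In.pt _).mul (((In.four.mul eb).mul (X1.phiHi.sub (hM.mul f)
      ((mul_le_of_le_one_left f.nonneg (by linarith)).trans
        (sub_le_self _ X.phiHi.nonneg)))).add (hk.mul (In.one.sub (hM.sqr hm) (by nlinarith)))))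
      ((In.one.add g).lg (le_add_of_nonneg_right g.nonneg)) h3)

theorem chkD_sound {e be z : ℝ} {E B Z : Iv} (he0 : 0 < e) (he1 : e < 1 / 2) (hb0 : 0 < be)
    (hb : be ≤ 1 / 3) (hz0 : 0 < z) (hz : z ≤ 1) (hE : In E e) (hB : In B be) (hZ : In Z z)
    (h : chkD E B Z = true) : Step e (z * be) (1 - be) := by
  simp only [chkD, Bool.and_eq_true] at h
  obtain ⟨⟨⟨⟨⟨p1, p2⟩, p3⟩, p4⟩, h0⟩, h⟩ := h
  obtain ⟨L, hL, hL'⟩ := hB.lgInv hb0 (by linarith)
  obtain ⟨zl, hzl, hzl'⟩ := hZ.nlHi hz0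
  have t := hE.sqr he1.le
  have t1 : (1 - 2 * e) * (1 - 2 * e) ≤ 1 := by nlinarith
  have al := hZ.mul hB
  have oz := In.one.sub hZ hz
  have s := hB.mul oz
  have z1 := In.one.add hZ
  have d := In.one.sub (hB.mul z1) (by nlinarith)
  have iz := In.one.div z1 p1
  have i1 : 1 / (1 + z) ≤ 1 := by
    rw [div_le_one (by linarith)]
    linarith
  have zz := In.one.sub iz i1
  have w := In.one.sub (zz.mul oz) (mul_le_one₀ (sub_le_self _ iz.nonneg) oz.nonneg (by linarith))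
  have mh := In.two.mul (In.one.sub (hB.mul w) (mul_le_one₀ (by linarith) w.nonneg
    (sub_le_self _ (zz.mul oz).nonneg)))
  have sp := In.one.add s
  have s1 : 0 < 1 - be * (1 - z) := by nlinarith
  have s2 : 0 < 1 + be * (1 - z) := by nlinarith
  have sm := In.one.sub s (by linarith)
  have x := In.one.sub ((In.two.mul hB).div sp p2) (by rw [div_le_one s2]; nlinarith)
  have x1 := In.one.sub ((In.two.mul al).div sm p3) (by rw [div_le_one s1]; nlinarith)
  have xx : 1 - 2 * be / (1 + be * (1 - z)) ≤ 1 - 2 * (z * be) / (1 - be * (1 - z)) := by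
    rw [sub_le_sub_iff_left, div_le_div_iff₀ s1 s2]
    nlinarith [mul_nonneg (mul_nonneg hb0.le oz.nonneg) d.nonneg]
  have kl := In.ln2.tsub t.phiHi
  have N := ((t.af x).add (zz.mul ((t.af x1).sub (t.af x) (af_mono t.nonneg x.nonneg xx)))).tsub
    (((s.mul oz).mul iz).mul ((s.mul s).phiHi.tsub kl))
  have d1 : (1 - be * (1 + z)) * (1 - be * (1 + z)) ≤ 1 :=
    mul_le_one₀ (sub_le_self _ (hB.mul z1).nonneg) d.nonneg (sub_le_self _ (hB.mul z1).nonneg)
  have g := (sp.mul sp).sub (t.mul (d.mul d)) ((mul_le_one₀ t1 (d.mul d).nonneg d1).trans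
    (one_le_mul_of_one_le_of_one_le (le_add_of_nonneg_right s.nonneg)
      (le_add_of_nonneg_right s.nonneg)))
  have Kb := In.half.mul ((In.four.div g p4).lg (by
    rw [le_div_iff₀ (g.pos p4)]
    nlinarith [(t.mul (d.mul d)).nonneg]))
  have H0 := In.le Kb N h0
  exact linkD he0 he1 hb0 hb hz0 hz rfl rfl rfl rfl rfl rfl rfl rfl rfl rfl rfl (kap_lo he0 he1)
    hL' hzl' rfl rfl H0 (In.le (Kb.mul ((In.one.add (hzl.mul iz)).tsub
      ((((hZ.mul al.kLo).add hB.kLo).mul iz).add ((In.two.mul kl).mul mh))))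
      ((hL.mul (N.sub Kb H0)).add ((al.mul (In.one.add (al.mul In.half))).mul N)) h)

theorem chkA_sound {e be z nu : ℝ} {E B Z V : Iv} (he0 : 0 < e) (he1 : e < 1 / 2) (hb0 : 0 < be)
    (hb : be ≤ 1 / 3) (hz0 : 0 < z) (hz : z ≤ 1) (hE : In E e) (hB : In B be) (hZ : In Z z)
    (hV : In V nu) (h : chkA E B Z V = true) : Step e (z * be) (1 - be) := by
  simp only [chkA, Bool.and_eq_true] at h
  obtain ⟨⟨⟨⟨⟨⟨⟨⟨⟨⟨⟨⟨p0, p1⟩, p2⟩, p3⟩, p4⟩, p5⟩, p6⟩, h0⟩, h1⟩, h2⟩, h3⟩, h4⟩, h5⟩ := h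
  obtain ⟨L, hL, hL'⟩ := hB.lgInv hb0 (by linarith)
  obtain ⟨l, hl, hl'⟩ := hE.lgInv he0 (by linarith)
  obtain ⟨lz, hlz, hlz'⟩ := hZ.lgInv hz0 hz
  have eb := In.one.sub hE (by linarith)
  have al := hZ.mul hB
  have oz := In.one.sub hZ hz
  have z1 := In.one.add hZ
  have d := In.one.sub (hB.mul z1) (by nlinarith)
  have iz := In.one.div z1 p1
  have i1 : 1 / (1 + z) ≤ 1 := by
    rw [div_le_one (by linarith)]
    linarith
  have zz := In.one.sub iz i1
  have q := ((hB.mul oz).mul oz).mul iz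
  have w := In.one.sub (zz.mul oz) (mul_le_one₀ (sub_le_self _ iz.nonneg) oz.nonneg (by linarith))
  have mh := In.two.mul (In.one.sub (hB.mul w) (mul_le_one₀ (by linarith) w.nonneg
    (sub_le_self _ (zz.mul oz).nonneg)))
  have m := In.two.mul ((In.one.sub hB (by linarith)).add (hZ.mul (In.one.sub al (by nlinarith))))
  have cL := (In.two.mul eb).div mh p2
  have u := ((hV.mul hB).mul m).div d p3
  have nm := hV.mul m
  have ar := nm.div (d.add (((In.two.mul hE).mul hB).mul nm)) p4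
  have nh := hV.mul mh
  have eu := hE.mul u
  have g := (hE.add ((In.c 3 2 (r := 3 / 2) (by norm_num)).mul eu)).div
    (eb.add (In.half.mul eu)) p5
  have ke := In.one.sub hE.kHi (kHi_le he0.le (by linarith))
  have H0 := In.le hV In.one h0
  have H1 := In.le hV cL h1
  have H3 := In.le In.one (nh.add q) h3
  exact linkA he0 he1 hb0 hb hz0 hz (hV.pos p0) rfl rfl rfl rfl rfl rfl rfl rfl rfl rfl rfl rfl
    hL' hl' hlz' H0 H1 (In.le (hV.add ((In.four.mul In.ln2).mul eb))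
      ((((((In.one.sub hV H0).mul hl).add ((cL.sub hV H1).mul hL)).add ke).add
      (hV.mul (ar.lg (In.le In.one ar h2)))).add (cL.mul ((In.one.add ((hZ.mul hlz).mul iz)).tsub
      (((hZ.mul al.kHi).add hB.kHi).mul iz)))) h4) H3
    (In.le (((nh.mul ((In.one.add (In.half.mul u)).lg (le_add_of_nonneg_right
      (In.half.mul u).nonneg))).add ((q.mul eb).mul ((In.four.mul In.ln2).sub In.two
      (by linarith [log_two_gt_d9])))).add (In.one.sub hE.kLo (kLo_le he0.le (by linarith))))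
      (((((nh.add q).sub In.one H3).mul hl).add (nh.mul (In.two.sub (In.four.div (In.two.add g) p6)
      (by rw [div_le_iff₀ (by linarith [g.nonneg])]; linarith [g.nonneg])))).add (q.mul ke)) h5)

inductive Tr where
  | L (w : ℕ)
  | A (c : ℕ) (l r : Tr)
  | B (c : ℕ) (l r : Tr)
  | C (c : ℕ) (l r : Tr)

def dec (c : ℕ) : ℕ := Nat.shiftLeft (Nat.shiftRight c 7) (Nat.land c 127)

noncomputable def Tr.chk (f : ℕ → Iv → Iv → Iv → Bool) (t : Tr) : ℕ → ℕ → ℕ → ℕ → ℕ → ℕ → Bool :=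
  t.rec (fun w a a' b b' c c' => f w ⟨dec a, dec a'⟩ ⟨dec b, dec b'⟩ ⟨dec c, dec c'⟩)
    (fun p _ _ l r a a' b b' c c' => l a p b b' c c' && r p a' b b' c c')
    (fun p _ _ l r a a' b b' c c' => l a a' b p c c' && r a a' p b' c c')
    (fun p _ _ l r a a' b b' c c' => l a a' b b' c p && r a a' b b' p c')

def Ok (P : ℝ → ℝ → ℝ → Prop) (a a' b b' c c' : ℕ) : Prop :=
  ∀ x y z, In ⟨dec a, dec a'⟩ x → In ⟨dec b, dec b'⟩ y → In ⟨dec c, dec c'⟩ z → P x y z

theorem In.split {a b : ℕ} {x : ℝ} (h : In ⟨a, b⟩ x) (p : ℕ) : In ⟨a, p⟩ x ∨ In ⟨p, b⟩ x :=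
  (le_total (x * 2 ^ 128) (p : ℝ)).imp (fun k => ⟨h.1, k⟩) fun k => ⟨k, h.2⟩

variable {P : ℝ → ℝ → ℝ → Prop} {a a' b b' c c' : ℕ}

theorem Ok.A (p : ℕ) (l : Ok P a p b b' c c') (r : Ok P p a' b b' c c') : Ok P a a' b b' c c' :=
  fun x y z hx hy hz => (hx.split _).elim (fun h => l x y z h hy hz) fun h => r x y z h hy hz

theorem Ok.B (p : ℕ) (l : Ok P a a' b p c c') (r : Ok P a a' p b' c c') : Ok P a a' b b' c c' :=
  fun x y z hx hy hz => (hy.split _).elim (fun h => l x y z hx h hz) fun h => r x y z hx h hz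

theorem Ok.C (p : ℕ) (l : Ok P a a' b b' c p) (r : Ok P a a' b b' p c') : Ok P a a' b b' c c' :=
  fun x y z hx hy hz => (hz.split _).elim (fun h => l x y z hx hy h) fun h => r x y z hx hy h

theorem Tr.sound {f : ℕ → Iv → Iv → Iv → Bool}
    (hf : ∀ w X Y Z x y z, In X x → In Y y → In Z z → f w X Y Z = true → P x y z) (t : Tr) :
    ∀ {a a' b b' c c' : ℕ}, t.chk f a a' b b' c c' = true → Ok P a a' b b' c c' := by
  induction t with
  | L w => exact fun h x y z hx hy hz => hf w _ _ _ x y z hx hy hz h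
  | A p l r hl hr =>
    exact fun h => .A p (hl (Bool.and_eq_true_iff.1 h).1) (hr (Bool.and_eq_true_iff.1 h).2)
  | B p l r hl hr =>
    exact fun h => .B p (hl (Bool.and_eq_true_iff.1 h).1) (hr (Bool.and_eq_true_iff.1 h).2)
  | C p l r hl hr =>
    exact fun h => .C p (hl (Bool.and_eq_true_iff.1 h).1) (hr (Bool.and_eq_true_iff.1 h).2)

def leaf1 (w : ℕ) (e m x : Iv) : Bool :=
  cond (Nat.ble 3 w) (chkB e m x (pt (Nat.shiftLeft w 116))) (cond (Nat.ble 2 w)
    ((Iv.c 11 16).lt (((n 2).mul m).mul x)) (cond (Nat.ble 1 w) (chkE1 e m x) (chkE0 e m x)))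

def leaf2 (w : ℕ) (e b z : Iv) : Bool :=
  cond (Nat.ble 2 w) (chkA e b z (pt (Nat.shiftLeft w 116))) (cond (Nat.ble 1 w)
    ((Iv.c 5 16).lt (b.mul ((n 1).add z))) (chkD e b z))

def P1 (e m x : ℝ) : Prop := 0 < e → e < 1 / 2 → 0 < m → m ≤ 1 / 2 → 0 < x → x < 1 →
  2 * m * x ≤ 11 / 16 → Step e (m - m * x) (m + m * x)

def P2 (e b z : ℝ) : Prop := 0 < e → e < 1 / 2 → 0 < b → 0 < z → z ≤ 1 →
  b * (1 + z) ≤ 5 / 16 → Step e (z * b) (1 - b)

theorem sound1 (t : Tr) (a a' b b' c c' : ℕ) (h : t.chk leaf1 a a' b b' c c' = true) :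
    Ok P1 a a' b b' c c' := by
  refine Tr.sound (fun w X Y Z x y z hx hy hz h h1 h2 h3 h4 h5 h6 h7 => ?_) t h
  unfold leaf1 at h
  cases h8 : Nat.ble 3 w <;> cases h9 : Nat.ble 2 w <;> cases h10 : Nat.ble 1 w <;>
    simp only [h8, h9, h10, cond_true, cond_false] at h
  all_goals first
    | exact chkB_sound h1 h2 h3 h4 h5 h6 hx hy hz (In.pt _) h
    | exact chkE0_sound h1 h2 h3 h4 h5 h6 hx hy hz h
    | exact chkE1_sound h1 h2 h3 h4 h5 h6 hx hy hz h
    | exact absurd (In.lt (In.c 11 16 (by norm_num)) ((In.two.mul hy).mul hz) h) (not_lt.2 h7)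

theorem sound2 (t : Tr) (a a' b b' c c' : ℕ) (h : t.chk leaf2 a a' b b' c c' = true) :
    Ok P2 a a' b b' c c' := by
  refine Tr.sound (fun w X Y Z x y z hx hy hz h h1 h2 h3 h4 h5 h6 => ?_) t h
  have hb : y ≤ 1 / 3 := by nlinarith
  unfold leaf2 at h
  cases h9 : Nat.ble 2 w <;> cases h10 : Nat.ble 1 w <;>
    simp only [h9, h10, cond_true, cond_false] at h
  all_goals first
    | exact chkA_sound h1 h2 h3 hb h4 h5 hx hy hz (In.pt _) h
    | exact chkD_sound h1 h2 h3 hb h4 h5 hx hy hz h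
    | exact absurd (In.lt (In.c 5 16 (by norm_num)) (hy.mul (In.one.add hz)) h) (not_lt.2 h6)

end Vale.Agent.P322
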