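import Vale.Agent.P322.CKChk

/-!
Verified boxes, part 1.
-/

namespace Vale.Agent.P322

open Tr

theorem ck1_64 : Ok P1 507 253 509 1020 1021 383 :=
  sound1
    (C 2044 (B 1787 (A 1018 (A 1785 (C 3835 (B 3322 (A 3320 (C 7418 (B 6393 (L 2295) (L 2226)) (B
    6393 (L 2201) (A 6391 (L 2110) (L 2107)))) (C 7418 (B 6393 (L 2288) (L 2219)) (B 6393 (L 2194)
    (A 6647 (L 2104) (L 2101))))) (C 7418 (B 6649 (A 3320 (L 2156) (L 2149)) (L 2)) (L 2))) (B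
    3322 (C 7674 (B 6393 (A 3320 (A 6391 (L 2086) (L 2083)) (A 6647 (L 2079) (L 2076))) (L 2)) (L
    2)) (L 2))) (C 3835 (B 3322 (A 3576 (C 7418 (B 6393 (L 2281) (L 2212)) (B 6393 (A 6903 (L
    2167) (L 2163)) (A 6903 (L 2098) (L 2094)))) (C 7418 (B 6393 (L 2274) (A 7159 (L 2185) (L
    2182))) (B 6393 (A 7159 (L 2160) (L 2157)) (A 7159 (L 2091) (L 2088))))) (C 7418 (B 6649 (A
    3576 (A 6903 (L 2123) (L 2120)) (A 7159 (L 2116) (L 2113))) (L 2)) (L 2))) (B 3322 (C 7674 (B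
    6393 (A 3576 (A 6903 (B 12536 (L 2049) (L 2014)) (B 12536 (L 2045) (L 2011))) (A 7159 (B 12536
    (L 2042) (L 2007)) (B 12536 (L 2039) (L 2004)))) (L 2)) (L 2)) (L 2)))) (A 2041 (C 3835 (B
    3322 (A 3832 (C 7418 (B 6393 (A 7415 (L 2246) (L 2243)) (A 7415 (L 2178) (L 2175))) (B 6393 (A
    7415 (L 2153) (L 2150)) (C 14841 (A 7415 (L 2085) (L 2082)) (L 2)))) (C 7418 (B 6393 (A 7671
    (L 2240) (L 2236)) (A 7671 (L 2172) (L 2168))) (B 6393 (A 7671 (B 12536 (L 2121) (L 2087)) (B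
    12536 (L 2118) (L 2084))) (C 14841 (A 7671 (L 2078) (L 2075)) (L 2))))) (C 7418 (B 6649 (A
    3832 (A 7415 (L 2110) (L 2107)) (C 14585 (L 2123) (L 2))) (L 2)) (L 2))) (B 3322 (C 7674 (B
    6393 (A 3832 (A 7415 (C 15097 (L 2060) (L 2014)) (C 15097 (L 2057) (B 12536 (L 1986) (L 2))))
    (A 7671 (C 15097 (L 2054) (B 12536 (L 1982) (L 2))) (C 15097 (L 2050) (B 12536 (L 1979) (L
    2))))) (L 2)) (L 2)) (L 2))) (C 3835 (B 3322 (A 4088 (C 7418 (B 6393 (A 7927 (L 2233) (L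
    2229)) (A 7927 (L 2165) (B 12792 (L 2136) (L 2102)))) (B 6393 (A 7927 (B 12536 (L 2115) (L
    2081)) (B 12536 (L 2111) (L 2077))) (C 14841 (A 7927 (L 2072) (L 2069)) (L 2)))) (C 7418 (B
    6393 (A 8183 (L 2226) (B 12536 (L 2196) (L 2162))) (A 8183 (B 12792 (L 2132) (L 2099)) (B
    12792 (L 2129) (L 2095)))) (B 6393 (A 8183 (B 12536 (L 2108) (C 14841 (L 2074) (L 2027))) (C
    14841 (L 2130) (B 12536 (L 2058) (L 2024)))) (C 14841 (A 8183 (L 2065) (B 12792 (L 2036) (L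
    2))) (L 2))))) (C 7418 (B 6649 (C 14585 (A 4088 (A 7927 (L 2097) (L 2094)) (A 8183 (L 2091) (L
    2087))) (L 2)) (L 2)) (L 2))) (B 3322 (C 7674 (B 6393 (A 4088 (A 7927 (C 15097 (B 12536 (L
    2022) (L 1988)) (B 12536 (L 1976) (L 2))) (C 15097 (B 12536 (L 2019) (L 1985)) (B 12536 (L
    1972) (L 2)))) (A 8183 (C 15097 (B 12536 (L 2015) (L 1981)) (B 12536 (A 16118 (L 1960) (L
    1959)) (L 2))) (C 15097 (B 12536 (L 2012) (L 1978)) (B 12536 (A 16374 (L 1957) (L 1955)) (L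
    2))))) (L 2)) (L 2)) (L 2))))) (L 2)) (L 2))
    _ _ _ _ _ _ (by decide +kernel)

theorem ck1_71 : Ok P1 253 254 509 255 0 255 :=
  sound1
    (B 1020 (A 508 (C 254 (A 763 (B 1787 (A 1274 (A 2297 (L 0) (L 0)) (L 0)) (A 1274 (A 2297 (L 0)
    (L 0)) (L 0))) (B 1787 (L 0) (L 0))) (B 1787 (A 763 (C 509 (A 1274 (A 2297 (C 764 (L 0) (L
    6346)) (C 764 (L 0) (L 0))) (A 2553 (L 0) (L 0))) (A 1274 (A 2297 (C 1020 (L 5824) (L 5337))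
    (C 1020 (L 5774) (L 5296))) (B 3322 (C 1020 (L 0) (L 0)) (C 1020 (L 0) (L 0))))) (C 509 (A
    1530 (L 0) (L 0)) (B 3322 (A 1530 (L 0) (L 0)) (A 1530 (L 0) (L 0))))) (A 763 (C 509 (A 1274
    (B 3578 (C 764 (L 0) (L 0)) (C 764 (L 0) (L 0))) (C 764 (L 0) (L 0))) (A 1274 (B 3578 (A 2297
    (C 1020 (L 0) (L 4967)) (C 1020 (L 0) (L 0))) (C 1020 (A 2297 (L 0) (L 0)) (A 2297 (L 4867) (L
    0)))) (B 3578 (C 1020 (L 0) (L 0)) (C 1020 (L 0) (L 0))))) (C 509 (A 1530 (L 0) (L 0)) (B 3578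
    (A 1530 (C 1020 (L 0) (L 0)) (L 0)) (C 1020 (L 0) (A 1530 (L 0) (L 0)))))))) (C 254 (B 1787 (L
    0) (L 0)) (B 1787 (C 509 (A 1019 (L 0) (L 0)) (A 1019 (A 1786 (L 0) (L 0)) (L 0))) (C 509 (A
    1019 (L 0) (L 0)) (A 1019 (B 3578 (L 0) (L 0)) (L 0)))))) (C 254 (A 508 (A 763 (B 2043 (A 1274
    (C 253 (L 0) (L 0)) (L 0)) (B 4090 (L 0) (L 0))) (B 2043 (L 0) (L 0))) (B 2043 (L 0) (L 0)))
    (A 508 (B 2043 (A 763 (C 509 (A 1274 (B 3834 (C 764 (L 0) (L 0)) (C 764 (L 0) (L 0))) (C 764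
    (L 0) (L 0))) (A 1274 (C 1020 (A 2297 (L 5459) (L 5416)) (A 2297 (B 3834 (L 4768) (L 4669)) (B
    3834 (L 0) (L 0)))) (C 1020 (B 3834 (L 0) (L 0)) (B 3834 (L 0) (L 0))))) (C 509 (A 1530 (L 0)
    (L 0)) (C 1020 (A 1530 (L 0) (L 0)) (B 3834 (A 1530 (L 0) (L 0)) (A 1530 (L 0) (L 0)))))) (C
    509 (A 763 (A 1274 (B 4090 (C 764 (L 0) (L 0)) (L 0)) (C 764 (L 0) (L 0))) (A 1530 (L 0) (L
    0))) (A 763 (C 1020 (A 1274 (B 4090 (L 0) (L 0)) (A 2553 (L 0) (L 0))) (B 4090 (A 1274 (A 2297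
    (L 4570) (L 0)) (L 0)) (A 1274 (A 2297 (L 4472) (L 0)) (L 0)))) (C 1020 (A 1530 (L 0) (L 0))
    (B 4090 (A 1530 (L 0) (L 0)) (A 1530 (L 0) (L 0))))))) (B 2043 (C 509 (A 1019 (L 0) (L 0)) (A
    1019 (B 3834 (L 0) (L 0)) (A 2042 (L 0) (L 0)))) (C 509 (A 1019 (L 0) (L 0)) (A 1019 (B 4090
    (L 0) (A 1786 (L 0) (L 0))) (A 2042 (L 0) (L 0))))))))
    _ _ _ _ _ _ (by decide +kernel)

theorem ck1_96 : Ok P1 253 1274 509 1787 1788 1021 :=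
  sound1
    (A 2297 (C 3579 (B 3322 (A 4344 (C 6906 (B 6393 (L 2609) (L 2543)) (B 6393 (L 2516) (L 2450)))
    (C 6906 (B 6393 (L 2601) (L 2535)) (B 6393 (L 2508) (L 2442)))) (A 4344 (C 6906 (B 6649 (L
    2478) (L 2412)) (B 6649 (L 2384) (L 2317))) (C 6906 (B 6649 (L 2470) (L 2404)) (B 6649 (L
    2376) (A 8695 (L 2290) (L 2286)))))) (B 3322 (A 4344 (C 7162 (B 6393 (L 2424) (A 8439 (L 2336)
    (L 2333))) (B 6393 (A 8439 (L 2310) (L 2307)) (A 8439 (L 2244) (L 2240)))) (C 7162 (B 6393 (A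
    8695 (L 2395) (L 2391)) (A 8695 (L 2329) (L 2325))) (B 6393 (A 8695 (L 2303) (L 2299)) (A 8695
    (L 2237) (B 12792 (L 2206) (L 2173)))))) (A 4344 (C 7162 (B 6649 (A 8439 (L 2270) (L 2266)) (A
    8439 (L 2204) (L 2200))) (B 6649 (A 8439 (L 2177) (B 13048 (L 2147) (L 2114))) (C 14329 (A
    8439 (L 2110) (L 2107)) (L 2)))) (C 7162 (B 6649 (A 8695 (L 2263) (L 2259)) (A 8695 (L 2197)
    (L 2193))) (B 6649 (A 8695 (B 13048 (L 2144) (L 2110)) (B 13048 (L 2140) (L 2107))) (C 14329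
    (A 8695 (L 2104) (L 2100)) (L 2))))))) (C 3579 (B 3322 (A 4600 (C 6906 (B 6393 (L 2592) (L
    2527)) (B 6393 (L 2500) (L 2434))) (C 6906 (B 6393 (L 2584) (L 2518)) (B 6393 (A 9207 (L 2471)
    (L 2466)) (A 9207 (L 2405) (L 2401))))) (A 4600 (C 6906 (B 6649 (L 2462) (L 2396)) (B 6649 (A
    8951 (L 2348) (L 2344)) (A 8951 (L 2283) (L 2279)))) (C 6906 (B 6649 (L 2453) (A 9207 (L 2368)
    (L 2364))) (B 6649 (A 9207 (L 2340) (L 2337)) (A 9207 (L 2275) (L 2272)))))) (B 3322 (A 4600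
    (C 7162 (B 6393 (A 8951 (L 2387) (L 2383)) (A 8951 (L 2321) (L 2317))) (B 6393 (A 8951 (L
    2295) (B 12536 (L 2265) (L 2232))) (A 8951 (B 12792 (L 2203) (L 2170)) (B 12792 (L 2199) (L
    2166))))) (C 7162 (B 6393 (A 9207 (L 2379) (L 2375)) (A 9207 (L 2314) (L 2310))) (B 6393 (A
    9207 (B 12536 (L 2261) (L 2228)) (B 12536 (L 2257) (L 2224))) (A 9207 (B 12792 (L 2195) (L
    2162)) (B 12792 (L 2191) (L 2159)))))) (A 4600 (C 7162 (B 6649 (A 8951 (L 2256) (L 2252)) (A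
    8951 (B 13304 (L 2163) (L 2130)) (B 13304 (L 2159) (L 2126)))) (B 6649 (A 8951 (B 13048 (L
    2137) (L 2103)) (B 13048 (L 2133) (L 2100))) (C 14329 (A 8951 (L 2097) (L 2093)) (L 2)))) (C
    7162 (B 6649 (A 9207 (B 13048 (L 2221) (L 2188)) (B 13048 (L 2217) (L 2185))) (A 9207 (B 13304
    (L 2156) (L 2123)) (B 13304 (L 2152) (L 2119)))) (B 6649 (A 9207 (B 13048 (L 2129) (C 14329 (L
    2096) (L 2050))) (C 14329 (L 2152) (B 13048 (L 2080) (L 2047)))) (C 14329 (A 9207 (B 13304 (L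
    2063) (L 2)) (B 13304 (L 2060) (L 2))) (L 2))))))))
    _ _ _ _ _ _ (by decide +kernel)

theorem ck2_206 : Ok P2 508 254 763 3321 254 509 :=
  sound2
    (B 5880 (A 1019 (C 764 (B 10999 (A 1786 (C 1275 (B 21238 (A 3321 (L 0) (L 0)) (A 3321 (L 0) (L
    0))) (B 21238 (A 3321 (L 0) (L 0)) (A 3321 (L 0) (L 0)))) (C 1275 (A 3577 (L 0) (L 0)) (A 3577
    (L 0) (L 0)))) (A 1786 (C 1275 (B 22518 (A 3321 (L 0) (L 0)) (A 3321 (L 0) (L 0))) (B 22518 (A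
    3321 (L 0) (L 0)) (A 3321 (L 0) (L 0)))) (C 1275 (A 3577 (L 0) (L 0)) (A 3577 (L 0) (L 0)))))
    (B 10999 (A 1786 (C 1531 (B 21238 (A 3321 (L 0) (L 0)) (A 3321 (L 0) (L 0))) (B 21238 (L 0) (A
    3321 (L 0) (L 0)))) (C 1531 (A 3577 (L 0) (L 0)) (A 3577 (L 0) (L 0)))) (A 1786 (C 1531 (B
    22518 (A 3321 (L 0) (L 0)) (A 3321 (L 0) (L 0))) (B 22518 (A 3321 (L 0) (L 0)) (A 3321 (L 0)
    (L 0)))) (C 1531 (A 3577 (L 0) (L 0)) (A 3577 (L 0) (L 0)))))) (C 764 (B 10999 (A 2042 (A 3833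
    (L 0) (L 0)) (L 0)) (A 2042 (C 1275 (L 0) (L 0)) (L 0))) (B 10999 (A 2042 (A 3833 (L 0) (L 0))
    (L 0)) (A 2042 (A 3833 (L 0) (L 0)) (L 0))))) (A 1019 (C 764 (B 12279 (A 1786 (C 1275 (B 23798
    (A 3321 (L 0) (L 0)) (A 3321 (L 0) (L 0))) (B 23798 (A 3321 (L 0) (L 0)) (A 3321 (L 0) (L
    0)))) (C 1275 (A 3577 (L 0) (L 0)) (A 3577 (L 0) (L 0)))) (A 1786 (C 1275 (B 25078 (A 3321 (L
    0) (L 0)) (A 3321 (L 0) (L 0))) (B 25078 (A 3321 (L 0) (L 0)) (A 3321 (L 0) (L 0)))) (C 1275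
    (B 25078 (L 0) (L 0)) (B 25078 (L 0) (L 0))))) (B 12279 (A 1786 (C 1531 (B 23798 (A 3321 (L 0)
    (L 0)) (A 3321 (L 0) (L 0))) (B 23798 (A 3321 (L 0) (L 0)) (A 3321 (L 0) (L 0)))) (C 1531 (A
    3577 (L 0) (L 0)) (A 3577 (L 0) (L 0)))) (A 1786 (C 1531 (B 25078 (A 3321 (L 0) (L 0)) (A 3321
    (L 0) (L 0))) (B 25078 (A 3321 (L 0) (L 0)) (A 3321 (L 0) (L 0)))) (C 1531 (B 25078 (L 0) (L
    0)) (A 3577 (L 0) (L 0)))))) (C 764 (B 12279 (A 2042 (C 1275 (L 0) (L 0)) (A 4089 (L 0) (L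
    0))) (A 2042 (C 1275 (L 0) (L 0)) (A 4089 (L 0) (L 0)))) (B 12279 (A 2042 (C 1531 (L 0) (L 0))
    (L 0)) (A 2042 (C 1531 (L 0) (L 0)) (A 4089 (L 0) (L 0)))))))
    _ _ _ _ _ _ (by decide +kernel)

theorem ck2_238 : Ok P2 508 254 2042 4601 253 508 :=
  sound2
    (B 8440 (A 1019 (C 763 (B 16119 (A 1786 (C 1274 (B 31478 (L 0) (L 0)) (B 31478 (L 0) (L 0)))
    (C 1274 (L 0) (A 3577 (L 0) (L 0)))) (A 1786 (C 1274 (B 32758 (L 0) (L 0)) (B 32758 (A 3321 (L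
    0) (L 0)) (A 3321 (L 0) (L 0)))) (C 1274 (A 3577 (L 0) (L 0)) (A 3577 (L 0) (L 0))))) (B 16119
    (A 1786 (C 1530 (B 31478 (A 3321 (L 0) (L 0)) (A 3321 (L 0) (L 0))) (B 31478 (A 3321 (L 0) (L
    0)) (A 3321 (L 0) (L 0)))) (C 1530 (A 3577 (L 0) (L 0)) (A 3577 (L 0) (L 0)))) (A 1786 (C 1530
    (B 32758 (A 3321 (L 0) (L 0)) (A 3321 (L 0) (L 0))) (B 32758 (A 3321 (L 0) (L 0)) (A 3321 (L
    0) (L 0)))) (C 1530 (A 3577 (L 0) (L 0)) (B 32758 (L 0) (L 0)))))) (C 763 (B 16119 (C 1274 (A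
    2042 (L 0) (L 0)) (A 2042 (L 0) (L 0))) (A 2042 (B 32758 (L 0) (L 0)) (L 0))) (B 16119 (A 2042
    (B 31478 (L 0) (L 0)) (L 0)) (A 2042 (B 32758 (L 0) (L 0)) (A 4089 (L 0) (L 0)))))) (A 1019 (C
    763 (B 17399 (A 1786 (C 1274 (B 34038 (A 3321 (L 0) (L 0)) (A 3321 (L 0) (L 0))) (B 34038 (A
    3321 (L 0) (L 0)) (A 3321 (L 0) (L 0)))) (C 1274 (A 3577 (L 0) (L 0)) (A 3577 (L 0) (L 0))))
    (A 1786 (C 1274 (B 35318 (A 3321 (L 0) (L 0)) (A 3321 (L 0) (L 0))) (B 35318 (A 3321 (L 0) (L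
    0)) (A 3321 (L 0) (L 0)))) (C 1274 (A 3577 (L 0) (L 0)) (B 35318 (L 0) (L 0))))) (B 17399 (A
    1786 (C 1530 (B 34038 (A 3321 (L 0) (L 0)) (A 3321 (L 0) (L 0))) (B 34038 (A 3321 (L 0) (L 0))
    (A 3321 (L 0) (L 0)))) (C 1530 (B 34038 (L 0) (L 0)) (B 34038 (L 0) (L 0)))) (A 1786 (C 1530
    (B 35318 (A 3321 (L 0) (L 0)) (A 3321 (L 0) (L 0))) (B 35318 (A 3321 (L 0) (L 0)) (L 1))) (C
    1530 (B 35318 (L 0) (L 0)) (B 35318 (L 0) (L 1)))))) (C 763 (B 17399 (A 2042 (B 34038 (L 0) (L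
    0)) (A 4089 (L 0) (L 0))) (C 1274 (A 2042 (L 0) (L 0)) (A 2042 (L 0) (L 0)))) (B 17399 (A 2042
    (C 1530 (L 0) (L 0)) (A 4089 (L 0) (L 0))) (A 2042 (C 1530 (A 3833 (L 0) (L 0)) (A 3833 (L 0)
    (L 0))) (B 35318 (L 0) (L 0)))))))
    _ _ _ _ _ _ (by decide +kernel)

theorem ck2_223 : Ok P2 253 763 4601 9720 252 507 :=
  sound2
    (B 18679 (A 1274 (C 762 (B 36598 (A 2297 (C 1273 (L 3428) (L 3453)) (C 1273 (A 4600 (L 3428)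
    (L 3412)) (A 4600 (L 3453) (L 3437)))) (A 2297 (C 1273 (L 3437) (L 3462)) (C 1273 (A 4600 (L
    3437) (A 9207 (L 0) (L 0))) (A 4600 (L 3462) (L 3446))))) (B 36598 (A 2297 (A 4344 (L 3484) (L
    3469)) (C 1529 (A 4600 (L 3476) (L 3461)) (L 3468))) (A 2297 (A 4344 (L 3493) (L 3478)) (C
    1529 (A 4600 (L 3486) (L 3470)) (A 4600 (L 3508) (L 3493)))))) (C 762 (B 36598 (A 2553 (C 1273
    (A 4856 (L 0) (L 0)) (B 72437 (L 0) (L 0))) (C 1273 (L 0) (L 0))) (A 2553 (C 1273 (A 4856 (L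
    0) (L 0)) (B 73717 (L 0) (L 0))) (C 1273 (L 0) (A 5112 (L 0) (L 0))))) (B 36598 (A 2553 (C
    1529 (A 4856 (L 3445) (A 9719 (L 0) (L 0))) (A 4856 (L 3468) (L 3452))) (C 1529 (A 5112 (L 0)
    (L 0)) (A 5112 (L 0) (L 0)))) (A 2553 (C 1529 (A 4856 (L 3454) (A 9719 (L 0) (L 0))) (A 4856
    (L 3477) (A 9719 (L 3477) (L 0)))) (C 1529 (A 5112 (L 0) (L 0)) (B 73717 (L 0) (L 0))))))) (A
    1274 (C 762 (B 37878 (A 2297 (C 1273 (A 4344 (L 3477) (L 3461)) (L 3471)) (C 1273 (A 4600 (L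
    3446) (A 9207 (L 0) (L 0))) (A 4600 (L 3471) (L 3455)))) (A 2297 (C 1273 (A 4344 (L 3486) (L
    3470)) (L 3480)) (C 1273 (A 4600 (L 3455) (A 9207 (L 3455) (L 0))) (A 4600 (L 3480) (A 9207 (L
    3480) (L 3473)))))) (B 37878 (A 2297 (C 1529 (L 3495) (L 3518)) (C 1529 (A 4600 (L 3495) (L
    3479)) (A 4600 (L 3518) (L 3502)))) (C 1529 (A 2297 (L 3505) (A 4600 (L 3505) (L 3489))) (L
    1)))) (C 762 (B 37878 (A 2553 (C 1273 (A 4856 (L 0) (L 0)) (B 74997 (L 0) (L 0))) (C 1273 (L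
    0) (A 5112 (L 0) (L 0)))) (A 2553 (C 1273 (A 4856 (L 0) (L 0)) (B 76277 (L 0) (L 0))) (C 1273
    (L 0) (A 5112 (L 0) (L 0))))) (B 37878 (A 2553 (C 1529 (B 74997 (A 4856 (L 0) (L 0)) (A 4856
    (L 0) (L 0))) (A 4856 (L 3487) (A 9719 (L 3487) (L 0)))) (C 1529 (A 5112 (L 0) (L 0)) (B 74997
    (L 0) (L 0)))) (C 1529 (B 76277 (A 2553 (A 4856 (L 0) (L 0)) (L 0)) (L 1)) (L 1))))))
    _ _ _ _ _ _ (by decide +kernel)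

theorem ck1_119 : Ok P1 508 254 1020 255 255 510 :=
  sound1
    (C 765 (B 2043 (C 1276 (A 1019 (B 3834 (L 0) (L 0)) (A 2042 (L 0) (L 0))) (A 1019 (B 3834 (A
    1786 (L 0) (L 0)) (A 1786 (L 0) (L 0))) (B 3834 (L 0) (L 0)))) (C 1276 (A 1019 (B 4090 (L 0)
    (L 0)) (A 2042 (L 0) (L 0))) (B 4090 (A 1019 (C 2555 (L 0) (L 0)) (L 0)) (A 1019 (C 2555 (L 0)
    (L 0)) (A 2042 (L 0) (L 0)))))) (B 2043 (C 1532 (B 3834 (A 1019 (C 2811 (A 1786 (L 0) (L 0))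
    (A 1786 (L 0) (L 0))) (C 2811 (L 0) (L 0))) (A 1019 (C 2811 (A 1786 (L 0) (L 0)) (B 7673 (L 0)
    (A 1786 (L 0) (L 0)))) (C 2811 (L 0) (L 0)))) (B 3834 (A 1019 (C 3067 (A 1786 (B 7417 (L 0) (L
    0)) (A 3577 (L 0) (L 0))) (A 1786 (B 7417 (A 3321 (L 0) (L 0)) (A 3321 (L 0) (L 0))) (B 7417
    (L 0) (L 0)))) (C 3067 (A 2042 (L 0) (L 0)) (B 7417 (L 0) (L 0)))) (A 1019 (C 3067 (A 1786 (B
    7673 (L 0) (L 0)) (A 3577 (L 0) (L 0))) (B 7673 (A 1786 (A 3321 (L 0) (L 0)) (L 0)) (A 1786 (A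
    3321 (L 0) (L 0)) (L 0)))) (C 3067 (A 2042 (L 0) (L 0)) (B 7673 (A 2042 (L 0) (L 0)) (A 2042
    (L 0) (L 0))))))) (C 1532 (B 4090 (A 1019 (C 2811 (A 1786 (L 0) (L 0)) (B 7929 (A 1786 (L 0)
    (L 0)) (A 1786 (L 0) (L 0)))) (C 2811 (L 0) (A 2042 (L 0) (L 0)))) (A 1019 (C 2811 (A 1786 (L
    0) (L 0)) (B 8185 (A 1786 (L 0) (L 0)) (A 1786 (L 0) (L 0)))) (C 2811 (L 0) (A 2042 (L 0) (L
    0))))) (B 4090 (A 1019 (C 3067 (B 7929 (A 1786 (L 0) (L 0)) (A 1786 (L 0) (L 0))) (C 6138 (B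
    7929 (A 1786 (L 0) (L 0)) (A 1786 (L 0) (L 0))) (L 2))) (C 3067 (B 7929 (L 0) (L 0)) (C 6138
    (A 2042 (L 0) (L 0)) (L 2)))) (C 3067 (A 1019 (B 8185 (A 1786 (A 3321 (L 0) (L 0)) (L 0)) (C
    5882 (L 0) (L 2))) (B 8185 (L 0) (A 2042 (L 0) (L 0)))) (L 2))))))
    _ _ _ _ _ _ (by decide +kernel)

theorem ck2_217 : Ok P2 763 508 8440 4601 252 253 :=
  sound2
    (C 507 (B 17399 (A 1530 (C 762 (B 34038 (C 1273 (L 0) (A 2809 (L 0) (L 0))) (C 1273 (L 0) (A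
    2809 (L 0) (L 0)))) (B 34038 (A 2809 (B 67317 (L 0) (L 0)) (L 0)) (A 2809 (B 68597 (L 0) (L
    0)) (A 5624 (L 0) (L 0))))) (C 762 (B 34038 (L 0) (L 0)) (B 34038 (A 3065 (L 0) (L 0)) (A 3065
    (L 0) (L 0))))) (A 1530 (C 762 (B 35318 (C 1273 (L 0) (A 2809 (L 0) (L 0))) (C 1273 (L 0) (A
    2809 (L 0) (L 0)))) (B 35318 (A 2809 (B 69877 (L 0) (L 0)) (A 5624 (L 0) (L 0))) (A 2809 (C
    1529 (L 0) (L 0)) (A 5624 (L 0) (L 0))))) (C 762 (B 35318 (L 0) (L 0)) (B 35318 (A 3065 (L 0)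
    (L 0)) (A 3065 (L 0) (L 0)))))) (B 17399 (A 1530 (C 1018 (B 34038 (A 2809 (C 1785 (L 0) (A
    5368 (L 0) (L 0))) (A 5624 (L 0) (L 0))) (A 2809 (C 1785 (L 0) (A 5368 (L 0) (L 0))) (A 5624
    (L 0) (L 0)))) (B 34038 (A 2809 (C 2041 (A 5368 (L 0) (L 0)) (A 5368 (L 0) (L 0))) (B 67317 (L
    0) (L 0))) (A 2809 (C 2041 (A 5368 (L 0) (L 0)) (A 5368 (L 0) (L 0))) (B 68597 (L 0) (L 0)))))
    (C 1018 (B 34038 (A 3065 (L 0) (L 0)) (A 3065 (L 0) (L 0))) (B 34038 (A 3065 (A 5880 (L 0) (L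
    0)) (L 0)) (C 2041 (L 0) (A 3065 (L 0) (L 0)))))) (A 1530 (C 1018 (B 35318 (A 2809 (C 1785 (L
    0) (A 5368 (L 0) (L 0))) (B 69877 (L 0) (L 0))) (A 2809 (C 1785 (A 5368 (L 0) (L 0)) (A 5368
    (L 0) (L 0))) (B 71157 (L 0) (L 0)))) (B 35318 (A 2809 (C 2041 (A 5368 (L 0) (L 0)) (A 5368 (L
    0) (L 0))) (C 2041 (L 0) (L 0))) (A 2809 (C 2041 (A 5368 (L 0) (L 0)) (B 71157 (L 0) (L 0)))
    (C 2041 (L 0) (L 0))))) (C 1018 (B 35318 (A 3065 (L 0) (L 0)) (A 3065 (L 0) (L 0))) (B 35318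
    (C 2041 (A 3065 (L 0) (L 0)) (A 3065 (L 0) (L 0))) (A 3065 (A 5880 (L 0) (L 0)) (L 0)))))))
    _ _ _ _ _ _ (by decide +kernel)

theorem ck2_180 : Ok P2 253 508 7160 2042 0 252 :=
  sound2
    (A 763 (C 251 (B 14839 (A 1274 (C 250 (B 28918 (L 0) (L 0)) (B 28918 (A 2297 (A 4344 (L 0) (L
    0)) (L 0)) (A 2297 (A 4344 (L 0) (L 0)) (L 0)))) (C 250 (L 0) (B 28918 (L 0) (L 0)))) (A 1274
    (C 250 (B 30198 (L 0) (L 0)) (B 30198 (A 2297 (A 4344 (L 0) (L 0)) (L 0)) (A 2297 (A 4344 (L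
    0) (L 0)) (L 0)))) (C 250 (L 0) (B 30198 (L 0) (L 0))))) (B 14839 (A 1274 (C 506 (B 28918 (A
    2297 (C 761 (L 0) (L 3255)) (A 4600 (L 0) (L 0))) (A 2297 (C 761 (L 0) (L 3262)) (A 4600 (L 0)
    (L 0)))) (B 28918 (A 2297 (L 3264) (C 1017 (L 0) (L 3276))) (A 2297 (A 4344 (L 3300) (L 3285))
    (C 1017 (L 0) (L 3283))))) (C 506 (B 28918 (A 2553 (L 0) (L 0)) (A 2553 (L 0) (L 0))) (B 28918
    (A 2553 (A 4856 (L 0) (L 0)) (L 0)) (A 2553 (A 4856 (L 0) (L 0)) (L 0))))) (A 1274 (C 506 (B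
    30198 (A 2297 (C 761 (L 0) (L 3269)) (A 4600 (L 0) (L 0))) (A 2297 (C 761 (L 0) (L 3276)) (A
    4600 (L 0) (L 0)))) (B 30198 (A 2297 (A 4344 (L 3307) (L 3292)) (C 1017 (A 4600 (L 0) (L 0))
    (L 3291))) (A 2297 (A 4344 (L 3314) (L 3299)) (C 1017 (A 4600 (L 0) (L 0)) (L 3298))))) (C 506
    (B 30198 (A 2553 (L 0) (L 0)) (A 2553 (L 0) (L 0))) (B 30198 (A 2553 (A 4856 (L 0) (L 0)) (L
    0)) (A 2553 (B 60917 (L 0) (L 0)) (L 0))))))) (C 251 (B 14839 (C 250 (L 0) (A 1530 (L 0) (L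
    0))) (C 250 (L 0) (A 1530 (L 0) (L 0)))) (B 14839 (A 1530 (C 506 (A 2809 (L 0) (L 0)) (B 28918
    (L 0) (L 0))) (C 506 (L 0) (L 0))) (A 1530 (C 506 (A 2809 (L 0) (L 0)) (B 30198 (L 0) (A 2809
    (L 0) (L 0)))) (C 506 (L 0) (A 3065 (L 0) (L 0)))))))
    _ _ _ _ _ _ (by decide +kernel)

theorem ck2_215 : Ok P2 253 763 8440 4601 252 507 :=
  sound2
    (B 17399 (A 1274 (C 762 (B 34038 (A 2297 (A 4344 (L 3403) (L 3388)) (C 1273 (A 4600 (L 3393)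
    (L 0)) (L 3387))) (A 2297 (A 4344 (L 3411) (L 3396)) (C 1273 (A 4600 (L 3402) (L 3386)) (A
    4600 (L 3426) (L 3410))))) (A 2297 (B 34038 (L 3419) (L 3428)) (B 34038 (A 4600 (L 3419) (L
    3403)) (C 1529 (L 3418) (L 3440))))) (C 762 (B 34038 (A 2553 (C 1273 (A 4856 (L 0) (L 0)) (A
    4856 (L 0) (L 0))) (B 67317 (L 0) (L 0))) (A 2553 (C 1273 (A 4856 (L 0) (L 0)) (A 4856 (L 0)
    (L 0))) (C 1273 (L 0) (L 0)))) (B 34038 (A 2553 (C 1529 (A 4856 (L 3409) (L 0)) (A 4856 (L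
    3430) (L 3415))) (C 1529 (A 5112 (L 0) (L 0)) (A 5112 (L 0) (L 0)))) (A 2553 (C 1529 (A 4856
    (L 3418) (L 0)) (A 4856 (L 3440) (L 3424))) (C 1529 (A 5112 (L 0) (L 0)) (A 5112 (L 0) (L
    0))))))) (A 1274 (C 762 (B 35318 (A 2297 (A 4344 (L 3419) (L 3404)) (C 1273 (A 4600 (L 3410)
    (L 3395)) (A 4600 (L 3435) (L 3419)))) (A 2297 (C 1273 (L 3419) (L 3444)) (C 1273 (A 4600 (L
    3419) (L 3403)) (A 4600 (L 3443) (L 3428))))) (B 35318 (A 2297 (A 4344 (L 3467) (L 3451)) (C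
    1529 (L 3427) (L 3449))) (A 2297 (A 4344 (L 3475) (L 3460)) (C 1529 (A 4600 (L 3467) (L 3451))
    (L 3458))))) (C 762 (B 35318 (A 2553 (C 1273 (A 4856 (L 0) (L 0)) (A 4856 (L 3404) (L 0))) (C
    1273 (L 0) (L 0))) (A 2553 (C 1273 (A 4856 (L 0) (L 0)) (A 4856 (L 3413) (L 0))) (C 1273 (L 0)
    (L 0)))) (B 35318 (A 2553 (C 1529 (A 4856 (L 3427) (L 0)) (A 4856 (L 3449) (L 3433))) (C 1529
    (A 5112 (L 0) (L 0)) (A 5112 (L 0) (L 0)))) (A 2553 (C 1529 (A 4856 (L 3436) (A 9719 (L 0) (L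
    0))) (A 4856 (L 3458) (L 3443))) (C 1529 (A 5112 (L 0) (L 0)) (A 5112 (L 0) (L 0))))))))
    _ _ _ _ _ _ (by decide +kernel)

theorem ck1_102 : Ok P1 1274 763 1787 1020 1788 1021 :=
  sound1
    (A 2553 (C 3579 (B 3578 (A 4856 (C 6906 (B 6905 (A 9463 (L 2296) (L 2292)) (A 9463 (L 2231) (B
    13816 (L 2200) (L 2168)))) (B 6905 (A 9463 (B 13560 (L 2176) (L 2143)) (B 13560 (L 2172) (L
    2139))) (C 13817 (A 9463 (L 2138) (L 2134)) (L 2)))) (C 6906 (B 6905 (A 9719 (L 2288) (B 13560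
    (L 2257) (L 2225))) (A 9719 (B 13816 (L 2196) (L 2164)) (B 13816 (L 2192) (L 2160)))) (B 6905
    (A 9719 (B 13560 (L 2168) (L 2136)) (B 13560 (L 2164) (L 2132))) (C 13817 (A 9719 (L 2131) (L
    2127)) (L 2))))) (C 6906 (B 7161 (C 13561 (A 4856 (A 9463 (L 2167) (L 2163)) (A 9719 (L 2160)
    (L 2156))) (L 2)) (L 2)) (L 2))) (B 3578 (C 7162 (B 6905 (B 13560 (C 14073 (A 4856 (A 9463 (L
    2083) (L 2079)) (A 9719 (L 0) (L 0))) (L 2)) (L 2)) (L 2)) (L 2)) (L 2))) (C 3579 (B 3578 (B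
    6905 (C 6906 (B 13560 (A 5112 (A 9975 (L 0) (L 0)) (L 0)) (A 5112 (A 9975 (L 2221) (L 0)) (A
    10231 (L 0) (L 0)))) (B 13560 (A 5112 (C 13817 (L 0) (L 0)) (A 10231 (L 0) (L 0))) (A 5112 (C
    13817 (L 0) (A 9975 (L 0) (L 0))) (C 13817 (L 0) (L 0))))) (C 6906 (B 13816 (A 5112 (A 9975 (L
    2189) (L 2185)) (A 10231 (L 0) (L 0))) (A 5112 (A 9975 (L 2157) (L 2153)) (A 10231 (L 2149) (L
    0)))) (B 13816 (C 13817 (A 5112 (A 9975 (L 0) (L 0)) (L 0)) (L 2)) (L 2)))) (B 7161 (C 6906 (B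
    14072 (C 13561 (A 5112 (L 0) (L 0)) (L 2)) (L 2)) (L 2)) (L 2))) (B 3578 (B 6905 (C 7162 (B
    13560 (C 14073 (A 5112 (A 9975 (L 0) (L 0)) (L 0)) (L 2)) (L 2)) (L 2)) (L 2)) (L 2))))
    _ _ _ _ _ _ (by decide +kernel)

theorem ck2_265 : Ok P2 254 255 1019 764 0 253 :=
  sound2
    (B 2298 (C 252 (A 509 (B 4089 (A 764 (C 251 (L 0) (B 7672 (L 0) (L 0))) (A 1531 (L 0) (L 0)))
    (A 764 (C 251 (A 1275 (L 0) (L 0)) (B 8440 (L 0) (L 0))) (B 8440 (L 0) (L 0)))) (B 4089 (L 0)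
    (L 0))) (A 509 (B 4089 (A 764 (C 507 (B 7672 (L 0) (A 1275 (L 0) (L 0))) (B 7672 (A 1275 (L 0)
    (L 0)) (A 1275 (L 0) (L 0)))) (B 7672 (L 0) (L 0))) (A 764 (C 507 (B 8440 (A 1275 (L 0) (L 0))
    (A 1275 (L 0) (L 0))) (B 8440 (A 1275 (L 0) (L 0)) (A 1275 (A 2298 (L 0) (L 0)) (L 0)))) (C
    507 (L 0) (A 1531 (L 0) (L 0))))) (B 4089 (L 0) (B 8440 (L 0) (L 0))))) (C 252 (A 509 (B 4857
    (C 251 (B 9208 (A 764 (L 0) (L 0)) (A 764 (L 0) (L 0))) (A 764 (B 9208 (A 1275 (L 0) (L 0)) (A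
    1275 (L 0) (L 0))) (L 0))) (C 251 (B 9976 (A 764 (L 0) (L 0)) (A 764 (L 0) (L 0))) (A 764 (B
    9976 (A 1275 (L 0) (L 0)) (B 20215 (L 0) (L 1))) (A 1531 (L 0) (L 0))))) (B 4857 (A 1020 (L 0)
    (L 0)) (B 9976 (L 0) (L 0)))) (A 509 (B 4857 (A 764 (C 507 (B 9208 (A 1275 (L 0) (L 0)) (C 762
    (L 0) (A 1275 (L 0) (L 0)))) (B 9208 (A 1275 (A 2298 (L 0) (L 0)) (L 0)) (A 1275 (B 18679 (L
    0) (L 0)) (L 0)))) (C 507 (A 1531 (L 0) (L 0)) (B 9208 (L 0) (L 0)))) (C 507 (B 9976 (A 764 (C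
    762 (L 0) (A 1275 (L 0) (L 0))) (L 0)) (L 1)) (L 1))) (B 4857 (B 9208 (L 0) (L 0)) (C 507 (L
    0) (L 1))))))
    _ _ _ _ _ _ (by decide +kernel)

theorem ck1_30 : Ok P1 252 762 254 764 1021 383 :=
  sound1
    (C 2044 (A 1273 (B 1275 (B 2298 (L 3659) (L 3500)) (C 3835 (L 3448) (B 2554 (L 3160) (L
    3006)))) (B 1275 (A 2552 (B 2298 (L 3557) (L 3401)) (B 2298 (L 3549) (L 3394))) (C 3835 (B
    2554 (L 3324) (L 3172)) (B 2554 (L 3140) (A 2552 (L 2920) (L 2913)))))) (B 1275 (A 1273 (C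
    4091 (A 2296 (L 3317) (B 2298 (L 3210) (L 3052))) (B 2298 (A 2296 (L 1) (L 1)) (A 2296 (B 4601
    (L 1) (L 2754)) (A 4599 (L 1) (L 1))))) (C 4091 (B 2298 (A 2552 (L 3202) (L 3194)) (A 2552 (L
    3044) (L 3035))) (B 2298 (A 2552 (L 1) (L 1)) (A 2552 (B 4601 (L 1) (L 1)) (L 1))))) (A 1273
    (C 4091 (B 2554 (A 2296 (L 2905) (L 2897)) (A 2296 (L 2753) (L 2745))) (B 2554 (A 2296 (C 8186
    (L 2722) (B 4857 (L 1) (L 2507))) (C 8186 (L 2714) (B 4857 (L 1) (L 1)))) (A 2296 (C 8186 (L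
    2569) (B 5113 (L 2430) (A 4343 (L 2325) (L 2322)))) (C 8186 (B 5113 (L 2514) (L 2438)) (B 5113
    (A 4599 (L 1) (L 1)) (A 4599 (L 2318) (L 1))))))) (C 4091 (B 2554 (A 2552 (L 2889) (B 4857 (L
    2833) (L 2757))) (A 2552 (B 5113 (L 2690) (L 2615)) (B 5113 (L 2682) (L 2607)))) (B 2554 (A
    2552 (C 8186 (B 4857 (L 1) (L 2582)) (L 1)) (C 8186 (B 4857 (L 1) (L 1)) (L 1))) (A 2552 (C
    8186 (B 5113 (L 2506) (L 2430)) (A 4855 (B 5113 (L 1) (L 1)) (B 5113 (L 1) (L 1)))) (C 8186 (B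
    5113 (L 2497) (A 5111 (L 2395) (L 1))) (A 5111 (L 1) (L 1)))))))))
    _ _ _ _ _ _ (by decide +kernel)

theorem ck2_229 : Ok P2 763 508 2042 8440 253 763 :=
  sound2
    (B 16119 (A 1530 (C 1274 (B 31478 (A 2809 (C 2297 (A 5368 (L 0) (L 0)) (A 5368 (L 0) (L 0)))
    (B 62197 (L 0) (L 0))) (A 2809 (C 2297 (A 5368 (L 0) (L 0)) (A 5368 (L 0) (L 0))) (B 63477 (L
    0) (L 0)))) (B 31478 (A 2809 (C 2553 (L 3424) (L 3438)) (C 2553 (L 0) (A 5624 (L 0) (L 0))))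
    (A 2809 (C 2553 (A 5368 (L 3465) (L 0)) (L 3448)) (C 2553 (L 0) (A 5624 (L 0) (L 0)))))) (C
    1274 (B 31478 (A 3065 (A 5880 (L 0) (L 0)) (L 0)) (A 3065 (A 5880 (L 0) (L 0)) (L 0))) (B
    31478 (A 3065 (A 5880 (L 0) (L 0)) (L 0)) (A 3065 (A 5880 (L 0) (L 0)) (L 0))))) (A 1530 (C
    1274 (B 32758 (A 2809 (C 2297 (A 5368 (L 0) (L 0)) (A 5368 (L 3459) (L 0))) (B 64757 (L 0) (L
    0))) (A 2809 (C 2297 (A 5368 (L 0) (L 0)) (A 5368 (L 3469) (L 0))) (C 2297 (L 0) (L 0)))) (B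
    32758 (A 2809 (C 2553 (A 5368 (L 3475) (L 0)) (A 5368 (L 3490) (L 0))) (C 2553 (A 5624 (L 0)
    (L 0)) (A 5624 (L 0) (L 0)))) (A 2809 (C 2553 (A 5368 (L 3485) (L 0)) (A 5368 (L 3500) (L 0)))
    (C 2553 (A 5624 (L 0) (L 0)) (A 5624 (L 0) (L 0)))))) (C 1274 (B 32758 (A 3065 (A 5880 (L 0)
    (L 0)) (L 0)) (A 3065 (A 5880 (L 0) (L 0)) (L 0))) (B 32758 (A 3065 (A 5880 (L 0) (L 0)) (L
    0)) (A 3065 (A 5880 (L 0) (L 0)) (L 0))))))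
    _ _ _ _ _ _ (by decide +kernel)

theorem ck2_224 : Ok P2 253 763 4601 9720 507 253 :=
  sound2
    (B 18679 (A 1274 (C 1018 (A 2297 (B 36598 (A 4344 (L 3528) (L 3513)) (A 4344 (L 3537) (L
    3522))) (B 36598 (C 1785 (L 3489) (L 3509)) (C 1785 (L 3498) (L 3519)))) (A 2297 (B 36598 (L
    3537) (L 3547)) (B 36598 (A 4600 (L 3537) (L 3521)) (A 4600 (L 3547) (L 3531))))) (C 1018 (B
    36598 (A 2553 (C 1785 (A 4856 (L 3489) (L 3473)) (A 4856 (L 3509) (L 3494))) (C 1785 (B 72437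
    (L 0) (L 0)) (A 5112 (L 3478) (A 10231 (L 0) (L 0))))) (A 2553 (C 1785 (A 4856 (L 3499) (L
    3483)) (A 4856 (L 3519) (L 3504))) (C 1785 (B 73717 (L 0) (L 0)) (B 73717 (A 5112 (L 0) (L 0))
    (A 5112 (L 0) (L 0)))))) (B 36598 (A 2553 (C 2041 (A 4856 (L 3529) (L 3513)) (A 4856 (L 3547)
    (L 3532))) (C 2041 (A 5112 (L 3498) (A 10231 (L 0) (L 0))) (A 5112 (L 3516) (A 10231 (L 3516)
    (L 0))))) (A 2553 (C 2041 (A 4856 (L 3539) (L 3523)) (A 4856 (L 3558) (L 3542))) (C 2041 (A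
    5112 (L 3508) (A 10231 (L 3508) (L 0))) (B 73717 (A 5112 (L 0) (L 0)) (L 1))))))) (C 1018 (B
    37878 (A 1274 (A 2297 (A 4344 (L 3547) (L 3532)) (C 1785 (L 3508) (L 3529))) (A 2553 (C 1785
    (A 4856 (L 3509) (A 9719 (L 3509) (L 3501))) (A 4856 (L 3529) (L 3514))) (C 1785 (B 74997 (L
    0) (L 0)) (B 74997 (A 5112 (L 0) (L 0)) (L 1))))) (L 1)) (L 1)))
    _ _ _ _ _ _ (by decide +kernel)

theorem ck1_44 : Ok P1 507 253 254 764 510 1021 :=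
  sound1
    (A 1018 (B 1275 (C 1788 (A 1785 (L 4423) (B 2298 (L 4276) (L 4124))) (A 1785 (B 2298 (A 3320
    (L 3861) (L 3852)) (A 3320 (L 3708) (L 3699))) (B 2298 (A 3576 (L 3842) (L 3832)) (A 3576 (L
    3690) (L 3680))))) (C 1788 (A 1785 (B 2554 (L 3999) (L 3854)) (B 2554 (L 3976) (L 3832))) (A
    1785 (C 3579 (B 2554 (L 3631) (L 3484)) (B 2554 (L 3448) (L 3299))) (C 3579 (B 2554 (L 3609)
    (L 3463)) (B 2554 (A 3576 (L 3363) (L 3354)) (A 3576 (L 3218) (L 3209))))))) (B 1275 (C 1788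
    (A 2041 (B 2298 (L 4251) (L 4099)) (B 2298 (C 3323 (L 0) (L 0)) (C 3323 (L 4074) (L 3893))))
    (A 2041 (B 2298 (C 3579 (L 0) (L 0)) (C 3579 (L 3737) (A 3832 (L 0) (L 0)))) (B 2298 (C 3579
    (L 0) (L 0)) (C 3579 (A 4088 (L 0) (L 0)) (L 0))))) (C 1788 (A 2041 (B 2554 (A 3832 (L 3882)
    (L 3871)) (A 3832 (L 3741) (L 3731))) (B 2554 (C 3323 (L 3928) (L 3745)) (C 3323 (L 3786) (L
    3602)))) (A 2041 (C 3579 (B 2554 (L 3587) (A 3832 (L 3380) (L 3370))) (B 2554 (A 3832 (L 3344)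
    (L 3334)) (A 3832 (L 3199) (L 3190)))) (C 3579 (B 2554 (A 4088 (L 3502) (L 3492)) (A 4088 (L
    3360) (L 3350))) (B 2554 (A 4088 (L 3324) (L 0)) (A 4088 (B 5113 (L 0) (L 3054)) (B 5113 (L 0)
    (L 0)))))))))
    _ _ _ _ _ _ (by decide +kernel)

theorem ck1_77 : Ok P1 253 763 1531 509 510 1788 :=
  sound1
    (A 1274 (A 2297 (B 3066 (C 3323 (A 4344 (L 3299) (L 3289)) (A 4344 (L 3115) (L 3105))) (C 3323
    (A 4344 (L 3170) (L 3161)) (A 4344 (B 6137 (L 2926) (L 2860)) (B 6137 (L 2916) (L 2851))))) (B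
    3066 (C 3323 (A 4600 (L 3279) (L 3268)) (A 4600 (B 5881 (L 3037) (L 2971)) (B 5881 (L 3026) (L
    2962)))) (C 3323 (A 4600 (L 3151) (L 3141)) (A 4600 (B 6137 (L 2907) (L 2842)) (B 6137 (L
    2897) (L 2832)))))) (B 3066 (C 3323 (A 2553 (A 4856 (L 3258) (B 5881 (L 0) (L 0))) (B 5881 (L
    0) (A 5112 (L 0) (L 0)))) (A 2553 (A 4856 (B 5881 (L 3016) (L 2951)) (B 5881 (L 0) (C 6650 (L
    0) (L 0)))) (B 5881 (A 5112 (L 0) (L 0)) (A 5112 (L 0) (L 0))))) (C 3323 (A 2553 (A 4856 (B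
    6137 (L 3070) (L 3007)) (B 6137 (L 3059) (L 2997))) (B 6137 (A 5112 (L 0) (L 0)) (A 5112 (L
    2986) (L 0)))) (A 2553 (A 4856 (B 6137 (L 2887) (C 6650 (L 2823) (L 2731))) (B 6137 (C 6650 (L
    0) (L 0)) (C 6650 (L 0) (L 0)))) (B 6137 (C 6650 (L 0) (L 0)) (C 6650 (L 0) (A 5112 (L 0) (L
    0))))))))
    _ _ _ _ _ _ (by decide +kernel)

theorem ck1_116 : Ok P1 508 254 254 509 255 510 :=
  sound1
    (B 764 (B 1275 (C 765 (A 1019 (A 1786 (L 0) (L 0)) (L 0)) (A 1019 (C 1532 (L 0) (L 0)) (L 0)))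
    (C 765 (A 1019 (C 1276 (L 0) (L 0)) (L 0)) (A 1019 (C 1532 (A 1786 (L 0) (L 0)) (A 1786 (L 0)
    (L 0))) (C 1532 (L 0) (L 0))))) (C 765 (B 1531 (A 1019 (B 2810 (L 0) (A 1786 (L 0) (L 0))) (A
    2042 (L 0) (L 0))) (A 1019 (B 3066 (A 1786 (L 0) (L 0)) (C 1276 (L 0) (L 0))) (C 1276 (L 0) (L
    0)))) (B 1531 (A 1019 (C 1532 (B 2810 (L 0) (L 0)) (B 2810 (A 1786 (L 0) (L 0)) (A 1786 (L 0)
    (L 0)))) (C 1532 (L 0) (A 2042 (L 0) (L 0)))) (C 1532 (A 1019 (B 3066 (A 1786 (L 0) (L 0)) (A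
    1786 (L 0) (L 0))) (B 3066 (L 0) (L 0))) (A 1019 (B 3066 (A 1786 (A 3321 (L 0) (L 0)) (L 0))
    (A 1786 (C 3067 (L 0) (L 0)) (L 0))) (B 3066 (L 0) (A 2042 (L 0) (L 0))))))))
    _ _ _ _ _ _ (by decide +kernel)

theorem ck1_55 : Ok P1 1018 253 764 1531 2044 383 :=
  sound1
    (C 4091 (B 2810 (A 2041 (C 7930 (B 5369 (L 0) (A 3832 (L 0) (L 0))) (A 3832 (L 0) (L 0))) (C
    7930 (A 4088 (L 0) (L 0)) (L 0))) (A 2041 (C 7930 (B 5625 (A 3832 (A 7415 (L 0) (L 0)) (L 0))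
    (A 3832 (C 15609 (A 7415 (L 0) (L 0)) (L 0)) (A 7671 (L 0) (L 0)))) (B 5625 (A 3832 (L 0) (L
    0)) (A 3832 (A 7415 (L 0) (L 0)) (L 0)))) (C 7930 (B 5625 (A 4088 (L 0) (L 0)) (A 4088 (A 7927
    (L 0) (L 0)) (L 0))) (B 5625 (L 0) (A 4088 (L 0) (L 0)))))) (B 2810 (A 2041 (C 8186 (A 3832 (L
    0) (L 0)) (L 0)) (A 4088 (L 0) (L 0))) (A 2041 (C 8186 (B 5625 (L 0) (A 3832 (L 0) (L 0))) (B
    5625 (L 0) (L 0))) (C 8186 (B 5625 (L 0) (L 0)) (A 4088 (L 0) (L 0))))))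
    _ _ _ _ _ _ (by decide +kernel)

theorem ck1_12 : Ok P1 251 252 253 255 0 255 :=
  sound1
    (B 254 (C 254 (A 506 (L 17172) (B 508 (L 14981) (L 14184))) (A 506 (L 12096) (B 508 (L 10983)
    (L 10000)))) (C 254 (A 506 (B 509 (B 764 (L 14998) (L 14738)) (C 253 (L 15774) (L 11966))) (B
    509 (C 253 (L 14669) (L 12110)) (C 253 (L 14492) (B 1020 (L 10416) (L 10163))))) (A 506 (B 509
    (A 761 (L 9729) (L 9735)) (C 509 (B 1020 (L 8554) (L 8162)) (A 761 (L 7254) (B 1020 (L 6502)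
    (L 6104))))) (B 509 (C 509 (L 10166) (B 764 (L 7908) (L 7354))) (C 509 (B 1020 (L 8367) (L
    8005)) (B 1020 (A 1017 (L 6507) (L 6503)) (A 1017 (L 6111) (L 6110))))))))
    _ _ _ _ _ _ (by decide +kernel)

theorem ck1_16 : Ok P1 506 252 254 509 510 1021 :=
  sound1
    (B 764 (A 1017 (B 1275 (L 4522) (L 4221)) (B 1275 (L 4509) (C 1788 (L 4207) (L 3834)))) (A
    1017 (C 1788 (B 1531 (L 3934) (L 3655)) (B 1531 (L 3555) (A 1784 (L 3177) (L 3173)))) (C 1788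
    (B 1531 (L 3919) (L 3640)) (B 1531 (A 2040 (L 3448) (L 3444)) (A 2040 (L 3169) (L 3164))))))
    _ _ _ _ _ _ (by decide +kernel)

theorem ck2_131 : Ok P2 252 253 0 759 0 383 :=
  sound2
    (L 2969)
    _ _ _ _ _ _ (by decide +kernel)

end Vale.Agent.P322
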