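import Vale.Agent.P322.CKPoly

/-!
Fixed point interval arithmetic on nonnegative reals.
-/

namespace Vale.Agent.P322

open Real Finset

structure Iv where
  lo : ℕ
  hi : ℕ

def In (a : Iv) (x : ℝ) : Prop := (a.lo : ℝ) ≤ x * 2 ^ 128 ∧ x * 2 ^ 128 ≤ a.hi

namespace Iv

def add (a b : Iv) : Iv := ⟨Nat.add a.lo b.lo, Nat.add a.hi b.hi⟩
def sub (a b : Iv) : Iv := ⟨Nat.sub a.lo b.hi, Nat.sub a.hi b.lo⟩
def mul (a b : Iv) : Iv := ⟨Nat.shiftRight (Nat.mul a.lo b.lo) 128,
  Nat.succ (Nat.shiftRight (Nat.mul a.hi b.hi) 128)⟩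
def div (a b : Iv) : Iv := ⟨Nat.div (Nat.shiftLeft a.lo 128) b.hi,
  Nat.succ (Nat.div (Nat.shiftLeft a.hi 128) b.lo)⟩
def pt (k : ℕ) : Iv := ⟨k, k⟩
def n (k : ℕ) : Iv := pt (Nat.shiftLeft k 128)
def c (p q : ℕ) : Iv := ⟨Nat.div (Nat.shiftLeft p 128) q, Nat.succ (Nat.div (Nat.shiftLeft p 128) q)⟩
def pos (a : Iv) : Bool := Nat.blt 0 a.lo
def le (a b : Iv) : Bool := Nat.ble a.hi b.lo
def lt (a b : Iv) : Bool := Nat.blt a.hi b.lo
def ln2 : Iv := ⟨(c 6931471803 10000000000).lo, (c 6931471808 10000000000).hi⟩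

def lgS (k : ℕ) (u l : Iv) : Iv :=
  let U := u.mul u
  ((n k).mul ln2).add (((n 2).mul u).mul ((n 1).add (U.mul ((c 1 3).add (U.mul ((c 1 5).add
    (U.mul ((c 1 7).add (U.mul ((c 1 9).add (U.mul l)))))))))))

def lgG (a : ℕ) (l : Iv) : Iv :=
  let k := Nat.sub (Nat.log2 a) 128
  let m : Iv := ⟨Nat.shiftRight a k, Nat.succ (Nat.shiftRight a k)⟩
  lgS k ((m.sub (n 1)).div (m.add (n 1))) l

def lg (a : Iv) : Iv := ⟨(lgG a.lo (n 0)).lo, (lgG a.hi (c 9 8)).hi⟩
def invLo (a : Iv) : Iv := pt ((n 1).div a).lo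
def lgInv (a : Iv) : Iv := pt (lg ((n 1).div a)).lo
def nlHi (a : Iv) : Iv :=
  let z := pt a.hi
  let l := pt (lg ((n 1).div z)).hi
  (z.add (a.mul (l.sub (n 1)))).sub (a.mul ((n 1).sub l))

def geo (t : Iv) (k : ℕ) : Iv := k.rec (n 1) fun _ r => (n 1).add (t.mul r)

def phiLo (y : Iv) : Iv :=
  (c 1 2).add (y.mul ((c 1 12).add (y.mul ((c 1 30).add (y.mul ((c 1 56).add (y.mul ((c 1 90).add
    (y.mul (c 1 132))))))))))

def phiHi (y : Iv) : Iv :=
  (c 1 2).add (y.mul ((c 1 12).add (y.mul ((c 1 30).add (y.mul ((c 1 56).add (y.mul ((c 1 90).add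
    (y.mul ((c 1 132).add (y.mul ((c 1 182).add (y.mul ((c 1 240).add
    (y.mul (c 1 33))))))))))))))))

def kLo (u : Iv) : Iv := u.mul ((c 1 2).add (u.mul (c 1 6)))

def kHi (u : Iv) : Iv :=
  u.mul ((c 1 2).add (u.mul ((c 1 6).add (u.mul ((c 1 12).add (u.mul ((c 1 20).add
    (u.mul ((c 1 30).add (u.mul (c 1 6)))))))))))

def psi (t y : Iv) : Iv :=
  (c 1 12).add (y.mul (((c 1 30).mul (geo t 1)).add (y.mul (((c 1 56).mul (geo t 2)).add
    (y.mul (((c 1 90).mul (geo t 3)).add (y.mul (((c 1 132).mul (geo t 4)).add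
    (y.mul (((c 1 182).mul (geo t 5)).add (y.mul (((c 1 240).mul (geo t 6)).add
    (y.mul (((c 1 306).mul (geo t 7)).add (y.mul ((c 1 380).mul (geo t 8)))))))))))))))))

def af (t x : Iv) : Iv :=
  ((n 1).add x).mul ((c 1 2).add (t.mul (((c 1 12).mul (geo (x.mul x) 1)).add
    (t.mul (((c 1 30).mul (geo (x.mul x) 2)).add (t.mul (((c 1 56).mul (geo (x.mul x) 3)).add
    (t.mul ((c 1 90).mul (geo (x.mul x) 4))))))))))

end Iv

theorem cast_div_ge (a : ℕ) {b : ℕ} (hb : 0 < b) : (a : ℝ) / b ≤ (Nat.succ (a / b) : ℕ) := by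
  rw [div_le_iff₀ (by exact_mod_cast hb)]
  exact_mod_cast (Nat.lt_div_mul_add hb).le.trans (by rw [Nat.succ_mul])

theorem cast_shl (a k : ℕ) : ((Nat.shiftLeft a k : ℕ) : ℝ) = a * 2 ^ k := by
  exact_mod_cast Nat.shiftLeft_eq a k

theorem cast_shr_le (a k : ℕ) : ((Nat.shiftRight a k : ℕ) : ℝ) ≤ a / 2 ^ k := by
  have := Nat.cast_div_le (α := ℝ) (m := a) (n := 2 ^ k)
  rwa [← Nat.shiftRight_eq_div_pow, Nat.cast_pow] at this

theorem cast_shr_ge (a k : ℕ) : (a : ℝ) / 2 ^ k ≤ (Nat.succ (Nat.shiftRight a k) : ℕ) := by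
  have := cast_div_ge a (b := 2 ^ k) (by positivity)
  rwa [← Nat.shiftRight_eq_div_pow, Nat.cast_pow] at this

namespace In

variable {a b : Iv} {x y : ℝ}

theorem nonneg (h : In a x) : 0 ≤ x :=
  nonneg_of_mul_nonneg_left ((Nat.cast_nonneg _).trans h.1) (by positivity)

theorem add (ha : In a x) (hb : In b y) : In (a.add b) (x + y) := by
  simp only [In, Iv.add, Nat.add_eq, Nat.cast_add, add_mul]
  exact ⟨add_le_add ha.1 hb.1, add_le_add ha.2 hb.2⟩

theorem tsub (ha : In a x) (hb : In b y) : In (a.sub b) (max (x - y) 0) := by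
  simp only [In, Iv.sub, Nat.sub_eq, max_mul_of_nonneg _ _ (show (0 : ℝ) ≤ 2 ^ 128 by positivity),
    zero_mul, sub_mul]
  constructor
  · rcases le_total b.hi a.lo with h | h
    · rw [Nat.cast_sub h]
      exact le_max_of_le_left (sub_le_sub ha.1 hb.2)
    · rw [Nat.sub_eq_zero_of_le h, Nat.cast_zero]
      exact le_max_right _ _
  · refine max_le ?_ (Nat.cast_nonneg _)
    have : (a.hi : ℝ) ≤ (a.hi - b.lo : ℕ) + b.lo := by exact_mod_cast le_tsub_add
    linarith [ha.2, hb.1]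

theorem sub (ha : In a x) (hb : In b y) (h : y ≤ x) : In (a.sub b) (x - y) := by
  have := ha.tsub hb
  rwa [max_eq_left (sub_nonneg.2 h)] at this

theorem mul (ha : In a x) (hb : In b y) : In (a.mul b) (x * y) := by
  have hS : (0 : ℝ) < 2 ^ 128 := by positivity
  constructor
  · refine (cast_shr_le _ _).trans ?_
    rw [div_le_iff₀ hS, Nat.mul_eq, Nat.cast_mul]
    refine (mul_le_mul ha.1 hb.1 (Nat.cast_nonneg _) (mul_nonneg ha.nonneg hS.le)).trans_eq ?_
    ring
  · refine le_trans ?_ (cast_shr_ge _ _)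
    rw [le_div_iff₀ hS, Nat.mul_eq, Nat.cast_mul]
    refine le_of_eq_of_le ?_ (mul_le_mul ha.2 hb.2 (mul_nonneg hb.nonneg hS.le) (Nat.cast_nonneg _))
    ring

theorem div_lo (ha : In a x) (hb : In b y) (hy : 0 < y) :
    ((a.div b).lo : ℝ) ≤ x / y * 2 ^ 128 := by
  have hS : (0 : ℝ) < 2 ^ 128 := by positivity
  refine Nat.cast_div_le.trans ?_
  rw [cast_shl, show x / y * 2 ^ 128 = x * 2 ^ 128 * 2 ^ 128 / (y * 2 ^ 128) by field_simp]
  exact div_le_div₀ (by have := ha.nonneg; positivity) (mul_le_mul_of_nonneg_right ha.1 hS.le)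
    (by positivity) hb.2

theorem div (ha : In a x) (hb : In b y) (h : b.pos = true) : In (a.div b) (x / y) := by
  have hS : (0 : ℝ) < 2 ^ 128 := by positivity
  have h0 : 0 < b.lo := Nat.blt_eq.mp h
  have h1 : (0 : ℝ) < b.lo := by exact_mod_cast h0
  have hy : 0 < y := pos_of_mul_pos_right' (h1.trans_le hb.1) hS
  refine ⟨ha.div_lo hb hy, le_trans ?_ (cast_div_ge _ h0)⟩
  rw [cast_shl, show x / y * 2 ^ 128 = x * 2 ^ 128 * 2 ^ 128 / (y * 2 ^ 128) by field_simp]
  exact div_le_div₀ (by positivity) (mul_le_mul_of_nonneg_right ha.2 hS.le) h1 hb.1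

theorem pt (k : ℕ) : In (Iv.pt k) (k / 2 ^ 128) := by
  simp [In, Iv.pt]

theorem n (k : ℕ) {r : ℝ} (h : r = k) : In (Iv.n k) r := by
  simp only [In, Iv.n, Iv.pt, cast_shl, h, le_refl, and_self]

theorem c (p q : ℕ) {r : ℝ} (h : r = p / q ∧ 0 < q) : In (Iv.c p q) r := by
  rw [h.1]
  constructor
  · refine Nat.cast_div_le.trans_eq ?_
    rw [cast_shl, div_mul_eq_mul_div]
  · refine le_of_eq_of_le ?_ (cast_div_ge _ h.2)
    rw [cast_shl, div_mul_eq_mul_div]

theorem le (ha : In a x) (hb : In b y) (h : a.le b = true) : x ≤ y := by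
  have : (a.hi : ℝ) ≤ b.lo := by exact_mod_cast Nat.le_of_ble_eq_true h
  exact le_of_mul_le_mul_right (ha.2.trans (this.trans hb.1)) (by positivity)

theorem lt (ha : In a x) (hb : In b y) (h : a.lt b = true) : x < y := by
  have : (a.hi : ℝ) < b.lo := by exact_mod_cast Nat.blt_eq.mp h
  exact lt_of_mul_lt_mul_right (ha.2.trans_lt (this.trans_le hb.1)) (by positivity)

theorem le_pt (ha : In a x) : x ≤ a.hi / 2 ^ 128 := (le_div_iff₀ (by positivity)).2 ha.2

theorem zero : In (Iv.n 0) 0 := n 0 (by norm_num)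
theorem one : In (Iv.n 1) 1 := n 1 (by norm_num)
theorem two : In (Iv.n 2) 2 := n 2 (by norm_num)
theorem three : In (Iv.n 3) 3 := n 3 (by norm_num)
theorem four : In (Iv.n 4) 4 := n 4 (by norm_num)
theorem six : In (Iv.n 6) 6 := n 6 (by norm_num)
theorem half : In (Iv.c 1 2) (1 / 2) := c 1 2 (by norm_num)

theorem ln2 : In Iv.ln2 (log 2) :=
  ⟨(c 6931471803 10000000000 (r := 0.6931471803) (by norm_num)).1.trans
      (mul_le_mul_of_nonneg_right log_two_gt_d9.le (by positivity)),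
    (mul_le_mul_of_nonneg_right log_two_lt_d9.le (by positivity)).trans
      (c 6931471808 10000000000 (r := 0.6931471808) (by norm_num)).2⟩

theorem lgS (k : ℕ) (ha : In a x) (hb : In b y) : In (Iv.lgS k a b) (k * log 2 + 2 * x *
    (1 + x * x * (1 / 3 + x * x * (1 / 5 + x * x * (1 / 7 + x * x * (1 / 9 + x * x * y)))))) := by
  have h := ha.mul ha
  exact ((n k rfl).mul ln2).add ((two.mul ha).mul (one.add (h.mul ((c 1 3 (by norm_num)).add
    (h.mul ((c 1 5 (by norm_num)).add (h.mul ((c 1 7 (by norm_num)).add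
    (h.mul ((c 1 9 (by norm_num)).add (h.mul hb)))))))))))

theorem lgG (m : ℕ) (hb : In b y) : ∃ (k : ℕ) (u : ℝ), In (Iv.lgG m b) (k * log 2 + 2 * u *
    (1 + u * u * (1 / 3 + u * u * (1 / 5 + u * u * (1 / 7 + u * u * (1 / 9 + u * u * y)))))) ∧
    0 ≤ u ∧ u ≤ 1 / 3 ∧ (m < 2 ^ 128 → k = 0 ∧ u = 0) ∧
    (2 ^ 128 ≤ m → log (m / 2 ^ 128) = k * log 2 + log ((1 + u) / (1 - u))) := by
  simp only [Iv.lgG, Nat.sub_eq]
  obtain ⟨k, hk⟩ : ∃ k, k = Nat.log2 m - 128 := ⟨_, rfl⟩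
  obtain ⟨M, hM⟩ : ∃ M : ℝ, M = m / 2 ^ k / 2 ^ 128 := ⟨_, rfl⟩
  rw [← hk]
  have h1 : In ⟨Nat.shiftRight m k, Nat.succ (Nat.shiftRight m k)⟩ M := by
    rw [In, hM, div_mul_cancel₀ _ (by positivity)]
    exact ⟨cast_shr_le _ _, cast_shr_ge _ _⟩
  have M0 := h1.nonneg
  have M2 : M ≤ 2 := by
    have : m ≤ 2 ^ (k + 129) := Nat.lt_log2_self.le.trans (Nat.pow_le_pow_right two_pos (by omega))
    rw [hM, div_div, div_le_iff₀ (by positivity)]
    have h : (m : ℝ) ≤ 2 ^ (k + 129) := by exact_mod_cast this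
    rw [pow_add] at h
    linarith
  refine ⟨k, max (M - 1) 0 / (M + 1), lgS k ((h1.tsub one).div (h1.add one) ?_) hb,
    by positivity, ?_, fun h => ?_, fun h => ?_⟩
  · refine Nat.blt_eq.mpr (Nat.add_pos_right _ ?_)
    decide
  · rw [div_le_iff₀ (by positivity)]
    exact max_le (by linarith) (by positivity)
  · have k0 : k = 0 := by
      rcases eq_or_ne m 0 with h0 | h0
      · simp [hk, h0]
      · exact hk.trans (Nat.sub_eq_zero_of_le ((Nat.log2_lt h0).2 h).le)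
    refine ⟨k0, ?_⟩
    have : M ≤ 1 := by
      rw [hM, k0, pow_zero, div_one, div_le_one (by positivity)]
      exact_mod_cast h.le
    rw [max_eq_right (by linarith), zero_div]
  · have h0 : m ≠ 0 := by
      rintro rfl
      simp at h
    have : 2 ^ (k + 128) ≤ m := by
      rw [hk, Nat.sub_add_cancel ((Nat.le_log2 h0).2 h)]
      exact Nat.log2_self_le h0
    have M1 : 1 ≤ M := by
      rw [hM, div_div, le_div_iff₀ (by positivity), one_mul, ← pow_add]
      exact_mod_cast this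
    rw [max_eq_left (by linarith), show (1 + (M - 1) / (M + 1)) / (1 - (M - 1) / (M + 1)) = M by
      field_simp; ring, show (m : ℝ) / 2 ^ 128 = 2 ^ k * M by rw [hM]; field_simp,
      log_mul (by positivity) (by linarith), log_pow]

theorem lg_lo (m : ℕ) (h1 : 1 ≤ y) (h : (m : ℝ) ≤ y * 2 ^ 128) :
    ((Iv.lgG m (Iv.n 0)).lo : ℝ) ≤ log y * 2 ^ 128 := by
  obtain ⟨k, u, h2, u0, u1, h3, h4⟩ := lgG m zero
  refine h2.1.trans (mul_le_mul_of_nonneg_right ?_ (by positivity))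
  rcases lt_or_ge m (2 ^ 128) with hm | hm
  · simpa [h3 hm] using log_nonneg h1
  have hm' : (0 : ℝ) < m := by exact_mod_cast lt_of_lt_of_le (by norm_num) hm
  have e := log_le_log (by positivity) ((div_le_iff₀ (by positivity)).2 h)
  have s := sum_range_le_log_div u0 (by linarith) 5
  simp only [sum_range_succ, sum_range_zero] at s
  push_cast at s
  rw [h4 hm] at e
  linarith

theorem lg_hi (m : ℕ) (h1 : 0 < y) (h : y * 2 ^ 128 ≤ m) :
    log y * 2 ^ 128 ≤ (Iv.lgG m (Iv.c 9 8)).hi := by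
  obtain ⟨k, u, h2, u0, u1, h3, h4⟩ := lgG m (c 9 8 (r := 9 / 8) (by norm_num))
  refine le_trans (mul_le_mul_of_nonneg_right ?_ (by positivity)) h2.2
  have e := log_le_log h1 ((le_div_iff₀ (by positivity)).2 h)
  rcases lt_or_ge m (2 ^ 128) with hm | hm
  · have : log ((m : ℝ) / 2 ^ 128) ≤ 0 := log_nonpos (by positivity)
      ((div_le_one (by positivity)).2 (by exact_mod_cast hm.le))
    simpa [h3 hm] using e.trans this
  have s := log_div_le_sum_range_add u0 (by linarith) 5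
  simp only [sum_range_succ, sum_range_zero] at s
  push_cast at s
  have t : u ^ 11 / (1 - u ^ 2) ≤ u ^ 11 * (9 / 8) := by
    rw [div_le_iff₀ (by nlinarith), mul_assoc]
    exact le_mul_of_one_le_right (by positivity) (by nlinarith)
  rw [h4 hm] at e
  linarith

theorem lg (ha : In a x) (h : 1 ≤ x) : In a.lg (log x) := by
  unfold In Iv.lg
  dsimp only
  exact ⟨lg_lo _ h ha.1, lg_hi _ (by linarith) ha.2⟩

theorem invLo (ha : In a x) (h : 0 < x) : ∃ r, In a.invLo r ∧ r ≤ 1 / x := by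
  have := one.div_lo ha h
  unfold Iv.invLo
  generalize ((Iv.n 1).div a).lo = k at this ⊢
  exact ⟨_, pt k, (div_le_iff₀ (by positivity)).2 this⟩

theorem lgInv (ha : In a x) (h0 : 0 < x) (h1 : x ≤ 1) : ∃ r, In a.lgInv r ∧ r ≤ -log x := by
  refine ⟨_, pt _, (div_le_iff₀ (by positivity)).2 ?_⟩
  rw [← log_inv, ← one_div]
  unfold Iv.lg
  dsimp only
  exact lg_lo _ (one_le_one_div h0 h1) (one.div_lo ha h0)

theorem nlHi (ha : In a x) (h0 : 0 < x) : ∃ r, In a.nlHi r ∧ -x * log x ≤ r := by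
  have h1 := ha.le_pt
  have h2 : 0 < a.hi := by
    have : (0 : ℝ) < a.hi := lt_of_lt_of_le (by positivity) ha.2
    exact_mod_cast this
  have hz := pt a.hi
  have hl := pt (Iv.lg ((Iv.n 1).div (Iv.pt a.hi))).hi
  simp only [Iv.nlHi]
  refine ⟨_, (hz.add (ha.mul (hl.tsub one))).tsub (ha.mul (one.tsub hl)), le_max_of_le_left ?_⟩
  generalize (a.hi : ℝ) / 2 ^ 128 = z at h1 hz ⊢
  have z0 : 0 < z := by linarith
  have h3 := (le_div_iff₀ (by positivity)).2
    (lg_hi _ (one_div_pos.2 z0) (one.div hz (Nat.blt_eq.mpr h2)).2)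
  change log (1 / z) ≤ (Iv.lg ((Iv.n 1).div (Iv.pt a.hi))).hi / 2 ^ 128 at h3
  generalize ((Iv.lg ((Iv.n 1).div (Iv.pt a.hi))).hi : ℝ) / 2 ^ 128 = l at h3 ⊢
  have h4 := mul_le_mul_of_nonneg_left (log_le_sub_one_of_pos (div_pos z0 h0)) h0.le
  rw [log_div z0.ne' h0.ne', mul_sub x (z / x), mul_div_cancel₀ _ h0.ne'] at h4
  rw [one_div, log_inv] at h3
  have h5 : max (l - 1) 0 - max (1 - l) 0 = l - 1 := by
    rw [← neg_sub l 1]
    exact max_zero_sub_max_neg_zero_eq_self _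
  linarith [mul_le_mul_of_nonneg_left h3 h0.le, congrArg (HMul.hMul x) h5]

theorem geo (ha : In a x) : ∀ k, In (a.geo k) (geo x k)
  | 0 => one
  | k + 1 => one.add (ha.mul (geo ha k))

theorem phiLo (h : In a x) : In a.phiLo (phiLo x) := by
  unfold Iv.phiLo P322.phiLo
  repeat' with_reducible first | exact h | apply add | apply mul | exact c _ _ (by norm_num)

theorem phiHi (h : In a x) : In a.phiHi (phiHi x) := by
  unfold Iv.phiHi P322.phiHi
  repeat' with_reducible first | exact h | apply add | apply mul | exact c _ _ (by norm_num)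

theorem kLo (h : In a x) : In a.kLo (kLo x) := by
  unfold Iv.kLo P322.kLo
  repeat' with_reducible first | exact h | apply add | apply mul | exact c _ _ (by norm_num)

theorem kHi (h : In a x) : In a.kHi (kHi x) := by
  unfold Iv.kHi P322.kHi
  repeat' with_reducible first | exact h | apply add | apply mul | exact c _ _ (by norm_num)

theorem psi (ha : In a x) (h : In b y) : In (a.psi b) (psi x y) := by
  unfold Iv.psi P322.psi
  repeat' with_reducible first
    | exact h | exact ha.geo _ | apply add | apply mul | exact c _ _ (by norm_num)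

theorem af (ha : In a x) (h : In b y) : In (a.af b) (af x y) := by
  unfold Iv.af P322.af
  have g := (h.mul h).geo
  repeat' with_reducible first
    | exact h | exact ha | exact one | exact g _ | apply add | apply mul
    | exact c _ _ (by norm_num)

end In

end Vale.Agent.P322
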