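import Vale.Agent.P322.CKLinkE

/-!
Criterion B: a symmetric reference pair, normalised for small differences.
-/

namespace Vale.Agent.P322

open Real Finset

theorem eta_split {n d : ℝ} (hn : 0 < n) (hd : 0 < d) :
    eta n (n + d) = n * log ((2 * n + d) / n) + (n + d) * log (1 + n / (n + d)) := by
  rw [show 1 + n / (n + d) = (2 * n + d) / (n + d) by field_simp; ring,
    log_div (by positivity) (by positivity), log_div (by positivity) (by positivity), eta,
    show n + (n + d) = 2 * n + d by ring]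
  ring

theorem eta_lo {n d : ℝ} (hn : 0 < n) (hd : 0 < d) :
    n * (log (2 + d / n) + (1 - 1 / (3 + 2 * (d / n)))) ≤ eta n (n + d) := by
  have := mul_le_mul_of_nonneg_left (le_log_one_add_of_nonneg (x := n / (n + d)) (by positivity))
    (show 0 ≤ n + d by positivity)
  rw [eta_split hn hd, show (2 * n + d) / n = 2 + d / n by field_simp, mul_add]
  refine add_le_add le_rfl (le_of_eq_of_le ?_ this)
  field_simp
  ring

theorem eta_hi {n d : ℝ} (hn : 0 < n) (hd : 0 < d) :
    eta n (n + d) ≤ n * (1 + log ((2 * n + d) / n)) := by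
  have := mul_le_mul_of_nonneg_left (log_le_sub_one_of_pos (x := 1 + n / (n + d)) (by positivity))
    (show 0 ≤ n + d by positivity)
  rw [add_sub_cancel_left, mul_div_cancel₀ _ (by positivity)] at this
  rw [eta_split hn hd]
  linarith

noncomputable def Dd (c h : ℝ) : ℝ := (c + h) * log (c + h) - (c - h) * log (c - h) - 2 * h * log c

theorem hasDerivAt_Dd {c h : ℝ} (h0 : 0 ≤ h) (h1 : h < c) :
    HasDerivAt (Dd c) (log (1 - (h / c) ^ 2) + 2) h := by
  have a : c + h ≠ 0 := by linarith
  have b : c - h ≠ 0 := by linarith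
  have c0 : c ≠ 0 := by linarith
  have := ((((hasDerivAt_id' h).const_add c).mul (((hasDerivAt_id' h).const_add c).log a)).sub
    (((hasDerivAt_id' h).const_sub c).mul (((hasDerivAt_id' h).const_sub c).log b))).sub
    (((hasDerivAt_id' h).const_mul 2).mul_const (log c))
  refine HasDerivAt.congr_deriv this ?_
  rw [show 1 - (h / c) ^ 2 = (c + h) * (c - h) / c ^ 2 by field_simp; ring,
    log_div (mul_ne_zero a b) (pow_ne_zero 2 c0), log_mul a b, log_pow]
  field_simp
  push_cast
  ring

theorem Dd_le {c h : ℝ} (h0 : 0 < h) (h1 : h < c) : Dd c h ≤ 2 * h := by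
  obtain ⟨z, z0, z1, hz⟩ := mvt' h0 fun z z0 z1 => hasDerivAt_Dd z0 (z1.trans_lt h1)
  have a : z / c < 1 := by
    rw [div_lt_one (by linarith)]
    linarith
  have b : 0 < z / c := div_pos z0 (by linarith)
  have := log_nonpos (x := 1 - (z / c) ^ 2) (by nlinarith) (by nlinarith)
  have e : Dd c 0 = 0 := by simp [Dd]
  nlinarith

theorem Dd_mono {c c' h : ℝ} (h0 : 0 < h) (h1 : h < c) (h2 : c ≤ c') : Dd c h ≤ Dd c' h := by
  obtain ⟨z, z0, z1, hz⟩ := mvt' h0 fun z z0 z1 => (hasDerivAt_Dd (c := c') z0 (by linarith)).sub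
    (hasDerivAt_Dd z0 (z1.trans_lt h1))
  have a : z / c < 1 := by
    rw [div_lt_one (by linarith)]
    linarith
  have b : 0 < z / c' := div_pos z0 (by linarith)
  have d : z / c' ≤ z / c := div_le_div_of_nonneg_left z0.le (by linarith) h2
  have := log_le_log (x := 1 - (z / c) ^ 2) (y := 1 - (z / c') ^ 2) (by nlinarith) (by nlinarith)
  have e : ∀ c, Dd c 0 = 0 := fun c => by simp [Dd]
  simp only [Pi.sub_apply, e] at hz
  nlinarith

theorem eta_gain {e n d : ℝ} (he0 : 0 < e) (he1 : e < 1) (hn : 0 < n) (hd : 0 < d) :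
    e * d * log (1 + (1 - e) * d / (n + e * d / 2)) ≤
      eta (n + e * d) (n + d - e * d) - eta n (n + d) := by
  have a : 0 < e * d := by positivity
  have b : 0 < (1 - e) * d := mul_pos (sub_pos.2 he1) hd
  have := Dd_mono (c := n + e * d / 2) (c' := n + d - e * d / 2) (h := e * d / 2) (by linarith)
    (by linarith) (by linarith)
  simp only [Dd] at this
  rw [show n + e * d / 2 + e * d / 2 = n + e * d by ring, add_sub_cancel_right, sub_add_cancel,
    show n + d - e * d / 2 - e * d / 2 = n + d - e * d by ring] at this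
  rw [show 1 + (1 - e) * d / (n + e * d / 2) = (n + d - e * d / 2) / (n + e * d / 2) by
    rw [eq_div_iff (by linarith), add_mul, div_mul_cancel₀ _ (by linarith)]; ring,
    log_div (by linarith) (by linarith), eta, eta,
    show n + e * d + (n + d - e * d) = n + (n + d) by ring]
  linarith

theorem log_scale {y y1 A : ℝ} (h0 : 0 < y) (h1 : y ≤ y1) (hA : 0 ≤ A) :
    y * log (1 + y1 * A) ≤ y1 * log (1 + y * A) := by
  have a : 0 < y1 := by linarith
  have := strictConcaveOn_log_Ioi.concaveOn.2 (show 1 + y1 * A ∈ Set.Ioi 0 by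
    rw [Set.mem_Ioi]; positivity) (show (1 : ℝ) ∈ Set.Ioi 0 by simp)
    (show 0 ≤ y / y1 by positivity) (sub_nonneg.2 ((div_le_one a).2 h1)) (by ring)
  simp only [smul_eq_mul, log_one, mul_zero, add_zero] at this
  rw [show y / y1 * (1 + y1 * A) + (1 - y / y1) * 1 = 1 + y * A by field_simp; ring,
    div_mul_eq_mul_div, div_le_iff₀ a] at this
  linarith

set_option maxHeartbeats 1000000 in
theorem linkB {e m x1 kt nu y1 eb om x X X1 y dy v : ℝ} (he0 : 0 < e) (he1 : e < 1 / 2)
    (hm0 : 0 < m) (hm : m ≤ 1 / 2) (hx0 : 0 < x1) (hx1 : x1 < 1) (hnu : 0 < nu)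
    (heb : eb = 1 - e) (hom : om = 1 - m) (hx : x = m * x1 / om) (hX : X = x * x)
    (hX1 : X1 = x1 * x1) (hy : y = x1 / (2 * om)) (hdy : dy = m * X1 / om)
    (hv : v = 1 - (1 - 2 * m) * (1 - 2 * m)) (hkt : kap e ≤ e * kt) (hy1 : y ≤ y1)
    (H1 : kt * (1 - dy) + eb * (log (1 / m) + (1 - kLo m)) / om ≤
      nu * (log (2 + y / (e * nu)) + (1 - 1 / (3 + 2 * (y / (e * nu))))) +
        4 * eb * (y * y) * (1 / 2 + om * (phiLo X1 - 1 / 2)))
    (H3 : y1 * (4 * eb * (phiHi X1 - m * (phiHi X1 - phiHi X)) + kt * v) ≤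
      log (1 + y1 * (eb / (e * (nu + y / 2))))) :
    Step e (m - m * x1) (m + m * x1) := by
  revert H1 H3
  have o0 : 0 < om := by linarith
  have ex : om * x = m * x1 := by rw [hx, mul_div_cancel₀ _ o0.ne']
  have mx : 0 < m * x1 := mul_pos hm0 hx0
  have x0 : 0 < x := hx ▸ div_pos mx o0
  have xx : x ≤ x1 := le_of_mul_le_mul_left (a := om) (by nlinarith) o0
  have b0 : 0 < eb := by linarith
  have ev : v = 4 * m * om := by rw [hv, hom]; ring
  have v0 : 0 < v := by rw [ev]; positivity
  have y0 : 0 < y := by rw [hy]; positivity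
  have ey : 2 * m * x1 = y * v := by rw [hy, ev]; field_simp; norm_num
  have e1 : y * y * v * om = m * X1 := by rw [hy, ev, hX1]; field_simp; norm_num
  have e2 : y * y * v * m = om * X := by rw [hy, ev, hX, hx]; field_simp; norm_num
  have e3 : dy = y * y * v := by rw [hdy, ← e1, mul_div_cancel_right₀ _ o0.ne']
  have d0 : 2 * m * x1 < 2 * m := by nlinarith
  have d1 : 0 ≤ v * (1 - dy) := by
    have : dy ≤ 1 := by
      rw [hdy, div_le_one o0, hX1]
      nlinarith
    exact mul_nonneg v0.le (by linarith)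
  intro H1 H3
  have h1 := Hh_pair (r := 1) hm0 hm hx0 hx1 zero_le_one le_rfl (hom ▸ hx)
  simp only [one_mul] at h1
  have := stepG (e := e) (m := m) (d := 2 * m * x1) (n := e * nu * v) he0 he1 (by positivity)
    (by positivity) fun l l0 l1 => ?_
  · rwa [show 2 * m * x1 / 2 = m * x1 by ring] at this
  have g1 := eta_lo (n := e * nu * v) (d := y * v) (by positivity) (by positivity)
  have g3 := eta_gain (n := e * nu * v) (d := y * v) he0 (by linarith) (by positivity)
    (by positivity)
  rw [mul_div_mul_right _ _ v0.ne'] at g1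
  rw [show (1 - e) * (y * v) / (e * nu * v + e * (y * v) / 2) = y * (eb / (e * (nu + y / 2))) by
    rw [heb]; field_simp] at g3
  rw [BB, h1, ey, mul_assoc 4 e, ← heb, ← hom, ← ev]
  have a1 := ph_hi hx0.le hx1
  have a2 := ph_hi x0.le (by linarith)
  have c1 := ph_lo hx0.le hx1
  have c2 := ph_ge_half (x := x) (by linarith) (by linarith)
  rw [← hX1] at a1 c1
  rw [← hX] at a2
  rw [sq, ← hX] at c2
  have k1 : 4 * (e * eb) * (binEntropy m - m * ph x1 - om * ph x) + kap e * (v - (y * v) ^ 2) ≤
      eta (e * nu * v) (e * nu * v + y * v) := by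
    have f1 := mul_le_mul_of_nonneg_left (ent_hi hm0.le (by linarith : m < 1))
      (show 0 ≤ 4 * (e * eb) by positivity)
    have f2 := mul_le_mul_of_nonneg_left c1 (show 0 ≤ 4 * (e * eb) * m by positivity)
    have f3 := mul_le_mul_of_nonneg_left c2 (show 0 ≤ 4 * (e * eb) * om by positivity)
    have f4 := mul_le_mul_of_nonneg_right hkt d1
    have f5 := mul_le_mul_of_nonneg_left H1 (show 0 ≤ e * v by positivity)
    have f6 : v * (eb * (log (1 / m) + (1 - kLo m)) / om) =
        4 * m * (eb * (-log m + (1 - kLo m))) := by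
      rw [ev, one_div, log_inv]
      field_simp
    have f7 : om = 1 - m := hom
    linarith only [g1, f1, f2, f3, f4, f5, congrArg (HMul.hMul e) f6,
      congrArg (HMul.hMul (kap e * v)) e3, congrArg (HMul.hMul (4 * e * eb * phiLo X1)) e1,
      congrArg (HMul.hMul (2 * e * eb)) e2, congrArg (HMul.hMul (2 * e * eb * y * y * v)) f7]
  have k2 : 4 * (e * eb) * (m * ph x1 + om * ph x) + kap e * (y * v) ^ 2 ≤
      e * (y * v) * log (1 + y * (eb / (e * (nu + y / 2)))) := by
    have y10 : 0 < y1 := by linarith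
    have f1 := log_scale y0 hy1 (show 0 ≤ eb / (e * (nu + y / 2)) by positivity)
    have f2 := mul_le_mul_of_nonneg_left H3 y0.le
    have f3 : y * (4 * eb * (phiHi X1 - m * (phiHi X1 - phiHi X)) + kt * v) ≤
        log (1 + y * (eb / (e * (nu + y / 2)))) :=
      le_of_mul_le_mul_left (by linarith only [f1, f2]) y10
    have f4 := mul_le_mul_of_nonneg_left f3 (show 0 ≤ e * (y * v) by positivity)
    have f5 := mul_le_mul_of_nonneg_left a1 (show 0 ≤ 4 * (e * eb) * m by positivity)
    have f6 := mul_le_mul_of_nonneg_left a2 (show 0 ≤ 4 * (e * eb) * om by positivity)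
    have f7 := mul_le_mul_of_nonneg_right hkt (sq_nonneg (y * v))
    have f8 : om = 1 - m := hom
    linarith only [f4, f5, f6, f7, congrArg (HMul.hMul (4 * e * eb * phiHi X1)) e1,
      congrArg (HMul.hMul (4 * e * eb * phiHi X)) e2,
      congrArg (HMul.hMul (4 * e * eb * y * y * v * phiHi X1)) f8]
  have k3 := mul_le_mul_of_nonneg_right l1 (sub_nonneg.2 k1)
  linarith only [k2, k3, g3]

end Vale.Agent.P322
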