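import Vale.Agent.P322.CKPoly

/-!
Criterion E: the tangent plane at the mean, normalised for small differences.
-/

namespace Vale.Agent.P322

open Real Finset

theorem pp_sub_ge {r x : ℝ} (hr0 : 0 ≤ r) (hr1 : r ≤ 1) (h0 : 0 ≤ x) (h1 : x < 1) :
    (1 - r * r) * (x * x) * (1 / (2 - (1 + r * r) * (x * x))) ≤ pp x - pp (r * x) := by
  have a : 0 < 1 - x * x := by nlinarith
  have b : 0 ≤ 1 - r * r := by nlinarith
  have c := mul_nonneg b (mul_self_nonneg x)
  have := le_log_one_add_of_nonneg (div_nonneg c a.le)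
  rw [show 1 + (1 - r * r) * (x * x) / (1 - x * x) = (1 - (r * x) ^ 2) / (1 - x ^ 2) by
    rw [sq x, eq_div_iff a.ne', add_mul, div_mul_cancel₀ _ a.ne']; ring, log_div (by nlinarith) (by nlinarith)] at this
  have e : 2 * ((1 - r * r) * (x * x) / (1 - x * x)) / ((1 - r * r) * (x * x) / (1 - x * x) + 2) =
      2 * ((1 - r * r) * (x * x) * (1 / (2 - (1 + r * r) * (x * x)))) := by
    have : 2 - (1 + r * r) * (x * x) ≠ 0 := by nlinarith
    have d : (1 - r * r) * (x * x) / (1 - x * x) + 2 =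
        (2 - (1 + r * r) * (x * x)) / (1 - x * x) := by
      rw [div_add' _ _ _ a.ne']
      congr 1
      ring
    rw [d, mul_div_assoc, div_div_div_cancel_right₀ a.ne', mul_one_div]
  simp only [pp]
  linarith

theorem Hh_pair {m x1 x r : ℝ} (hm0 : 0 < m) (hm : m ≤ 1 / 2) (hx0 : 0 < x1) (hx1 : x1 < 1)
    (hr0 : 0 ≤ r) (hr1 : r ≤ 1) (hx : x = m * x1 / (1 - m)) :
    Hh m (r * (2 * m * x1)) = binEntropy m - m * ph (r * x1) - (1 - m) * ph (r * x) := by
  have a : |r * (2 * m * x1)| < 2 * m := by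
    rw [abs_of_nonneg (by positivity)]
    nlinarith [mul_pos hm0 hx0]
  rw [Hh_eq a (by linarith), hx]
  have : 1 - m ≠ 0 := by linarith
  congr 3 <;> field_simp

theorem gap_nonneg {e m d : ℝ} (he0 : 0 < e) (he1 : e < 1) (h0 : 0 ≤ d) (h1 : d < 2 * m)
    (h2 : d < 2 * (1 - m)) : 4 * e * (1 - e) * Hh m d + kap e * (4 * m * (1 - m) - d ^ 2) ≤
      Hh m d := by
  rw [← BB_avg, Hh]
  linarith [BB_le he0 he1 (u := m - d / 2) (by linarith) (by linarith),
    BB_le he0 he1 (u := m + d / 2) (by linarith) (by linarith)]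

theorem coreE {K P Q T D W Ih KP ng o t X m : ℝ} (t0 : 0 < t) (t1 : 0 < 1 - t) (X0 : 0 < X)
    (hm0 : 0 < m) (W0 : 0 ≤ W) (n0 : 0 ≤ ng) (K0 : 0 ≤ K + P) (T0 : 0 ≤ T)
    (c : (1 - t) * X * W ≤ P - Q) (k1 : (K + P) * o ≤ m * KP) (k2 : t * m * Ih ≤ T)
    (k3 : D ≤ t * (1 - t) * X * o * ng) (H : KP * ng ≤ W * Ih) :
    (K + Q) * T ≤ (K + P) * (T - D) := by
  have f1 := mul_le_mul_of_nonneg_right c T0
  have f2 := mul_le_mul_of_nonneg_left k2 (show 0 ≤ (1 - t) * X * W by positivity)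
  have f3 := mul_le_mul_of_nonneg_left k3 K0
  have f4 := mul_le_mul_of_nonneg_right k1 (show 0 ≤ t * (1 - t) * X * ng by positivity)
  have f5 := mul_le_mul_of_nonneg_left H (show 0 ≤ t * (1 - t) * X * m by positivity)
  linarith

set_option maxHeartbeats 1000000 in
theorem linkE {e m x1 kh kc L r t om x X X1 mX : ℝ} (he0 : 0 < e) (he1 : e < 1 / 2) (hm0 : 0 < m)
    (hm : m ≤ 1 / 2) (hx0 : 0 < x1) (hx1 : x1 < 1) (ht : t = (1 - 2 * e) * (1 - 2 * e))
    (hom : om = 1 - m) (hx : x = m * x1 / om) (hX : X = x * x) (hX1 : X1 = x1 * x1)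
    (hmX : mX = m * X1) (hkh : kap e ≤ t * kh) (hkc : kap e ≤ t * (1 - t) * kc)
    (hL : L ≤ -log m) (hr : r ≤ 1 / m)
    (H : (om * om * (1 + m * (1 / 2 + m * (1 / 3 + m / (4 * om)))) +
        mX * (1 / 2 + X * (1 / 4 + X / (6 * (1 - X))))) *
        max (4 * kc - (X1 * psi t X1 * r + X * psi t X / om)) 0 ≤
      1 / (2 - (1 + t) * X) *
        max (L + (1 - kHi m) - (X1 * phiHi X1 + x * x1 * phiHi X + 4 * kh * (om - mX))) 0) :
    Step e (m - m * x1) (m + m * x1) := by
  revert H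
  have o0 : 0 < om := by linarith
  have ex : om * x = m * x1 := by rw [hx, mul_div_cancel₀ _ o0.ne']
  have mx : 0 < m * x1 := mul_pos hm0 hx0
  have x0 : 0 < x := hx ▸ div_pos mx o0
  have xx : x ≤ x1 := le_of_mul_le_mul_left (a := om) (by nlinarith) o0
  have X0 : 0 < X := hX ▸ mul_pos x0 x0
  have X10 : 0 < X1 := hX1 ▸ mul_pos hx0 hx0
  have X11 : X1 < 1 := by nlinarith
  have XX : X < 1 := by nlinarith
  have r0 : 0 < 1 - 2 * e := by linarith
  have r1 : 1 - 2 * e ≤ 1 := by linarith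
  have t0 : 0 < t := ht ▸ mul_pos r0 r0
  have t1 : 0 < 1 - t := by nlinarith
  have eX : om * om * X = m * mX := by
    rw [hX, hmX, hX1]
    linear_combination (om * x + m * x1) * ex
  have W0 : 0 ≤ 1 / (2 - (1 + t) * X) := one_div_nonneg.2 (by nlinarith)
  have v0 : 0 ≤ 4 * m * (om - mX) := by
    rw [hmX]
    nlinarith [mul_pos hm0 (sub_pos.2 X11)]
  have d0 : 2 * m * x1 < 2 * m := by nlinarith
  intro H
  have h1 := Hh_pair (r := 1) hm0 hm hx0 hx1 zero_le_one le_rfl (hom ▸ hx)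
  have h2 := Hh_pair hm0 hm hx0 hx1 r0.le r1 (hom ▸ hx)
  simp only [one_mul] at h1
  have g0 := gap_nonneg (m := m) (d := 2 * m * x1) he0 (by linarith) (by positivity)
    d0 (by linarith)
  have := stepV (d := 2 * m * x1) he0 he1 hm (by positivity) d0 ?_
  · rwa [show 2 * m * x1 / 2 = m * x1 by ring] at this
  rw [show 2 * m * x1 / (2 * (1 - m)) = x by rw [hx, hom]; field_simp]
  have s2 : 4 * e * (1 - e) = 1 - t := by rw [ht]; ring
  have v : 4 * m * (1 - m) - (2 * m * x1) ^ 2 = 4 * m * (om - mX) := by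
    rw [hom, hmX, hX1]; ring
  have d2 : 4 * m * (1 - m) = 4 * m * (om - mX) + 4 * (om * om * X) := by
    rw [eX, hom]; ring
  rw [s2, v, h1, ← hom] at g0
  rw [BB, s2, v, d2, h2, h1, ← hom]
  have a1 := ph_hi hx0.le hx1
  have a2 := ph_hi x0.le (by linarith)
  have b1 := psi_lo r0.le r1 hx0.le hx1
  have b2 := psi_lo r0.le r1 x0.le (by linarith)
  have c := pp_sub_ge r0.le r1 x0.le (by linarith)
  rw [← ht, ← hX] at b2 c
  rw [← ht, ← hX1] at b1
  rw [← hX1] at a1
  rw [← hX] at a2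
  have hK := nlog_le_sum 3 hm0.le (by linarith)
  have hP := nlog_le_sum 2 X0.le XX
  simp only [sum_range_succ, sum_range_zero] at hK hP
  push_cast at hK hP
  rw [← hom] at hK
  have eP : pp x = -log (1 - X) / 2 := by rw [pp, hX, sq]
  have K0 : 0 ≤ -log om + pp x := add_nonneg (neg_nonneg.2 (log_nonpos o0.le (by linarith)))
    (pp_nonneg x0.le (by linarith))
  -- upper bound for `K + P`
  have k1 : (-log om + pp x) * (om * om) ≤ m * (om * om * (1 + m * (1 / 2 + m * (1 / 3 +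
      m / (4 * om)))) + mX * (1 / 2 + X * (1 / 4 + X / (6 * (1 - X))))) := by
    have e1 : m ^ 4 / ((3 + 1) * om) = m ^ 3 * (m / (4 * om)) := by ring
    have e2 : X ^ 3 / ((2 + 1) * (1 - X)) = 2 * X ^ 2 * (X / (6 * (1 - X))) := by
      field_simp
      ring
    have f1 := mul_le_mul_of_nonneg_right hK (mul_self_nonneg om)
    have f2 := mul_le_mul_of_nonneg_right hP (mul_self_nonneg om)
    rw [e1] at f1
    rw [e2] at f2
    rw [eP]
    linarith only [f1, f2, congrArg (HMul.hMul (1 / 2 + X * (1 / 4 + X / (6 * (1 - X))))) eX]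
  -- lower bound for the entropy surplus
  have k2 : t * m * max (L + (1 - kHi m) - (X1 * phiHi X1 + x * x1 * phiHi X +
      4 * kh * (om - mX))) 0 ≤ binEntropy m - m * ph x1 - om * ph x - ((1 - t) *
      (binEntropy m - m * ph x1 - om * ph x) + kap e * (4 * m * (om - mX))) := by
    rw [mul_max_of_nonneg _ _ (by positivity), mul_zero]
    refine max_le ?_ (sub_nonneg.2 g0)
    have f1 := mul_le_mul_of_nonneg_left (ent_lo hm0.le (by linarith : m < 1)) t0.le
    have f2 := mul_le_mul_of_nonneg_left a1 (mul_pos t0 hm0).le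
    have f3 := mul_le_mul_of_nonneg_left a2 (mul_pos t0 o0).le
    have f4 := mul_le_mul_of_nonneg_right hkh v0
    have f5 := mul_le_mul_of_nonneg_left hL (mul_pos t0 hm0).le
    have f6 : om * X = m * (x * x1) := by rw [hX]; linear_combination x * ex
    linarith only [f1, f2, f3, f4, f5, congrArg (HMul.hMul (t * phiHi X)) f6]
  -- upper bound for the deficit
  have k3 : kap e * (4 * (om * om * X)) - m * (t * ph x1 - ph ((1 - 2 * e) * x1)) -
      om * (t * ph x - ph ((1 - 2 * e) * x)) ≤ t * (1 - t) * X * (om * om) *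
      max (4 * kc - (X1 * psi t X1 * r + X * psi t X / om)) 0 := by
    refine le_trans ?_ (mul_le_mul_of_nonneg_left (le_max_left _ _) (by positivity))
    have f1 := mul_le_mul_of_nonneg_left b1 hm0.le
    have f2 := mul_le_mul_of_nonneg_left b2 o0.le
    have f3 := mul_le_mul_of_nonneg_right hkc (show 0 ≤ 4 * (om * om * X) by positivity)
    have f4 : m * r ≤ 1 := by rwa [le_div_iff₀ hm0, mul_comm] at hr
    have f5 := mul_le_mul_of_nonneg_left f4 (show 0 ≤ t * (1 - t) * (m * X1 * X1 * psi t X1) by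
      have := psi_nonneg t0.le X10.le
      positivity)
    have f6 := mul_div_cancel₀ (X * psi t X) o0.ne'
    rw [hmX] at eX
    linarith only [f1, f2, f3, f5, congrArg (HMul.hMul (t * (1 - t) * X1 * psi t X1 * r)) eX,
      congrArg (HMul.hMul (t * (1 - t) * X * om)) f6]
  refine le_of_le_of_eq (coreE t0 t1 X0 hm0 W0 (le_max_right _ _) K0 (sub_nonneg.2 g0) c k1 k2 k3
    H) ?_
  ring

end Vale.Agent.P322
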