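import Vale.Agent.P322.CKLinkB

/-!
The induction step at very low noise.
-/

namespace Vale.Agent.P322

open Real

theorem tail_log {e : ℝ} (he0 : 0 < e) (he : e ≤ 1 / 2 ^ 48) : 33 ≤ -log e := by
  have := log_le_log he0 he
  rw [one_div, log_inv, log_pow] at this
  push_cast at this
  linarith [log_two_gt_d9]

theorem tail_kap {e : ℝ} (he0 : 0 < e) (he : e < 1) : kap e ≤ e * (-log e + 1) := by
  have a := ent_hi he0.le he
  have b := mul_nonneg he0.le (kLo_nonneg he0.le)
  have c : 0 ≤ 4 * e * (1 - e) * log 2 :=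
    mul_nonneg (mul_nonneg (by positivity) (sub_pos.2 he).le) (log_nonneg one_le_two)
  rw [kap]
  linarith

set_option maxHeartbeats 1000000 in
theorem tail_small {e m x1 : ℝ} (he0 : 0 < e) (he : e ≤ 1 / 2 ^ 48) (hm0 : 0 < m)
    (hm : m ≤ e ^ 3) (hx0 : 0 < x1) (hx1 : x1 < 1) : Step e (m - m * x1) (m + m * x1) := by
  have l := tail_log he0 he
  have e1 : e ≤ 1 / 1000 := he.trans (by norm_num)
  have m1 : m ≤ 1 / 1000 := (hm.trans (pow_le_of_le_one he0.le (by linarith) (by norm_num))).trans e1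
  have k := tail_kap he0 (by linarith)
  have hL : 3 * -log e ≤ -log m := by
    have := log_le_log hm0 hm
    rw [log_pow] at this
    push_cast at this
    linarith
  obtain ⟨x, hx⟩ : ∃ x, x = m * x1 / (1 - m) := ⟨_, rfl⟩
  obtain ⟨t, ht⟩ : ∃ t, t = (1 - 2 * e) * (1 - 2 * e) := ⟨_, rfl⟩
  have t0 : 99 / 100 ≤ t := by nlinarith
  have t1 : t ≤ 1 := by nlinarith
  have x0 : 0 ≤ x := hx ▸ div_nonneg (by positivity) (by linarith)
  have x2 : x ≤ 1 / 100 := by
    rw [hx, div_le_iff₀ (by linarith)]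
    nlinarith
  have X2 : x * x ≤ 1 / 100 := by nlinarith
  have X1 : x1 * x1 ≤ 1 := by nlinarith
  refine linkE (kh := 1 / 5) (kc := (-log e + 1) * (13 / 50)) (r := 0) he0 (by linarith) hm0
    (by linarith) hx0 hx1 ht rfl hx rfl rfl rfl ?_ ?_ hL (by positivity) ?_
  · have := kap_le he0 (by linarith)
    rw [sq, ← ht] at this
    nlinarith [log_two_lt_d9]
  · have a : 1 - t = 4 * e * (1 - e) := by rw [ht]; ring
    have b : 1 ≤ t * (1 - e) * (26 / 25) := by nlinarith
    have c := mul_le_mul_of_nonneg_left b (mul_nonneg he0.le (show 0 ≤ -log e + 1 by linarith))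
    rw [a]
    linarith
  have a1 : m / (4 * (1 - m)) ≤ 1 := by
    rw [div_le_one (by linarith)]
    linarith
  have a2 : x * x / (6 * (1 - x * x)) ≤ 1 := by
    rw [div_le_one (by linarith)]
    linarith
  have a3 : (1 - m) * (1 - m) ≤ 1 := by nlinarith
  have b1 : (1 - m) * (1 - m) * (1 + m * (1 / 2 + m * (1 / 3 + m / (4 * (1 - m))))) +
      m * (x1 * x1) * (1 / 2 + x * x * (1 / 4 + x * x / (6 * (1 - x * x)))) ≤
      1 * (1 + 1 / 1000 * (1 / 2 + 1 / 1000 * (1 / 3 + 1))) +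
      1 / 1000 * 1 * (1 / 2 + 1 / 100 * (1 / 4 + 1)) := by
    have : 0 < 1 - m := by linarith
    have : 0 < 1 - x * x := by linarith
    gcongr
  have b2 : max (4 * ((-log e + 1) * (13 / 50)) - (x1 * x1 * psi t (x1 * x1) * 0 +
      x * x * psi t (x * x) / (1 - m))) 0 ≤ 4 * ((-log e + 1) * (13 / 50)) := by
    have := div_nonneg (mul_nonneg (mul_self_nonneg x) (psi_nonneg (t := t) (by linarith)
      (mul_self_nonneg x))) (show 0 ≤ 1 - m by linarith)
    exact max_le (by linarith) (by linarith)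
  have b3 : 1 / 2 ≤ 1 / (2 - (1 + t) * (x * x)) :=
    one_div_le_one_div_of_le (by nlinarith) (by nlinarith)
  have b4 : 3 * -log e - 11 / 5 ≤ max (3 * -log e + (1 - kHi m) - (x1 * x1 * phiHi (x1 * x1) +
      x * x1 * phiHi (x * x) + 4 * (1 / 5) * (1 - m - m * (x1 * x1)))) 0 := by
    refine le_max_of_le_left ?_
    have c1 := kHi_le hm0.le (by linarith)
    have c2 := mul_le_mul X1 (phiHi_le (mul_self_nonneg x1) X1)
      (by linarith [phiHi_ge (mul_self_nonneg x1)]) zero_le_one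
    have c3 := mul_le_mul (show x * x1 ≤ 1 by nlinarith) (phiHi_le (mul_self_nonneg x)
      (by linarith)) (by linarith [phiHi_ge (mul_self_nonneg x)]) zero_le_one
    have c4 := mul_nonneg hm0.le (mul_self_nonneg x1)
    linarith
  refine (mul_le_mul b1 b2 (le_max_right _ _) (by norm_num)).trans
    (le_trans ?_ (mul_le_mul b3 b4 (by linarith) (by linarith)))
  linarith

set_option maxHeartbeats 1000000 in
theorem tail_large {e m x1 : ℝ} (he0 : 0 < e) (he : e ≤ 1 / 2 ^ 48) (hm0 : e ^ 3 ≤ m)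
    (hm : m ≤ 1 / 2) (hx0 : 0 < x1) (hx1 : x1 < 1) (hd : 2 * m * x1 ≤ 11 / 16) :
    Step e (m - m * x1) (m + m * x1) := by
  have l33 := tail_log he0 he
  have e1 : e ≤ 1 / 1000 := he.trans (by norm_num)
  have m0 : 0 < m := lt_of_lt_of_le (by positivity) hm0
  have hL : log (1 / m) ≤ 3 * -log e := by
    have := log_le_log (by positivity) hm0
    rw [log_pow] at this
    push_cast at this
    rw [one_div, log_inv]
    linarith
  have hL0 : 0 ≤ log (1 / m) := log_nonneg (one_le_one_div m0 (by linarith))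
  have o0 : 0 < 1 - m := by linarith
  obtain ⟨x, hx⟩ : ∃ x, x = m * x1 / (1 - m) := ⟨_, rfl⟩
  obtain ⟨y, hy⟩ : ∃ y, y = x1 / (2 * (1 - m)) := ⟨_, rfl⟩
  obtain ⟨v, hv⟩ : ∃ v, v = 1 - (1 - 2 * m) * (1 - 2 * m) := ⟨_, rfl⟩
  obtain ⟨dy, hdy⟩ : ∃ dy, dy = m * (x1 * x1) / (1 - m) := ⟨_, rfl⟩
  have d0 : 0 ≤ dy := by rw [hdy]; positivity
  have x0 : 0 ≤ x := by rw [hx]; positivity
  have x2 : x ≤ 1 := by
    rw [hx, div_le_one o0]
    nlinarith
  have y0 : 0 < y := by rw [hy]; positivity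
  have y2 : y ≤ 1 := by
    rw [hy, div_le_one (by positivity)]
    linarith
  have v0 : 0 < v := by nlinarith
  have v1 : v ≤ 1 := by nlinarith
  have yv : y * v = 2 * m * x1 := by
    rw [hy, hv]
    field_simp
    ring
  obtain ⟨y1, g1, g2, g3, g4⟩ : ∃ y1, y ≤ y1 ∧ 11 / 16 ≤ y1 ∧ y1 ≤ 1 ∧ y1 * v ≤ 11 / 16 := by
    rcases le_total v (11 / 16) with h | h
    · exact ⟨1, y2, by norm_num, le_rfl, by linarith⟩
    · exact ⟨11 / 16 / v, (le_div_iff₀ v0).2 (by linarith), le_div_self (by norm_num) v0 v1,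
        (div_le_one v0).2 h, (div_mul_cancel₀ _ v0.ne').le⟩
  generalize hl : -log e = l at *
  refine linkB (kt := l + 1) (nu := 6 * l) he0 (by linarith) m0 hm hx0 hx1 (by linarith) rfl rfl hx
    rfl rfl hy hdy hv (hl ▸ tail_kap he0 (by linarith)) g1 ?_ ?_
  · have r0 : 0 ≤ y / (e * (6 * l)) := div_nonneg y0.le (mul_nonneg he0.le (by linarith))
    generalize y / (e * (6 * l)) = r at r0
    have a1 : log 2 ≤ log (2 + r) := log_le_log two_pos (by linarith)
    have a2 : 1 / (3 + 2 * r) ≤ 1 / 3 := one_div_le_one_div_of_le (by norm_num) (by linarith)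
    have a3 : 0 ≤ 4 * (1 - e) * (y * y) * (1 / 2 + (1 - m) * (phiLo (x1 * x1) - 1 / 2)) :=
      mul_nonneg (mul_nonneg (by linarith) (mul_self_nonneg y)) (add_nonneg (by norm_num)
        (mul_nonneg o0.le (sub_nonneg.2 (phiLo_ge (mul_self_nonneg x1)))))
    have a4 : (1 - e) * (log (1 / m) + (1 - kLo m)) / (1 - m) ≤ 2 * (3 * l + 1) := by
      have b1 := kLo_nonneg m0.le
      have b2 := kLo_le m0.le (by linarith)
      rw [div_le_iff₀ o0]
      have b3 := mul_le_of_le_one_left (show 0 ≤ log (1 / m) + (1 - kLo m) by linarith)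
        (show 1 - e ≤ 1 by linarith)
      nlinarith
    have a5 := mul_nonneg (show 0 ≤ l + 1 by linarith) d0
    have a6 := mul_le_mul_of_nonneg_left (show 4 / 3 ≤ log (2 + r) + (1 - 1 / (3 + 2 * r)) by
      linarith [log_two_gt_d9]) (show 0 ≤ 6 * l by linarith)
    linarith
  · have a1 := phiHi_le (mul_self_nonneg x1) (by nlinarith)
    have a2 := phiHi_le (mul_self_nonneg x) (by nlinarith)
    have a3 : phiHi (x1 * x1) - m * (phiHi (x1 * x1) - phiHi (x * x)) ≤ 7 / 10 := by nlinarith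
    have a4 := mul_le_mul_of_nonneg_left a3 (mul_nonneg (show 0 ≤ y1 by linarith)
      (show 0 ≤ 1 - e by linarith))
    have a5 : y1 * (1 - e) ≤ 1 := by nlinarith
    have a6 := mul_le_mul_of_nonneg_left g4 (show 0 ≤ l + 1 by linarith)
    have w0 : 0 < 6 * l + y / 2 := by linarith
    have b1 : 1 / (e * (9 * l)) ≤ 1 + y1 * ((1 - e) / (e * (6 * l + y / 2))) := by
      refine le_add_of_nonneg_of_le zero_le_one ?_
      rw [← mul_div_assoc, div_le_div_iff₀ (mul_pos he0 (by linarith)) (mul_pos he0 w0)]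
      have c1 : 68 / 100 ≤ y1 * (1 - e) := by nlinarith
      have c2 := mul_le_mul_of_nonneg_right c1 (mul_pos he0 (show 0 < 9 * l by linarith)).le
      have c3 := mul_le_mul_of_nonneg_left (show 6 * l + y / 2 ≤ 68 / 100 * (9 * l) by linarith)
        he0.le
      linarith
    have b2 := log_le_log (one_div_pos.2 (mul_pos he0 (by linarith))) b1
    have b3 := log_le_sub_one_of_pos (show 0 < 9 * l / 2 ^ 9 by linarith)
    rw [log_div (by linarith) (by norm_num), log_pow] at b3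
    rw [one_div, log_inv, log_mul he0.ne' (by linarith)] at b2
    push_cast at b3
    linarith [log_two_lt_d9]

end Vale.Agent.P322
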