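import Vale.Agent.P322.CKAll
import Vale.Agent.P322.CKTail

/-!
The induction step for all parameters and the entropy inequality on the cube.
-/

namespace Vale.Agent.P322

open Real Finset

theorem in_dec {a b : ℕ} {x : ℝ} (l u : ℕ) (ha : dec a = l) (hb : dec b = u)
    (h1 : (l : ℝ) ≤ x * 2 ^ 128) (h2 : x * 2 ^ 128 ≤ u) : In ⟨dec a, dec b⟩ x := by
  rw [ha, hb]
  exact ⟨h1, h2⟩

theorem step_core {e a b : ℝ} (he0 : 0 < e) (he1 : e < 1 / 2) (a0 : 0 < a) (ab : a < b)
    (hs : a + b ≤ 1) : Step e a b := by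
  rcases le_total (b - a) (11 / 16) with h | h
  · obtain ⟨m, hm⟩ : ∃ m, m = (a + b) / 2 := ⟨_, rfl⟩
    obtain ⟨x, hx⟩ : ∃ x, x = (b - a) / (a + b) := ⟨_, rfl⟩
    have e1 : m * x = (b - a) / 2 := by
      rw [hm, hx]
      have : a + b ≠ 0 := by linarith
      field_simp
    have m0 : 0 < m := by linarith
    have m1 : m ≤ 1 / 2 := by linarith
    have x0 : 0 < x := hx ▸ div_pos (by linarith) (by linarith)
    have x1 : x < 1 := hx ▸ (div_lt_one (by linarith)).2 (by linarith)
    have hd : 2 * m * x ≤ 11 / 16 := by linarith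
    rw [show a = m - m * x by linarith, show b = m + m * x by linarith]
    rcases le_total e (1 / 2 ^ 48) with h1 | h1
    · rcases le_total m (e ^ 3) with h2 | h2
      · exact tail_small he0 h1 m0 h2 x0 x1
      · exact tail_large he0 h1 h2 m1 x0 x1 hd
    · exact all1 e m x
        (in_dec (2 ^ 80) (2 ^ 127) (by decide) (by decide) (by push_cast; linarith)
          (by push_cast; linarith))
        (in_dec 0 (2 ^ 127) (by decide) (by decide) (by push_cast; linarith)
          (by push_cast; linarith))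
        (in_dec 0 (2 ^ 128) (by decide) (by decide) (by push_cast; linarith)
          (by push_cast; linarith)) he0 he1 m0 m1 x0 x1 hd
  · obtain ⟨be, hb⟩ : ∃ be, be = 1 - b := ⟨_, rfl⟩
    have b0 : 0 < be := by linarith
    obtain ⟨z, hz⟩ : ∃ z, z = a / be := ⟨_, rfl⟩
    have e1 : z * be = a := by rw [hz, div_mul_cancel₀ _ b0.ne']
    have z0 : 0 < z := hz ▸ div_pos a0 b0
    have z1 : z ≤ 1 := hz ▸ (div_le_one b0).2 (by linarith)
    rw [← e1, show b = 1 - be by linarith]
    exact all2 e be z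
      (in_dec 0 (2 ^ 127) (by decide) (by decide) (by push_cast; linarith)
        (by push_cast; linarith))
      (in_dec 0 (5 * 2 ^ 124) (by decide) (by decide) (by push_cast; linarith)
        (by push_cast; linarith))
      (in_dec 0 (2 ^ 128) (by decide) (by decide) (by push_cast; linarith)
        (by push_cast; linarith)) he0 he1 b0 z0 z1 (by linarith)

theorem step_all {e : ℝ} (he0 : 0 < e) (he1 : e < 1 / 2) (a b : ℝ) (a0 : 0 < a) (a1 : a < 1)
    (b0 : 0 < b) (b1 : b < 1) : Step e a b := by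
  rcases lt_trichotomy a b with h | h | h
  · rcases le_total (a + b) 1 with k | k
    · exact step_core he0 he1 a0 h k
    · exact (step_core he0 he1 (by linarith) (by linarith) (by linarith)).swap.flip
  · exact h ▸ step_diag he0.le (by linarith) a
  · rcases le_total (a + b) 1 with k | k
    · exact (step_core he0 he1 b0 h (by linarith)).swap
    · exact (step_core he0 he1 (by linarith) (by linarith) (by linarith)).flip

theorem info_le {n : ℕ} {e : ℝ} (he0 : 0 ≤ e) (he1 : e ≤ 1 / 2) {g : (Fin n → ℤˣ) → ℝ}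
    (g0 : ∀ x, 0 ≤ g x) (g1 : ∀ x, g x ≤ 1) :
    binEntropy ((∑ x, g x) / 2 ^ n) - (∑ y, binEntropy (noise e g y)) / 2 ^ n ≤
      log 2 - binEntropy e := by
  have hc : Continuous fun s : ℝ => log 2 - binEntropy ((1 - s) * e + s / 4) -
      (binEntropy ((∑ x, (s + (1 - 2 * s) * g x)) / 2 ^ n) - (∑ y, binEntropy
        (noise ((1 - s) * e + s / 4) (fun x => s + (1 - 2 * s) * g x) y)) / 2 ^ n) := by
    have : ∀ x y : Fin n → ℤˣ, Continuous fun s : ℝ => ker (fun _ => (1 - s) * e + s / 4) x y :=
      fun x y => continuous_finsetProd _ fun i _ => by split_ifs <;> fun_prop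
    simp only [noise]
    fun_prop
  have := ge_of_tendsto (b := 0) ((hc.tendsto 0).mono_left
    (nhdsWithin_le_nhds (s := Set.Ioi 0)))
    (Filter.mem_of_superset (Ioo_mem_nhdsGT (show (0 : ℝ) < 1 / 2 by norm_num)) fun s hs => ?_)
  · simpa using this
  have s0 := hs.1
  have s1 := hs.2
  have e0 : 0 < (1 - s) * e + s / 4 := by nlinarith
  have e1 : (1 - s) * e + s / 4 < 1 / 2 := by nlinarith
  have k0 : ∀ x, 0 < s + (1 - 2 * s) * g x := fun x => by nlinarith [g0 x]
  have k1 : ∀ x, s + (1 - 2 * s) * g x < 1 := fun x => by nlinarith [g1 x]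
  have p := profile e0 (by linarith) (step_all e0 e1) n _ k0 k1
  have q := BB_ge e0 (by linarith) (avg_mem k0 k1).1 (avg_mem k0 k1).2
  rw [mul_comm, ← le_div_iff₀ (by positivity)] at p
  simp only [Set.mem_ofPred_eq]
  linarith

end Vale.Agent.P322
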