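import Vale.Agent.P322.CKStep

/-!
Polynomial bounds used by the interval checks.
-/

namespace Vale.Agent.P322

open Real Finset

noncomputable def phiLo (y : ℝ) : ℝ :=
  1 / 2 + y * (1 / 12 + y * (1 / 30 + y * (1 / 56 + y * (1 / 90 + y * (1 / 132)))))

noncomputable def phiHi (y : ℝ) : ℝ :=
  1 / 2 + y * (1 / 12 + y * (1 / 30 + y * (1 / 56 + y * (1 / 90 + y * (1 / 132 + y * (1 / 182 +
    y * (1 / 240 + y * (1 / 33))))))))

noncomputable def kLo (u : ℝ) : ℝ := u * (1 / 2 + u * (1 / 6))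

noncomputable def kHi (u : ℝ) : ℝ :=
  u * (1 / 2 + u * (1 / 6 + u * (1 / 12 + u * (1 / 20 + u * (1 / 30 + u * (1 / 6))))))

def geo (t : ℝ) : ℕ → ℝ
  | 0 => 1
  | k + 1 => 1 + t * geo t k

noncomputable def psi (t y : ℝ) : ℝ :=
  1 / 12 + y * (1 / 30 * geo t 1 + y * (1 / 56 * geo t 2 + y * (1 / 90 * geo t 3 +
    y * (1 / 132 * geo t 4 + y * (1 / 182 * geo t 5 + y * (1 / 240 * geo t 6 +
    y * (1 / 306 * geo t 7 + y * (1 / 380 * geo t 8))))))))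

noncomputable def af (t x : ℝ) : ℝ :=
  (1 + x) * (1 / 2 + t * (1 / 12 * geo (x * x) 1 + t * (1 / 30 * geo (x * x) 2 +
    t * (1 / 56 * geo (x * x) 3 + t * (1 / 90 * geo (x * x) 4)))))

theorem geo_nonneg {t : ℝ} (h : 0 ≤ t) : ∀ k, 0 ≤ geo t k
  | 0 => zero_le_one
  | k + 1 => add_nonneg zero_le_one (mul_nonneg h (geo_nonneg h k))

theorem geo_mono {s t : ℝ} (h0 : 0 ≤ s) (h : s ≤ t) : ∀ k, geo s k ≤ geo t k
  | 0 => le_rfl
  | k + 1 => add_le_add le_rfl (mul_le_mul h (geo_mono h0 h k) (geo_nonneg h0 k) (h0.trans h))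

theorem psi_nonneg {t y : ℝ} (ht : 0 ≤ t) (hy : 0 ≤ y) : 0 ≤ psi t y := by
  simp only [psi, geo]
  positivity

theorem af_mono {t x y : ℝ} (ht : 0 ≤ t) (h0 : 0 ≤ x) (h : x ≤ y) : af t x ≤ af t y := by
  have := h0.trans h
  simp only [af, geo]
  gcongr

theorem ph_lo {x : ℝ} (h0 : 0 ≤ x) (h1 : x < 1) : x * x * phiLo (x * x) ≤ ph x := by
  refine le_of_eq_of_le ?_ (ph_ge_sum 6 h0 h1)
  simp only [sum_range_succ, sum_range_zero, cc, phiLo]
  push_cast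
  ring

theorem ph_hi {x : ℝ} (h0 : 0 ≤ x) (h1 : x < 1) : ph x ≤ x * x * phiHi (x * x) := by
  refine le_of_le_of_eq (ph_le_sum 8 h0 h1) ?_
  simp only [sum_range_succ, sum_range_zero, cc, phiHi]
  push_cast
  ring

theorem psi_lo {r y : ℝ} (hr0 : 0 ≤ r) (hr1 : r ≤ 1) (h0 : 0 ≤ y) (h1 : y < 1) :
    r * r * (1 - r * r) * (y * y * (y * y) * psi (r * r) (y * y)) ≤
      r * r * ph y - ph (r * y) := by
  have := psi_ge_sum 10 hr0 hr1 h0 h1
  rw [sq r, sq y] at this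
  refine le_of_eq_of_le ?_ this
  generalize r * r = t
  generalize y * y = Y
  simp only [sum_range_succ, sum_range_zero, cc, psi, geo]
  push_cast
  ring

theorem af_lo {r y : ℝ} (hr0 : 0 ≤ r) (hr1 : r < 1) (h0 : 0 ≤ y) (h1 : y ≤ 1) :
    r * r * (1 - y) * af (r * r) y ≤ ph r - ph (r * y) := by
  have := af_ge_sum 5 hr0 hr1 h0 h1
  rw [sq r] at this
  refine le_of_eq_of_le ?_ this
  generalize r * r = t
  simp only [sum_range_succ, sum_range_zero, cc, af, geo]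
  push_cast
  ring

theorem nl_lo {u : ℝ} (h0 : 0 ≤ u) (h1 : u < 1) : u * (1 - kHi u) ≤ -(1 - u) * log (1 - u) := by
  have := mul_le_mul_of_nonneg_left (nlog_ge_sum 6 h0 h1) (sub_pos.2 h1).le
  simp only [sum_range_succ, sum_range_zero] at this
  push_cast at this
  rw [kHi]
  linarith

theorem nl_hi {u : ℝ} (h0 : 0 ≤ u) (h1 : u < 1) : -(1 - u) * log (1 - u) ≤ u * (1 - kLo u) := by
  have := mul_le_mul_of_nonneg_left (nlog_le_sum 2 h0 h1) (sub_pos.2 h1).le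
  simp only [sum_range_succ, sum_range_zero] at this
  push_cast at this
  have e : (1 - u) * (u ^ (2 + 1) / ((2 + 1) * (1 - u))) = u ^ 3 / 3 := by
    have := (sub_pos.2 h1).ne'
    field_simp
    norm_num
  rw [kLo]
  linarith

theorem ent_lo {u : ℝ} (h0 : 0 ≤ u) (h1 : u < 1) : u * (-log u + (1 - kHi u)) ≤ binEntropy u := by
  rw [ent_eq]
  linarith [nl_lo h0 h1]

theorem ent_hi {u : ℝ} (h0 : 0 ≤ u) (h1 : u < 1) : binEntropy u ≤ u * (-log u + (1 - kLo u)) := by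
  rw [ent_eq]
  linarith [nl_hi h0 h1]

theorem kLo_nonneg {u : ℝ} (h0 : 0 ≤ u) : 0 ≤ kLo u := by
  rw [kLo]
  positivity

theorem kHi_nonneg {u : ℝ} (h0 : 0 ≤ u) : 0 ≤ kHi u := by
  rw [kHi]
  positivity

theorem kLo_le {u : ℝ} (h0 : 0 ≤ u) (h1 : u ≤ 1) : kLo u ≤ 1 := by
  have : kLo u ≤ kLo 1 := by
    simp only [kLo]
    gcongr
  exact this.trans (by norm_num [kLo])

theorem kHi_le {u : ℝ} (h0 : 0 ≤ u) (h1 : u ≤ 1) : kHi u ≤ 1 := by
  have : kHi u ≤ kHi 1 := by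
    simp only [kHi]
    gcongr
  exact this.trans (by norm_num [kHi])

theorem phiHi_mono {x y : ℝ} (h0 : 0 ≤ x) (h : x ≤ y) : phiHi x ≤ phiHi y := by
  have := h0.trans h
  simp only [phiHi]
  gcongr

theorem phiHi_le {y : ℝ} (h0 : 0 ≤ y) (h1 : y ≤ 1) : phiHi y ≤ 7 / 10 :=
  (phiHi_mono h0 h1).trans (by norm_num [phiHi])

theorem phiHi_ge {y : ℝ} (h0 : 0 ≤ y) : 1 / 2 ≤ phiHi y := by
  simpa [phiHi] using phiHi_mono le_rfl h0

theorem phiLo_ge {y : ℝ} (h0 : 0 ≤ y) : 1 / 2 ≤ phiLo y := by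
  rw [phiLo]
  exact le_add_of_nonneg_right (by positivity)

theorem phiLo_le {y : ℝ} (h0 : 0 ≤ y) (h1 : y ≤ 1) : phiLo y ≤ log 2 := by
  have : phiLo y ≤ phiLo 1 := by
    simp only [phiLo]
    gcongr
  exact this.trans (le_trans (by norm_num [phiLo]) log_two_gt_d9.le)

theorem kap_hi {e : ℝ} (h0 : 0 < e) (h1 : e < 1 / 2) : kap e ≤ (1 - 2 * e) * (1 - 2 * e) *
    (log 2 - phiLo ((1 - 2 * e) * (1 - 2 * e))) := by
  rw [kap_eq h0 (by linarith)]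
  linarith [ph_lo (x := 1 - 2 * e) (by linarith) (by linarith)]

theorem kap_lo {e : ℝ} (h0 : 0 < e) (h1 : e < 1 / 2) : (1 - 2 * e) * (1 - 2 * e) *
    max (log 2 - phiHi ((1 - 2 * e) * (1 - 2 * e))) 0 ≤ kap e := by
  rw [mul_max_of_nonneg _ _ (mul_self_nonneg _), mul_zero]
  refine max_le ?_ (kap_nonneg h0 (by linarith))
  rw [kap_eq h0 (by linarith)]
  linarith [ph_hi (x := 1 - 2 * e) (by linarith) (by linarith)]

theorem kap_hi' {e : ℝ} (h0 : 0 < e) (h1 : e < 1) :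
    kap e ≤ e * max (-log e + (1 - kLo e) - 4 * log 2 * (1 - e)) 0 := by
  refine le_trans ?_ (mul_le_mul_of_nonneg_left (le_max_left _ _) h0.le)
  rw [kap]
  linarith [ent_hi h0.le h1]

theorem kap_lo' {e : ℝ} (h0 : 0 < e) (h1 : e < 1) :
    e * (-log e + (1 - kHi e) - 4 * log 2 * (1 - e)) ≤ kap e := by
  rw [kap]
  linarith [ent_lo h0.le h1]

end Vale.Agent.P322
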