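import Mathlib

/-!
Greedy orthonormal selection from a family of coordinate subspaces, and Bessel's inequality.
-/

namespace Vale.Agent.P322

open Finset

theorem greedy {I κ X : Type} [Fintype I] [DecidableEq I] [Fintype κ] [DecidableEq κ]
    (l : I → ℕ) (M : κ → X → ℝ) (A : Finset X) (J : ℕ → Finset κ)
    (hpos : ∀ k (c : κ → ℝ), (∀ s, s ∉ J k → c s = 0) → c ≠ 0 →
      0 < ∑ x ∈ A, (∑ s, c s * M s x) * (∑ s, c s * M s x))
    (hdim : ∀ k, (univ.filter fun i => l i ≤ k).card ≤ (J k).card) :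
    ∃ a : I → κ → ℝ, (∀ i s, s ∉ J (l i) → a i s = 0) ∧
      ∀ i j, ∑ x ∈ A, (∑ s, a i s * M s x) * (∑ s, a j s * M s x) = if i = j then 1 else 0 := by
  suffices h : ∀ S : Finset I, ∃ a : I → κ → ℝ, (∀ i ∈ S, ∀ s, s ∉ J (l i) → a i s = 0) ∧
      ∀ i ∈ S, ∀ j ∈ S, ∑ x ∈ A, (∑ s, a i s * M s x) * (∑ s, a j s * M s x) =
        if i = j then 1 else 0 by
    obtain ⟨a, h1, h2⟩ := h univ
    exact ⟨a, fun i => h1 i (mem_univ i), fun i j => h2 i (mem_univ i) j (mem_univ j)⟩
  intro S
  induction S using Finset.induction_on_max_value l with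
  | empty => exact ⟨0, by simp, by simp⟩
  | insert i0 S hi0 hmax ih =>
    obtain ⟨a, h1, h2⟩ := ih
    have hcard : S.card < (J (l i0)).card := by
      refine lt_of_lt_of_le ?_ (hdim (l i0))
      refine card_lt_card ⟨fun x hx => by simpa using hmax x hx, fun h => hi0 (h (by simp))⟩
    let N : Matrix S (J (l i0)) ℝ := fun i t => ∑ x ∈ A, (∑ s, a i s * M s x) * M t x
    have hk : LinearMap.ker N.mulVecLin ≠ ⊥ :=
      LinearMap.ker_ne_bot_of_finrank_lt (by simpa using hcard)
    obtain ⟨c, hc, hc0⟩ := Submodule.exists_mem_ne_zero_of_ne_bot hk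
    let c' : κ → ℝ := fun s => if h : s ∈ J (l i0) then c ⟨s, h⟩ else 0
    have hc's : ∀ s, s ∉ J (l i0) → c' s = 0 := fun s hs => dif_neg hs
    have hc'0 : c' ≠ 0 := fun h => hc0 (funext fun t => by
      have := congrFun h t
      simpa [c', t.2] using this)
    have hsum : ∀ g : κ → ℝ, ∑ s, c' s * g s = ∑ t : J (l i0), c t * g t := by
      intro g
      rw [← Finset.sum_subset (subset_univ (J (l i0))) (fun s _ hs => by rw [hc's s hs, zero_mul]),
        ← Finset.sum_coe_sort]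
      exact sum_congr rfl fun t _ => by simp [c', t.2]
    have horth : ∀ i ∈ S, ∑ x ∈ A, (∑ s, a i s * M s x) * (∑ s, c' s * M s x) = 0 := by
      intro i hi
      have : ∑ t : J (l i0), (∑ x ∈ A, (∑ s, a i s * M s x) * M t x) * c t = 0 :=
        congrFun (LinearMap.mem_ker.1 hc) ⟨i, hi⟩
      rw [← this]
      simp only [hsum]
      simp only [mul_sum, sum_mul]
      rw [sum_comm]
      exact sum_congr rfl fun t _ => sum_congr rfl fun x _ => sum_congr rfl fun s _ => by ring
    have hp := hpos _ c' hc's hc'0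
    set q := ∑ x ∈ A, (∑ s, c' s * M s x) * (∑ s, c' s * M s x) with hq
    have hsc : ∀ x, ∑ s, ((√q)⁻¹ * c' s) * M s x = (√q)⁻¹ * ∑ s, c' s * M s x := by
      intro x
      rw [mul_sum]
      exact sum_congr rfl fun s _ => by ring
    have hS : ∀ i ∈ S, i ≠ i0 := fun i hi h => hi0 (h ▸ hi)
    refine ⟨Function.update a i0 fun s => (√q)⁻¹ * c' s, ?_, ?_⟩
    · intro i hi s hs
      rcases mem_insert.1 hi with rfl | hi
      · simp [hc's s hs]
      · rw [Function.update_of_ne (hS i hi)]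
        exact h1 i hi s hs
    · intro i hi j hj
      rcases mem_insert.1 hi with hi' | hi' <;> rcases mem_insert.1 hj with hj' | hj'
      · subst hi' hj'
        simp only [Function.update_self, hsc, if_true]
        have : ∀ x, (√q)⁻¹ * (∑ s, c' s * M s x) * ((√q)⁻¹ * ∑ s, c' s * M s x) =
            ((√q) * √q)⁻¹ * ((∑ s, c' s * M s x) * (∑ s, c' s * M s x)) := fun x => by ring
        simp only [this]
        rw [← mul_sum, ← hq, Real.mul_self_sqrt hp.le, inv_mul_cancel₀ hp.ne']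
      · subst hi'
        have hne : j ≠ i := hS j hj'
        simp only [Function.update_self, Function.update_of_ne hne, hsc, if_neg hne.symm]
        have : ∀ x, (√q)⁻¹ * (∑ s, c' s * M s x) * (∑ s, a j s * M s x) =
            (√q)⁻¹ * ((∑ s, a j s * M s x) * (∑ s, c' s * M s x)) := fun x => by ring
        simp only [this]
        rw [← mul_sum, horth j hj', mul_zero]
      · subst hj'
        have hne : i ≠ j := hS i hi'
        simp only [Function.update_self, Function.update_of_ne hne, hsc, if_neg hne]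
        have : ∀ x, (∑ s, a i s * M s x) * ((√q)⁻¹ * ∑ s, c' s * M s x) =
            (√q)⁻¹ * ((∑ s, a i s * M s x) * (∑ s, c' s * M s x)) := fun x => by ring
        simp only [this]
        rw [← mul_sum, horth i hi', mul_zero]
      · rw [Function.update_of_ne (hS i hi'), Function.update_of_ne (hS j hj')]
        exact h2 i hi' j hj'

theorem bessel {I X : Type} [Fintype I] [DecidableEq I] (m : I → X → ℝ) (A : Finset X)
    (h : ∀ i j, ∑ x ∈ A, m i x * m j x = if i = j then 1 else 0) (v : X → ℝ) :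
    ∑ i, (∑ x ∈ A, m i x * v x) ^ 2 ≤ ∑ x ∈ A, v x ^ 2 := by
  set α : I → ℝ := fun i => ∑ x ∈ A, m i x * v x with hα
  have h1 : ∑ x ∈ A, (∑ i, α i * m i x) * v x = ∑ i, α i ^ 2 := by
    simp only [sum_mul]
    rw [sum_comm]
    refine sum_congr rfl fun i _ => ?_
    rw [sq]
    conv_rhs => rw [hα]; simp only; rw [mul_sum]
    exact sum_congr rfl fun x _ => by simp only [hα]; ring
  have h2 : ∑ x ∈ A, (∑ i, α i * m i x) ^ 2 = ∑ i, α i ^ 2 := by
    have : ∀ x, (∑ i, α i * m i x) ^ 2 = ∑ i, ∑ j, α i * α j * (m i x * m j x) := by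
      intro x
      rw [sq, sum_mul_sum]
      exact sum_congr rfl fun i _ => sum_congr rfl fun j _ => by ring
    simp only [this]
    rw [sum_comm]
    refine sum_congr rfl fun i _ => ?_
    rw [sum_comm]
    simp only [← mul_sum, h]
    simp [sq]
  have h3 : 0 ≤ ∑ x ∈ A, (v x - ∑ i, α i * m i x) ^ 2 := sum_nonneg fun x _ => sq_nonneg _
  have h4 : ∀ x, (v x - ∑ i, α i * m i x) ^ 2 =
      v x ^ 2 - 2 * ((∑ i, α i * m i x) * v x) + (∑ i, α i * m i x) ^ 2 := fun x => by ring
  simp only [h4, sum_add_distrib, sum_sub_distrib, ← mul_sum, h1, h2] at h3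
  linarith

theorem sq_add_le {I : Type} [Fintype I] (a b : I → ℝ) {u w : ℝ} (ha : ∑ i, a i ^ 2 ≤ u)
    (hb : ∑ i, b i ^ 2 ≤ w) : ∑ i, (a i + b i) ^ 2 ≤ u + w + 2 * √(u * w) := by
  have h0 : 0 ≤ ∑ i, a i ^ 2 := sum_nonneg fun i _ => sq_nonneg _
  have h0' : 0 ≤ ∑ i, b i ^ 2 := sum_nonneg fun i _ => sq_nonneg _
  have h1 : ∑ i, a i * b i ≤ √(u * w) := by
    refine Real.le_sqrt_of_sq_le ((sum_mul_sq_le_sq_mul_sq _ _ _).trans ?_)
    exact mul_le_mul ha hb h0' (h0.trans ha)
  have h2 : ∀ i, (a i + b i) ^ 2 = a i ^ 2 + b i ^ 2 + 2 * (a i * b i) := fun i => by ring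
  simp only [h2, sum_add_distrib, ← mul_sum]
  linarith

end Vale.Agent.P322
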