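import Mathlib
import Vale.Agent.P322.Greedy

/-!
Hellinger affinity bound for functions that are odd under a sign change.
-/

namespace Vale.Agent.P322

open Finset

variable {ι : Type} [Fintype ι] [DecidableEq ι]

def sg (u : ℤˣ) : ℝ := ((u : ℤ) : ℝ)

@[simp] theorem sg_one : sg 1 = 1 := by simp [sg]
@[simp] theorem sg_neg_one : sg (-1) = -1 := by simp [sg]
theorem sg_mul (u v : ℤˣ) : sg (u * v) = sg u * sg v := by simp [sg]

theorem one_ne_neg : (1 : ℤˣ) ≠ -1 := by decide

theorem sum_units (g : ℤˣ → ℝ) : ∑ u, g u = g 1 + g (-1) := by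
  rw [UnitsInt.univ, sum_pair one_ne_neg]

theorem sum_prod_pi {β : Type} [Fintype β] (f : ι → β → ℝ) :
    ∑ z : ι → β, ∏ k, f k (z k) = ∏ k, ∑ b, f k b := by
  rw [Finset.prod_univ_sum, Fintype.piFinset_univ]

def chi (s : ι → Bool) (x : ι → ℤˣ) : ℝ := ∏ i, if s i then sg (x i) else 1

def ker (e : ι → ℝ) (x y : ι → ℤˣ) : ℝ := ∏ i, if x i = y i then 1 - e i else e i

noncomputable def amp (e : ι → ℝ) (x y : ι → ℤˣ) : ℝ :=
  ∏ i, if x i = y i then √(1 - e i) else √(e i)

def lev (t : ι → ℤˣ) (s : ι → Bool) : ℕ := ∑ i, if t i = -1 ∧ s i then 1 else 0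

theorem chi_orth (s s' : ι → Bool) :
    ∑ x, chi s x * chi s' x = if s = s' then (2 : ℝ) ^ Fintype.card ι else 0 := by
  simp only [chi, ← prod_mul_distrib]
  rw [sum_prod_pi fun i u => (if s i then sg u else 1) * if s' i then sg u else 1]
  split_ifs with h
  · subst h
    rw [← card_univ, ← prod_const]
    refine prod_congr rfl fun i _ => ?_
    rw [sum_units]
    cases s i <;> norm_num
  · obtain ⟨i, hi⟩ := Function.ne_iff.1 h
    refine prod_eq_zero (mem_univ i) ?_
    rw [sum_units]
    revert hi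
    cases s i <;> cases s' i <;> simp

theorem parseval (c : (ι → Bool) → ℝ) :
    ∑ x, (∑ s, c s * chi s x) * (∑ s, c s * chi s x) = 2 ^ Fintype.card ι * ∑ s, c s ^ 2 := by
  have : ∀ x, (∑ s, c s * chi s x) * (∑ s, c s * chi s x) =
      ∑ s, ∑ s', c s * c s' * (chi s x * chi s' x) := by
    intro x
    rw [sum_mul_sum]
    exact sum_congr rfl fun i _ => sum_congr rfl fun j _ => by ring
  simp only [this]
  rw [sum_comm, mul_sum]
  refine sum_congr rfl fun s _ => ?_
  rw [sum_comm]
  simp only [← mul_sum, chi_orth]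
  simp [sq, mul_comm]

theorem amp_chi (e : ι → ℝ) (s : ι → Bool) (y : ι → ℤˣ) :
    ∑ x, chi s x * amp e x y =
      (∏ i, if s i then √(1 - e i) - √(e i) else √(1 - e i) + √(e i)) * chi s y := by
  simp only [chi, amp, ← prod_mul_distrib]
  rw [sum_prod_pi fun i u => (if s i then sg u else 1) * if u = y i then √(1 - e i) else √(e i)]
  refine prod_congr rfl fun i _ => ?_
  rw [sum_units]
  rcases Int.units_eq_one_or (y i) with h | h <;> rw [h] <;> cases s i <;>
    simp [one_ne_neg.symm] <;> ring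

omit [DecidableEq ι] in
theorem amp_sq {e : ι → ℝ} (h0 : ∀ i, 0 ≤ e i) (h1 : ∀ i, e i ≤ 1) (x y : ι → ℤˣ) :
    amp e x y ^ 2 = ker e x y := by
  rw [amp, ker, ← prod_pow]
  refine prod_congr rfl fun i _ => ?_
  split_ifs
  · exact Real.sq_sqrt (by linarith [h1 i])
  · exact Real.sq_sqrt (h0 i)

omit [DecidableEq ι] in
theorem ker_nonneg {e : ι → ℝ} (h0 : ∀ i, 0 ≤ e i) (h1 : ∀ i, e i ≤ 1) (x y : ι → ℤˣ) :
    0 ≤ ker e x y := by
  rw [← amp_sq h0 h1]
  exact sq_nonneg _

omit [DecidableEq ι] in
theorem ker_comm (e : ι → ℝ) (x y : ι → ℤˣ) : ker e x y = ker e y x := by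
  simp only [ker, eq_comm]

theorem ker_sum (e : ι → ℝ) (y : ι → ℤˣ) : ∑ x, ker e x y = 1 := by
  simp only [ker]
  rw [sum_prod_pi fun i u => if u = y i then 1 - e i else e i]
  refine prod_eq_one fun i _ => ?_
  rw [sum_units]
  rcases Int.units_eq_one_or (y i) with h | h <;> rw [h] <;> simp [one_ne_neg.symm]

theorem ker_split (t : ι → ℤˣ) (ε : ℝ) (x y : ι → ℤˣ) :
    ker (fun _ => ε) x y = ∑ w, ker (fun i => if t i = -1 then ε else 0) x w *
      ker (fun i => if t i = -1 then 0 else ε) w y := by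
  simp only [ker, ← prod_mul_distrib]
  rw [sum_prod_pi fun i u => (if x i = u then 1 - (if t i = -1 then ε else 0) else
    (if t i = -1 then ε else 0)) * if u = y i then 1 - (if t i = -1 then 0 else ε) else
      (if t i = -1 then 0 else ε)]
  refine prod_congr rfl fun i _ => ?_
  rw [sum_units]
  rcases Int.units_eq_one_or (y i) with h | h <;> rcases Int.units_eq_one_or (x i) with h' | h' <;>
    rw [h, h'] <;> by_cases ht : t i = -1 <;> simp [one_ne_neg.symm, ht]

omit [DecidableEq ι] in
theorem chi_mul (t : ι → ℤˣ) (s : ι → Bool) (x : ι → ℤˣ) :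
    chi s (t * x) = (-1) ^ lev t s * chi s x := by
  simp only [chi, lev, ← prod_pow_eq_pow_sum, ← prod_mul_distrib, Pi.mul_apply, sg_mul]
  refine prod_congr rfl fun i _ => ?_
  rcases Int.units_eq_one_or (t i) with h | h <;> rw [h] <;> cases s i <;> simp

theorem sum_flip {f : (ι → ℤˣ) → ℤˣ} {t : ι → ℤˣ} (hf : ∀ x, f (t * x) = -f x)
    (g : (ι → ℤˣ) → ℝ) :
    ∑ x ∈ univ.filter (fun x => ¬f x = 1), g x = ∑ x ∈ univ.filter (fun x => f x = 1), g (t * x) := by
  have htt : ∀ x, t * (t * x) = x := fun x => by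
    funext i
    simp [← mul_assoc]
  refine sum_nbij' (fun x => t * x) (fun x => t * x) ?_ ?_ (fun x _ => htt x) (fun x _ => htt x)
    (fun x _ => by rw [htt])
  · intro x hx
    simp only [mem_filter, mem_univ, true_and] at hx ⊢
    rcases Int.units_eq_one_or (f x) with h | h
    · exact absurd h hx
    · rw [hf, h, neg_neg]
  · intro x hx
    simp only [mem_filter, mem_univ, true_and] at hx ⊢
    rw [hf, hx]
    exact one_ne_neg.symm

theorem lev_update (t : ι → ℤˣ) {i0 : ι} (h0 : t i0 = -1) {s : ι → Bool} (hs : s i0 = false) :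
    lev t (Function.update s i0 true) = lev t s + 1 := by
  simp only [lev]
  rw [← add_sum_erase _ _ (mem_univ i0), ← add_sum_erase _ _ (mem_univ i0)]
  have : ∀ i ∈ univ.erase i0, (if t i = -1 ∧ Function.update s i0 true i then 1 else 0 : ℕ) =
      if t i = -1 ∧ s i then 1 else 0 := fun i hi => by
    rw [Function.update_of_ne (ne_of_mem_erase hi)]
  rw [sum_congr rfl this]
  simp [h0, hs, add_comm]

theorem dim_le (t : ι → ℤˣ) {i0 : ι} (h0 : t i0 = -1) (k : ℕ) :
    (univ.filter fun s : {s : ι → Bool // s i0 = false} => lev t s ≤ k).card ≤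
      (univ.filter fun s : ι → Bool => lev t s ≤ k ∧ lev t s % 2 = k % 2).card := by
  refine card_le_card_of_injOn
    (fun s => if lev t s % 2 = k % 2 then s.1 else Function.update s.1 i0 true) ?_ ?_
  · intro s hs
    simp only [coe_filter, mem_univ, true_and, Set.mem_ofPred_eq] at hs ⊢
    split_ifs with h
    · exact ⟨hs, h⟩
    · rw [lev_update t h0 s.2]
      omega
  · intro s _ s' _ h
    have key : ∀ s : {s : ι → Bool // s i0 = false}, Function.update
        (if lev t s % 2 = k % 2 then s.1 else Function.update s.1 i0 true) i0 false = s.1 := by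
      intro s
      split_ifs
      · exact Function.update_eq_self_iff.2 s.2.symm
      · rw [Function.update_idem]
        exact Function.update_eq_self_iff.2 s.2.symm
    apply Subtype.ext
    rw [← key s, ← key s']
    exact congrArg (fun z => Function.update z i0 false) h

theorem core {f : (ι → ℤˣ) → ℤˣ} {t : ι → ℤˣ} (hf : ∀ x, f (t * x) = -f x) {ε : ℝ}
    (h0 : 0 ≤ ε) (h1 : ε ≤ 1) (u : (ι → ℤˣ) → ℝ)
    (hu : ∀ y, u y = ∑ x ∈ univ.filter (fun x => f x = 1),
      ker (fun i => if t i = -1 then ε else 0) x y) :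
    2 * (√(1 - ε) * √ε) * 2 ^ Fintype.card ι ≤ ∑ y, 2 * √(u y * (1 - u y)) := by
  obtain ⟨i0, hi0⟩ : ∃ i0, t i0 = -1 := by
    by_contra h
    have ht : t = 1 := funext fun i => (Int.units_eq_one_or (t i)).resolve_right fun h' => h ⟨i, h'⟩
    have := hf 1
    rw [ht, one_mul] at this
    rcases Int.units_eq_one_or (f 1) with h | h <;> rw [h] at this <;> revert this <;> decide
  set e : ι → ℝ := fun i => if t i = -1 then ε else 0 with he
  have he0 : ∀ i, 0 ≤ e i := fun i => by simp only [he]; split_ifs <;> linarith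
  have he1 : ∀ i, e i ≤ 1 := fun i => by simp only [he]; split_ifs <;> linarith
  set σ := 2 * (√(1 - ε) * √ε) with hσ
  have hs1 : √(1 - ε) ^ 2 = 1 - ε := Real.sq_sqrt (by linarith)
  have hs2 : √ε ^ 2 = ε := Real.sq_sqrt h0
  have hσ0 : 0 ≤ σ := by positivity
  have hσ1 : σ ≤ 1 := by nlinarith [sq_nonneg (√(1 - ε) - √ε)]
  set A := univ.filter (fun x => f x = 1) with hA
  set J : ℕ → Finset (ι → Bool) := fun k => univ.filter fun s => lev t s ≤ k ∧ lev t s % 2 = k % 2
    with hJ
  have hflip : ∀ k (c : (ι → Bool) → ℝ), (∀ s, s ∉ J k → c s = 0) → ∀ x,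
      ∑ s, c s * chi s (t * x) = (-1) ^ k * ∑ s, c s * chi s x := by
    intro k c hc x
    rw [mul_sum]
    refine sum_congr rfl fun s _ => ?_
    by_cases hs : s ∈ J k
    · rw [chi_mul, neg_one_pow_eq_pow_mod_two, (mem_filter.1 hs).2.2, ← neg_one_pow_eq_pow_mod_two]
      ring
    · simp [hc s hs]
  have hhalf : ∀ k (c : (ι → Bool) → ℝ), (∀ s, s ∉ J k → c s = 0) →
      2 * ∑ x ∈ A, (∑ s, c s * chi s x) * (∑ s, c s * chi s x) =
        2 ^ Fintype.card ι * ∑ s, c s ^ 2 := by
    intro k c hc
    rw [← parseval, ← sum_filter_add_sum_filter_not univ (fun x => f x = 1), sum_flip hf, two_mul]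
    congr 1
    refine sum_congr rfl fun x _ => ?_
    rw [hflip k c hc, mul_mul_mul_comm, ← pow_add, ← two_mul, pow_mul]
    simp
  obtain ⟨a, ha, hon⟩ := greedy (fun s : {s : ι → Bool // s i0 = false} => lev t s) chi A J
    (fun k c hc hc0 => by
      have h := hhalf k c hc
      obtain ⟨s, hs⟩ := Function.ne_iff.1 hc0
      have : 0 < ∑ s, c s ^ 2 := sum_pos' (fun s _ => sq_nonneg _) ⟨s, mem_univ s,
        pow_pos (abs_pos.2 hs) 2 |>.trans_eq (sq_abs _)⟩
      have : (0 : ℝ) < 2 ^ Fintype.card ι * ∑ s, c s ^ 2 := by positivity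
      linarith) (dim_le t hi0)
  have honB : ∀ i j, ∑ x ∈ univ.filter (fun x => ¬f x = 1),
      (∑ s, a i s * chi s x) * (∑ s, a j s * chi s x) = if i = j then 1 else 0 := by
    intro i j
    rw [sum_flip hf]
    simp only [hflip _ _ (ha i), hflip _ _ (ha j), mul_mul_mul_comm, ← mul_sum, ← hA, hon]
    split_ifs with h
    · subst h
      rw [← pow_add, ← two_mul, pow_mul]
      simp
    · simp
  have hy : ∀ y, ∑ i, (∑ x, (∑ s, a i s * chi s x) * amp e x y) ^ 2 ≤
      1 + 2 * √(u y * (1 - u y)) := by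
    intro y
    have hB := bessel (fun i x => ∑ s, a i s * chi s x) _ honB fun x => amp e x y
    have hA' := bessel (fun i x => ∑ s, a i s * chi s x) _ hon fun x => amp e x y
    simp only [amp_sq he0 he1] at hA' hB
    have hk := ker_sum e y
    rw [← sum_filter_add_sum_filter_not univ (fun x => f x = 1), ← hu] at hk
    rw [← hu] at hA'
    have := sq_add_le _ _ hA' (hB.trans (le_of_eq (eq_sub_of_add_eq' hk)))
    simp only [hA, sum_filter_add_sum_filter_not] at this
    linarith
  set lam : (ι → Bool) → ℝ := fun s => ∏ i, if t i = -1 then (if s i then 1 - σ else 1 + σ) else 1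
    with hlam
  have hkap : ∀ s : ι → Bool,
      (∏ i, if s i then √(1 - e i) - √(e i) else √(1 - e i) + √(e i)) ^ 2 = lam s := by
    intro s
    rw [← prod_pow]
    refine prod_congr rfl fun i _ => ?_
    by_cases h : t i = -1 <;> cases s i <;> simp [he, h] <;> nlinarith
  have hlev : ∀ s, lam s = (∏ i, if t i = -1 then 1 + σ else 1) * ((1 - σ) / (1 + σ)) ^ lev t s := by
    intro s
    simp only [hlam, lev, ← prod_pow_eq_pow_sum, ← prod_mul_distrib]
    refine prod_congr rfl fun i _ => ?_
    by_cases h : t i = -1 <;> cases s i <;> simp [h]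
    field_simp
  have hmono : ∀ s s', lev t s' ≤ lev t s → lam s ≤ lam s' := by
    intro s s' h
    rw [hlev, hlev]
    refine mul_le_mul_of_nonneg_left (pow_le_pow_of_le_one (div_nonneg (by linarith) (by linarith))
      ((div_le_one (by linarith)).2 (by linarith)) h) (prod_nonneg fun i _ => ?_)
    split_ifs <;> linarith
  have hi : ∀ i : {s : ι → Bool // s i0 = false},
      2 * lam i ≤ ∑ y, (∑ x, (∑ s, a i s * chi s x) * amp e x y) ^ 2 := by
    intro i
    have h2 : ∀ y, ∑ x, (∑ s, a i s * chi s x) * amp e x y = ∑ s, (a i s *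
        ∏ i, if s i then √(1 - e i) - √(e i) else √(1 - e i) + √(e i)) * chi s y := by
      intro y
      simp only [sum_mul]
      rw [sum_comm]
      refine sum_congr rfl fun s _ => ?_
      simp only [mul_assoc, ← mul_sum, amp_chi]
    simp only [h2, sq (∑ _s, _)]
    rw [parseval]
    have h3 := hhalf _ _ (ha i)
    rw [hon, if_pos rfl, mul_one] at h3
    refine (le_of_eq (congrArg (· * lam i) h3)).trans ?_
    simp only [mul_assoc, sum_mul]
    refine mul_le_mul_of_nonneg_left (sum_le_sum fun s _ => ?_) (by positivity)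
    rw [mul_pow, hkap]
    by_cases hs : s ∈ J (lev t i)
    · exact mul_le_mul_of_nonneg_left (hmono _ _ (mem_filter.1 hs).2.1) (sq_nonneg _)
    · rw [ha i s hs]
      simp
  have htot : ∑ i : {s : ι → Bool // s i0 = false}, 2 * lam i = (1 + σ) * 2 ^ Fintype.card ι := by
    rw [← mul_sum, ← sum_subtype (univ.filter fun s : ι → Bool => s i0 = false) (by simp) lam,
      sum_filter]
    have : ∀ s : ι → Bool, (if s i0 = false then lam s else 0) = ∏ i, (if i = i0 ∧ s i then 0 else
        if t i = -1 then (if s i then 1 - σ else 1 + σ) else 1) := by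
      intro s
      split_ifs with h
      · refine prod_congr rfl fun i _ => (if_neg ?_).symm
        rintro ⟨rfl, h'⟩
        simp [h] at h'
      · refine (prod_eq_zero (mem_univ i0) ?_).symm
        exact if_pos ⟨rfl, by simpa using h⟩
    simp only [this]
    rw [sum_prod_pi fun i (b : Bool) => if i = i0 ∧ b then 0 else
        if t i = -1 then (if b then 1 - σ else 1 + σ) else 1]
    have : ∀ i, (∑ b : Bool, if i = i0 ∧ b then 0 else
        if t i = -1 then (if b then 1 - σ else 1 + σ) else 1) =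
        2 * if i = i0 then (1 + σ) / 2 else 1 := by
      intro i
      by_cases h : i = i0
      · subst h
        simp [hi0]
        ring
      · by_cases h' : t i = -1 <;> simp [h, h']
        ring
    simp only [this, prod_mul_distrib, prod_const, card_univ, prod_ite_eq', mem_univ, if_true]
    ring
  have h4 := sum_le_sum fun i (_ : i ∈ univ) => hi i
  rw [htot, sum_comm] at h4
  have h5 := h4.trans (sum_le_sum fun y (_ : y ∈ univ) => hy y)
  rw [sum_add_distrib] at h5
  simp only [sum_const, card_univ, Fintype.card_fun, Fintype.card_units_int, nsmul_eq_mul,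
    Nat.cast_pow, Nat.cast_ofNat, mul_one] at h5
  linarith

end Vale.Agent.P322
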