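import Vale.Agent.P322.CKCert
import Vale.Agent.P322.Core

/-!
The entropy profile `BB`, the induction step and three criteria for it.
-/

namespace Vale.Agent.P322

open Real Finset

noncomputable def kap (e : ℝ) : ℝ := binEntropy e - 4 * e * (1 - e) * log 2

noncomputable def BB (e m : ℝ) : ℝ := 4 * e * (1 - e) * binEntropy m + kap e * (4 * m * (1 - m))

def Step (e a b : ℝ) : Prop :=
  ∃ l c A g : ℝ, 0 ≤ l ∧ (∀ p q, 0 < p → p < 1 → 0 < q → q < 1 →
    c + A * (p + q) + g * (q - p) + l * (binEntropy p + binEntropy q) ≤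
      binEntropy ((1 - e) * p + e * q) + binEntropy (e * p + (1 - e) * q)) ∧
    2 * BB e ((a + b) / 2) ≤ c + A * (a + b) + g * (b - a) + l * (BB e a + BB e b)

theorem BB_flip (e m : ℝ) : BB e (1 - m) = BB e m := by
  simp only [BB, binEntropy_one_sub]
  ring

theorem Step.swap {e a b : ℝ} (h : Step e a b) : Step e b a := by
  obtain ⟨l, c, A, g, hl, h1, h2⟩ := h
  refine ⟨l, c, A, -g, hl, fun p q p0 p1 q0 q1 => ?_, ?_⟩
  · have := h1 q p q0 q1 p0 p1
    rw [add_comm ((1 - e) * q), add_comm (e * q)] at this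
    linarith
  · rw [add_comm b a]
    linarith

theorem Step.flip {e a b : ℝ} (h : Step e (1 - a) (1 - b)) : Step e a b := by
  obtain ⟨l, c, A, g, hl, h1, h2⟩ := h
  refine ⟨l, c + 2 * A, -A, -g, hl, fun p q p0 p1 q0 q1 => ?_, ?_⟩
  · have := h1 (1 - p) (1 - q) (by linarith) (by linarith) (by linarith) (by linarith)
    rw [show (1 - e) * (1 - p) + e * (1 - q) = 1 - ((1 - e) * p + e * q) by ring,
      show e * (1 - p) + (1 - e) * (1 - q) = 1 - (e * p + (1 - e) * q) by ring] at this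
    simp only [binEntropy_one_sub] at this
    linarith
  · rw [show (1 - a + (1 - b)) / 2 = 1 - (a + b) / 2 by ring] at h2
    simp only [BB_flip] at h2
    linarith

theorem step_diag {e : ℝ} (h0 : 0 ≤ e) (h1 : e ≤ 1) (a : ℝ) : Step e a a := by
  refine ⟨1, 0, 0, 0, zero_le_one, fun p q p0 p1 q0 q1 => ?_, ?_⟩
  · have c := strictConcave_binEntropy.concaveOn.2 (⟨p0.le, p1.le⟩ : p ∈ Set.Icc 0 1)
      (⟨q0.le, q1.le⟩ : q ∈ Set.Icc 0 1)
    have c1 := c (sub_nonneg.2 h1) h0 (by ring)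
    have c2 := c h0 (sub_nonneg.2 h1) (by ring)
    simp only [smul_eq_mul] at c1 c2
    linarith
  · rw [add_self_div_two]
    linarith

theorem step_of_plane {e m d l A g : ℝ} (hl : 0 ≤ l)
    (h : ∀ u d, |d| < 2 * u → |d| < 2 * (1 - u) →
      A * u + g * d + l * Hh u d ≤ Hh u ((1 - 2 * e) * d))
    (hB : BB e m ≤ A * m + g * d + l * ((BB e (m - d / 2) + BB e (m + d / 2)) / 2)) :
    Step e (m - d / 2) (m + d / 2) := by
  refine ⟨l, 0, A, 2 * g, hl, fun p q p0 p1 q0 q1 => ?_, ?_⟩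
  · have := h ((p + q) / 2) (q - p) (abs_lt.2 ⟨by linarith, by linarith⟩)
      (abs_lt.2 ⟨by linarith, by linarith⟩)
    simp only [Hh] at this
    rw [show (p + q) / 2 - (q - p) / 2 = p by ring, show (p + q) / 2 + (q - p) / 2 = q by ring,
      show (p + q) / 2 - (1 - 2 * e) * (q - p) / 2 = (1 - e) * p + e * q by ring,
      show (p + q) / 2 + (1 - 2 * e) * (q - p) / 2 = e * p + (1 - e) * q by ring] at this
    linarith
  · rw [show (m - d / 2 + (m + d / 2)) / 2 = m by ring]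
    linarith

theorem BB_avg (e m d : ℝ) : (BB e (m - d / 2) + BB e (m + d / 2)) / 2 =
    4 * e * (1 - e) * Hh m d + kap e * (4 * m * (1 - m) - d ^ 2) := by
  simp only [BB, Hh]
  ring

theorem stepV {e m d : ℝ} (he0 : 0 < e) (he1 : e < 1 / 2) (hm : m ≤ 1 / 2) (hd0 : 0 < d)
    (hd : d < 2 * m)
    (H : (-log (1 - m) + pp ((1 - 2 * e) * (d / (2 * (1 - m))))) *
      (Hh m d - (4 * e * (1 - e) * Hh m d + kap e * (4 * m * (1 - m) - d ^ 2))) ≤
      (-log (1 - m) + pp (d / (2 * (1 - m)))) * (Hh m ((1 - 2 * e) * d) - BB e m)) :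
    Step e (m - d / 2) (m + d / 2) := by
  obtain ⟨l, A, g, l0, -, hl, hp, -, h⟩ :=
    cert (r := 1 - 2 * e) (by linarith) (by linarith) hm hd0 hd
  refine step_of_plane l0 h ?_
  have a : 0 < -log (1 - m) := neg_pos.2 (log_neg (by linarith) (by linarith))
  have b := pp_nonneg (x := d / (2 * (1 - m))) (div_pos hd0 (by linarith)).le
    (by rw [div_lt_one (by linarith)]; linarith)
  rw [← hl, mul_comm l, mul_assoc] at H
  have := le_of_mul_le_mul_left H (by linarith)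
  rw [BB_avg, hp]
  linarith

noncomputable def eta (u v : ℝ) : ℝ := (u + v) * log (u + v) - u * log u - v * log v

theorem eta_eq {u v : ℝ} (hu : 0 < u) (hv : 0 < v) :
    eta u v = (u + v) * Hh (1 / 2) ((v - u) / (u + v)) := by
  have h : 0 < u + v := by linarith
  rw [Hh, show 1 / 2 + (v - u) / (u + v) / 2 = 1 - u / (u + v) by field_simp; ring,
    show 1 / 2 - (v - u) / (u + v) / 2 = u / (u + v) by field_simp; ring, binEntropy_one_sub,
    ent_eq, show 1 - u / (u + v) = v / (u + v) by field_simp; ring, log_div hu.ne' h.ne',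
    log_div hv.ne' h.ne', eta]
  field_simp
  ring

theorem stepG {e m d n : ℝ} (he0 : 0 < e) (he1 : e < 1 / 2) (hd0 : 0 < d) (hn : 0 < n)
    (H : ∀ l, 0 ≤ l → l ≤ 1 → BB e m ≤ eta (n + e * d) (n + d - e * d) - l * (eta n (n + d) -
      (4 * e * (1 - e) * Hh m d + kap e * (4 * m * (1 - m) - d ^ 2)))) :
    Step e (m - d / 2) (m + d / 2) := by
  have hw : 0 < 2 * n + d := by linarith
  obtain ⟨l, A, g, l0, l1, -, hp, hA, h⟩ := cert (r := 1 - 2 * e) (m := 1 / 2)
    (dl := d / (2 * n + d)) (by linarith) (by linarith) le_rfl (by positivity)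
    (by rw [div_lt_iff₀ hw]; linarith)
  refine step_of_plane l0 h ?_
  have h1 := H l l0 l1
  rw [eta_eq hn (by linarith), eta_eq (by positivity) (by nlinarith),
    show n + (n + d) = 2 * n + d by ring, show n + d - n = d by ring,
    show n + e * d + (n + d - e * d) = 2 * n + d by ring,
    show n + d - e * d - (n + e * d) = (1 - 2 * e) * d by ring, mul_div_assoc] at h1
  have h2 := congrArg (HMul.hMul (2 * n + d)) hp
  have h3 : (2 * n + d) * (d / (2 * n + d)) = d := mul_div_cancel₀ _ hw.ne'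
  rw [BB_avg, hA rfl] at *
  linarith [congrArg (HMul.hMul g) h3]

theorem kap_eq {e : ℝ} (h0 : 0 < e) (h1 : e < 1) :
    kap e = (1 - 2 * e) ^ 2 * log 2 - ph (1 - 2 * e) := by
  rw [kap, ent_eq_ph' h0 h1]
  ring

theorem ph_ge_half {x : ℝ} (h0 : -1 < x) (h1 : x < 1) : x ^ 2 / 2 ≤ ph x := by
  have := ph_ge_sum 1 (abs_nonneg x) (abs_lt.2 ⟨h0, h1⟩)
  simp only [sum_range_one, cc, ph_abs, sq_abs] at this
  norm_num at this
  linarith

theorem kap_nonneg {e : ℝ} (h0 : 0 < e) (h1 : e < 1) : 0 ≤ kap e := by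
  have := ent_ge h0 h1
  rw [kap]
  linarith

theorem kap_le {e : ℝ} (h0 : 0 < e) (h1 : e < 1) : kap e ≤ (1 - 2 * e) ^ 2 * (log 2 - 1 / 2) := by
  have := ph_ge_half (x := 1 - 2 * e) (by linarith) (by linarith)
  rw [kap_eq h0 h1]
  linarith

theorem BB_le {e u : ℝ} (h0 : 0 < e) (h1 : e < 1) (u0 : 0 < u) (u1 : u < 1) :
    BB e u ≤ binEntropy u := by
  have a := mul_le_mul_of_nonneg_left (ent_ge u0 u1) (sq_nonneg (1 - 2 * e))
  have v : 0 ≤ 4 * u * (1 - u) := by nlinarith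
  have b := mul_le_mul_of_nonneg_right (kap_le h0 h1) v
  have c := mul_nonneg (sq_nonneg (1 - 2 * e)) v
  rw [BB]
  linarith

theorem BB_ge {e u : ℝ} (h0 : 0 < e) (h1 : e < 1) (u0 : 0 < u) (u1 : u < 1) :
    binEntropy u - BB e u ≤ log 2 - binEntropy e := by
  have a := mul_le_mul_of_nonneg_left (ph_ge_half (x := 1 - 2 * u) (by linarith) (by linarith))
    (sq_nonneg (1 - 2 * e))
  have b := mul_le_mul_of_nonneg_right (kap_le h0 h1) (sq_nonneg (1 - 2 * u))
  have c := mul_nonneg (mul_nonneg (sq_nonneg (1 - 2 * e)) (sq_nonneg (1 - 2 * u)))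
    (show 0 ≤ 1 - log 2 by linarith [log_two_lt_d9])
  have d : binEntropy e = kap e + 4 * e * (1 - e) * log 2 := by
    rw [kap]
    ring
  rw [BB, ent_eq_ph' u0 u1, d]
  linarith

/-- The noise operator. -/
def noise {n : ℕ} (e : ℝ) (g : (Fin n → ℤˣ) → ℝ) (y : Fin n → ℤˣ) : ℝ :=
  ∑ x, ker (fun _ => e) x y * g x

theorem sum_cons {n : ℕ} (F : (Fin (n + 1) → ℤˣ) → ℝ) :
    ∑ x, F x = ∑ x : Fin n → ℤˣ, F (Fin.cons 1 x) + ∑ x : Fin n → ℤˣ, F (Fin.cons (-1) x) := by
  rw [← (Fin.consEquiv fun _ => ℤˣ).sum_comp, Fintype.sum_prod_type, sum_units]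
  rfl

theorem noise_cons {n : ℕ} (e : ℝ) (g : (Fin (n + 1) → ℤˣ) → ℝ) (y : Fin n → ℤˣ) :
    noise e g (Fin.cons 1 y) = (1 - e) * noise e (fun x => g (Fin.cons 1 x)) y +
      e * noise e (fun x => g (Fin.cons (-1) x)) y ∧
    noise e g (Fin.cons (-1) y) = e * noise e (fun x => g (Fin.cons 1 x)) y +
      (1 - e) * noise e (fun x => g (Fin.cons (-1) x)) y := by
  constructor <;> simp [noise, sum_cons, ker, Fin.prod_univ_succ, mul_sum, mul_assoc,
    one_ne_neg.symm]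

theorem noise_sum {n : ℕ} (e : ℝ) (g : (Fin n → ℤˣ) → ℝ) : ∑ y, noise e g y = ∑ x, g x := by
  simp only [noise]
  rw [sum_comm]
  refine sum_congr rfl fun x _ => ?_
  simp only [← sum_mul, ker_comm _ x, ker_sum, one_mul]

theorem noise_pos {n : ℕ} {e : ℝ} (h0 : 0 < e) (h1 : e < 1) {g : (Fin n → ℤˣ) → ℝ}
    (hg : ∀ x, 0 < g x) (y : Fin n → ℤˣ) : 0 < noise e g y :=
  sum_pos (fun x _ => mul_pos (prod_pos fun i _ => by split_ifs <;> linarith) (hg x)) univ_nonempty

theorem noise_one_sub {n : ℕ} (e : ℝ) (g : (Fin n → ℤˣ) → ℝ) (y : Fin n → ℤˣ) :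
    noise e (fun x => 1 - g x) y = 1 - noise e g y := by
  simp only [noise, mul_sub, sum_sub_distrib, mul_one, ker_sum]

theorem avg_mem {n : ℕ} {g : (Fin n → ℤˣ) → ℝ} (h0 : ∀ x, 0 < g x) (h1 : ∀ x, g x < 1) :
    0 < (∑ x, g x) / 2 ^ n ∧ (∑ x, g x) / 2 ^ n < 1 := by
  refine ⟨div_pos (sum_pos (fun x _ => h0 x) univ_nonempty) (by positivity), ?_⟩
  rw [div_lt_one (by positivity)]
  simpa using sum_lt_sum_of_nonempty univ_nonempty fun x _ => h1 x

theorem profile {e : ℝ} (h0 : 0 < e) (h1 : e < 1)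
    (hs : ∀ a b, 0 < a → a < 1 → 0 < b → b < 1 → Step e a b) (n : ℕ) :
    ∀ g : (Fin n → ℤˣ) → ℝ, (∀ x, 0 < g x) → (∀ x, g x < 1) →
      2 ^ n * BB e ((∑ x, g x) / 2 ^ n) ≤ ∑ y, binEntropy (noise e g y) := by
  induction n with
  | zero =>
    intro g g0 g1
    simpa [noise, ker] using BB_le h0 h1 (g0 _) (g1 _)
  | succ n ih =>
    intro g g0 g1
    have i0 := ih (fun x => g (Fin.cons 1 x)) (fun x => g0 _) fun x => g1 _
    have i1 := ih (fun x => g (Fin.cons (-1) x)) (fun x => g0 _) fun x => g1 _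
    obtain ⟨a0, a1⟩ := avg_mem (g := fun x => g (Fin.cons 1 x)) (fun x => g0 _) fun x => g1 _
    obtain ⟨b0, b1⟩ := avg_mem (g := fun x => g (Fin.cons (-1) x)) (fun x => g0 _) fun x => g1 _
    obtain ⟨l, c, A, k, hl, hp, hB⟩ := hs _ _ a0 a1 b0 b1
    have lt : ∀ (f : (Fin n → ℤˣ) → ℝ), (∀ x, f x < 1) → ∀ y, noise e f y < 1 := fun f hf y => by
      have := noise_pos h0 h1 (g := fun x => 1 - f x) (fun x => sub_pos.2 (hf x)) y
      rw [noise_one_sub] at this
      linarith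
    have s := sum_le_sum fun y (_ : y ∈ univ) => hp _ _
      (noise_pos h0 h1 (g := fun x => g (Fin.cons 1 x)) (fun x => g0 _) y) (lt _ (fun x => g1 _) y)
      (noise_pos h0 h1 (g := fun x => g (Fin.cons (-1) x)) (fun x => g0 _) y)
      (lt _ (fun x => g1 _) y)
    simp only [sum_add_distrib, ← mul_sum, sum_sub_distrib, noise_sum, sum_const, card_univ,
      Fintype.card_pi, Fintype.card_units_int, prod_const, Fintype.card_fin, nsmul_eq_mul] at s
    rw [sum_cons g, sum_cons fun y => binEntropy (noise e g y)]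
    simp only [(noise_cons e g _).1, (noise_cons e g _).2]
    have hN : (0 : ℝ) < 2 ^ n := by positivity
    have e1 := mul_div_cancel₀ (∑ x : Fin n → ℤˣ, g (Fin.cons 1 x)) hN.ne'
    have e2 := mul_div_cancel₀ (∑ x : Fin n → ℤˣ, g (Fin.cons (-1) x)) hN.ne'
    rw [pow_succ, ← div_div, add_div (∑ x : Fin n → ℤˣ, g (Fin.cons 1 x))]
    have t := mul_le_mul_of_nonneg_left hB hN.le
    have u := mul_le_mul_of_nonneg_left (add_le_add i0 i1) hl
    push_cast at s
    linarith [congrArg (HMul.hMul A) e1, congrArg (HMul.hMul A) e2, congrArg (HMul.hMul k) e1,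
      congrArg (HMul.hMul k) e2]

end Vale.Agent.P322
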