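import Mathlib
import Vale.Agent.P322.Core
import Vale.Agent.P358.Conv

/-!
From one sign change to a partition of the cube into subcubes, and the entropy bound.
-/

namespace Vale.Agent.P322

open Finset

variable {ι : Type} [Fintype ι] [DecidableEq ι]

omit [DecidableEq ι] in
theorem ker_ne {t x w : ι → ℤˣ} {ε : ℝ} (h : ker (fun i => if t i = -1 then ε else 0) x w ≠ 0)
    (i : ι) (hi : t i = 1) : x i = w i := by
  by_contra h'
  refine h (prod_eq_zero (mem_univ i) ?_)
  simp [h', hi]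

omit [DecidableEq ι] in
theorem ker_mul (e : ι → ℝ) (d x w : ι → ℤˣ) : ker e (d * x) (d * w) = ker e x w := by
  simp [ker]

theorem cells {f : (ι → ℤˣ) → ℤˣ} {τ : (ι → ℤˣ) → ι → ℤˣ}
    (hτ : ∀ x x', (∀ i, τ x i = 1 → x' i = x i) → τ x' = τ x) (hf : ∀ x, f (τ x * x) = -f x)
    {ε : ℝ} (h0 : 0 ≤ ε) (h1 : ε ≤ 1) (u : (ι → ℤˣ) → ℝ)
    (hu : ∀ y, u y = ∑ x ∈ univ.filter (fun x => f x = 1), ker (fun _ => ε) x y) :
    2 * (√(1 - ε) * √ε) * 2 ^ Fintype.card ι ≤ ∑ y, 2 * √(u y * (1 - u y)) := by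
  set e : (ι → ℤˣ) → ι → ℝ := fun w i => if τ w i = -1 then ε else 0 with he
  set e' : (ι → ℤˣ) → ι → ℝ := fun w i => if τ w i = -1 then 0 else ε with he'
  have he0 : ∀ w i, 0 ≤ e w i := fun w i => by simp only [he]; split_ifs <;> linarith
  have he1 : ∀ w i, e w i ≤ 1 := fun w i => by simp only [he]; split_ifs <;> linarith
  have he0' : ∀ w i, 0 ≤ e' w i := fun w i => by simp only [he']; split_ifs <;> linarith
  have he1' : ∀ w i, e' w i ≤ 1 := fun w i => by simp only [he']; split_ifs <;> linarith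
  set U : (ι → ℤˣ) → ℝ := fun w => ∑ x ∈ univ.filter (fun x => f x = 1), ker (e w) x w with hU
  have hU0 : ∀ w, 0 ≤ U w := fun w => sum_nonneg fun x _ => ker_nonneg (he0 w) (he1 w) x w
  have hU1 : ∀ w, 0 ≤ 1 - U w := fun w => by
    rw [← ker_sum (e w) w, sub_nonneg]
    exact sum_le_univ_sum_of_nonneg fun x => ker_nonneg (he0 w) (he1 w) x w
  have hsplit : ∀ x y, ker (fun _ => ε) x y = ∑ w, ker (e w) x w * ker (e' w) w y := by
    intro x y
    rw [ker_split (τ x)]
    refine sum_congr rfl fun w _ => ?_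
    by_cases h : τ w = τ x
    · simp only [he, he', h]
    · have a1 : ker (fun i => if τ x i = -1 then ε else 0) x w = 0 := by
        by_contra h'
        exact h (hτ x w fun i hi => (ker_ne h' i hi).symm)
      have a2 : ker (e w) x w = 0 := by
        by_contra h'
        exact h (hτ w x fun i hi => ker_ne h' i hi).symm
      rw [a1, a2, zero_mul, zero_mul]
  have hu1 : ∀ y, u y = ∑ w, U w * ker (e' w) w y := by
    intro y
    simp only [hu, hsplit, hU, sum_mul]
    exact sum_comm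
  have hu2 : ∀ y, 1 - u y = ∑ w, (1 - U w) * ker (e' w) w y := by
    intro y
    have := ker_sum (fun _ => ε) y
    simp only [hsplit] at this
    rw [sum_comm] at this
    simp only [← sum_mul, ker_sum, one_mul] at this
    simp only [sub_mul, sum_sub_distrib, one_mul, this, hu1]
  have hcs : ∀ y, ∑ w, √(U w * (1 - U w)) * ker (e' w) w y ≤ √(u y * (1 - u y)) := by
    intro y
    rw [hu2, hu1]
    refine Real.le_sqrt_of_sq_le (sum_sq_le_sum_mul_sum_of_sq_le_mul _
      (fun w _ => mul_nonneg (hU0 w) (ker_nonneg (he0' w) (he1' w) _ _))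
      (fun w _ => mul_nonneg (hU1 w) (ker_nonneg (he0' w) (he1' w) _ _)) fun w _ => le_of_eq ?_)
    rw [mul_pow, Real.sq_sqrt (mul_nonneg (hU0 w) (hU1 w))]
    ring
  have hsum : ∑ w, 2 * √(U w * (1 - U w)) ≤ ∑ y, 2 * √(u y * (1 - u y)) := by
    have := sum_le_sum fun y (_ : y ∈ univ) => hcs y
    rw [sum_comm] at this
    simp only [← mul_sum] at this ⊢
    have h3 : ∀ w, ∑ y, ker (e' w) w y = 1 := fun w => by
      simp only [ker_comm (e' w) w, ker_sum]
    simp only [h3, mul_one] at this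
    linarith
  refine le_trans ?_ hsum
  let pr : (ι → ℤˣ) → (ι → ℤˣ) → ι → ℤˣ := fun c w i => if τ c i = 1 then c i else w i
  have hpr : ∀ c w, τ (pr c w) = τ c := fun c w => hτ c _ fun i hi => if_pos hi
  have hc : ∀ c, 2 * (√(1 - ε) * √ε) * 2 ^ Fintype.card ι ≤
      ∑ w, 2 * √(U (pr c w) * (1 - U (pr c w))) := by
    intro c
    refine core (f := fun x => f (pr c x)) (t := τ c) (fun x => ?_) h0 h1 _ fun w => ?_
    · rw [← hf, hpr]
      congr 1
      funext i
      by_cases h : τ c i = 1 <;> simp [pr, h]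
    · let d : ι → ℤˣ := fun i => if τ c i = 1 then c i * w i else 1
      have hd : d * w = pr c w := by
        funext i
        by_cases h : τ c i = 1 <;> simp [d, pr, h, mul_assoc]
      simp only [hU, he, hpr, sum_filter]
      rw [← Equiv.sum_comp (Equiv.mulLeft d)]
      refine sum_congr rfl fun x _ => ?_
      simp only [Equiv.coe_mulLeft, ← hd, ker_mul]
      by_cases h : ker (fun i => if τ c i = -1 then ε else 0) x w = 0
      · simp [h]
      · have : d * x = pr c x := by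
          funext i
          by_cases h' : τ c i = 1
          · simp [d, pr, h', ker_ne h i h', mul_assoc]
          · simp [d, pr, h']
        rw [this]
  let Φ : (ι → ℤˣ) × (ι → ℤˣ) → (ι → ℤˣ) × (ι → ℤˣ) := fun p =>
    (pr p.1 p.2, fun i => if τ p.1 i = 1 then p.2 i else p.1 i)
  have hΦ : Function.Involutive Φ := by
    rintro ⟨c, w⟩
    ext i <;> by_cases h : τ c i = 1 <;> simp [Φ, hpr, h] <;> simp [pr, hpr, h]
  have h5 := Equiv.sum_comp hΦ.toPerm fun p => 2 * √(U p.1 * (1 - U p.1))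
  simp only [Function.Involutive.coe_toPerm, Φ, Fintype.sum_prod_type, sum_const, card_univ,
    nsmul_eq_mul, ← mul_sum] at h5
  have h6 := sum_le_sum fun c (_ : c ∈ univ) => hc c
  simp only [sum_const, card_univ, nsmul_eq_mul, ← mul_sum] at h6 ⊢
  rw [h5] at h6
  have hN : (0 : ℝ) < Fintype.card (ι → ℤˣ) := by positivity
  exact le_of_mul_le_mul_left (h6.trans_eq (mul_left_comm _ _ _)) hN

theorem ent_eq {u : ℝ} (h0 : 0 ≤ u) (h1 : u ≤ 1) :
    Real.binEntropy u = P358.woot (2 * √(u * (1 - u))) := by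
  have : 1 - (2 * √(u * (1 - u))) ^ 2 = (1 - 2 * u) ^ 2 := by
    rw [mul_pow, Real.sq_sqrt (mul_nonneg h0 (by linarith))]
    ring
  rw [P358.woot, this, Real.sqrt_sq_eq_abs]
  rcases abs_choice (1 - 2 * u) with h | h <;> rw [h]
  · rw [← Real.binEntropy_one_sub]
    congr 1
    ring
  · congr 1
    ring

theorem ent_bound {Y : Type} [Fintype Y] [Nonempty Y] (u : Y → ℝ) (h0 : ∀ y, 0 ≤ u y)
    (h1 : ∀ y, u y ≤ 1) {ε : ℝ} (e0 : 0 ≤ ε) (e1 : ε ≤ 1)
    (h : 2 * (√(1 - ε) * √ε) * Fintype.card Y ≤ ∑ y, 2 * √(u y * (1 - u y))) :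
    Real.binEntropy ε * Fintype.card Y ≤ ∑ y, Real.binEntropy (u y) := by
  have hN : (0 : ℝ) < Fintype.card Y := by positivity
  have hm : ∀ v : ℝ, 0 ≤ v → v ≤ 1 → 2 * √(v * (1 - v)) ∈ Set.Icc (0 : ℝ) 1 := fun v a b =>
    ⟨by positivity, by
      have : √(v * (1 - v)) ≤ 1 / 2 := Real.sqrt_le_iff.2 ⟨by norm_num, by nlinarith [sq_nonneg (1 - 2 * v)]⟩
      linarith⟩
  have hw : ∑ _y : Y, (Fintype.card Y : ℝ)⁻¹ = 1 := by simp
  have hj := P358.woot_convex.map_sum_le (t := univ) (w := fun _ : Y => (Fintype.card Y : ℝ)⁻¹)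
    (p := fun y => 2 * √(u y * (1 - u y))) (fun _ _ => by positivity) hw
    fun y _ => hm _ (h0 y) (h1 y)
  have hmem := (convex_Icc (0 : ℝ) 1).sum_mem (t := univ) (w := fun _ : Y => (Fintype.card Y : ℝ)⁻¹)
    (z := fun y => 2 * √(u y * (1 - u y))) (fun _ _ => by positivity) hw
    fun y _ => hm _ (h0 y) (h1 y)
  simp only [smul_eq_mul, ← mul_sum _ _ (Fintype.card Y : ℝ)⁻¹] at hj hmem
  have hle := P358.woot_mono (hm ε e0 e1) hmem (by
    rw [Real.sqrt_mul e0, mul_comm (√ε), le_inv_mul_iff₀ hN]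
    linarith)
  rw [← ent_eq e0 e1] at hle
  simp only [← ent_eq (h0 _) (h1 _)] at hj
  have := hle.trans hj
  rw [le_inv_mul_iff₀ hN] at this
  linarith

end Vale.Agent.P322
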